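import Vale.Agent.P057T.Mt.Defs

/-!
Row TOK: the bridge from multi-affine towers to the rows of `Cp`.
-/

set_option linter.all false

open MvPolynomial Finset

namespace Vale.Agent.P057T.Mt

open Vale.Agent.P057T.Eq Vale.Agent.P057T.Cp

noncomputable section

namespace Tok

variable {ι Γ : Type} [Fintype ι] [DecidableEq ι] [Fintype Γ] [DecidableEq Γ]

theorem dg_single (col : ι → Finset Γ) (c : Γ) (b : ι) (n : ℕ) :
    dg col c (Finsupp.single b n) = if c ∈ col b then n else 0 := by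
  rw [dg, Finsupp.weight_single]
  split_ifs <;> simp

theorem dg_pos {col : ι → Finset Γ} {c : Γ} {m : ι →₀ ℕ} {b : ι} (hb : b ∈ m.support)
    (hc : c ∈ col b) : 1 ≤ dg col c m := by
  have h := Finsupp.le_weight (fun a => if c ∈ col a then 1 else 0) (s := b) (by simp [hc]) m
  exact (Nat.one_le_iff_ne_zero.2 (Finsupp.mem_support_iff.1 hb)).trans h

/-- the variables of a typed polynomial have smaller colour sets -/
theorem col_sub {col : ι → Finset Γ} {e : Finset Γ} {F : MvPolynomial ι ℝ} (h : Ty col e F)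
    {b : ι} (hb : b ∈ F.vars) : col b ⊆ e := fun c hc => by
  obtain ⟨m, hm, hbm⟩ := (mem_vars_iff_mem_support b).1 hb
  have := (dg_pos hbm hc).trans (h m hm c)
  by_contra k
  rw [if_neg k] at this
  omega

theorem ty_add {col : ι → Finset Γ} {e : Finset Γ} {F G : MvPolynomial ι ℝ} (h : Ty col e F)
    (k : Ty col e G) : Ty col e (F + G) := fun m hm =>
  (mem_union.1 (support_add hm)).elim (h m) (k m)

theorem ty_zero (col : ι → Finset Γ) (e : Finset Γ) : Ty col e (0 : MvPolynomial ι ℝ) :=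
  fun m hm => by simp at hm

theorem ty_sum {col : ι → Finset Γ} {e : Finset Γ} {κ : Type} (s : Finset κ)
    {F : κ → MvPolynomial ι ℝ} (h : ∀ k ∈ s, Ty col e (F k)) : Ty col e (∑ k ∈ s, F k) :=
  Finset.sum_induction F (Ty col e) (fun _ _ => ty_add) (ty_zero col e) h

theorem ty_lin {col : ι → Finset Γ} {e : Finset Γ} (x : ℝ) (b : ι) (h : x ≠ 0 → col b ⊆ e) :
    Ty col e (C x * X b) := by
  by_cases hx : x = 0
  · rw [hx, C_0, zero_mul]; exact ty_zero col e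
  intro m hm c
  rw [C_mul_X_eq_monomial] at hm
  rw [mem_singleton.1 (support_monomial_subset hm), dg_single]
  split_ifs with h1 h2
  exacts [le_rfl, absurd (h hx h1) h2, Nat.zero_le _, le_rfl]

theorem vars_lin (x : ℝ) (b : ι) {V : Finset ι} (h : x ≠ 0 → b ∈ V) :
    (C x * X b : MvPolynomial ι ℝ).vars ⊆ V := by
  by_cases hx : x = 0
  · rw [hx, C_0, zero_mul, vars_0]; exact empty_subset _
  refine (vars_mul _ _).trans ?_
  rw [vars_C, vars_X, empty_union]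
  exact singleton_subset_iff.2 (h hx)

variable (M : MT ι Γ)

theorem ch_eq (a : ι) : M.ch a = ∑ b, C (M.A a b) * X b + M.p a := by
  simp [MT.ch, GT.ch, GT.th, MT.G, MT.T]

variable {M}

theorem gok (h : M.Ok) : M.G.Ok (univ.sup M.w + 1) where
  w1 := h.w1
  ws a := (le_sup (f := M.w) (mem_univ a)).trans (Nat.le_succ _)
  gs _ := Nat.succ_pos _
  AB := h.AB
  blk a b k := ⟨rfl, (h.blk a b k).1⟩
  qh _ := isWeightedHomogeneous_zero _ _ _
  ql _ b hb := by simp [MT.G] at hb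
  qe _ _ := rfl

theorem aok (h : M.Ok) : ∃ P : ℝ, 0 < P ∧ M.G.AOk M.T P := by
  have h1 : ∀ a, M.sg a + (M.sg a)⁻¹ ≤ ∑ b, (M.sg b + (M.sg b)⁻¹) := fun a =>
    single_le_sum (f := fun b => M.sg b + (M.sg b)⁻¹)
      (fun b _ => add_nonneg (h.sg b).le (inv_pos.2 (h.sg b)).le) (mem_univ a)
  have h0 : 0 ≤ ∑ b, (M.sg b + (M.sg b)⁻¹) :=
    sum_nonneg fun b _ => add_nonneg (h.sg b).le (inv_pos.2 (h.sg b)).le
  refine ⟨1 + ∑ b, (M.sg b + (M.sg b)⁻¹), by linarith, h.bk, fun a _ => by simp [MT.G], h.pv, h.pd,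
    fun a _ b _ => Nat.zero_lt_one, fun a => ?_, fun a => ?_⟩
  · refine inv_le_of_inv_le₀ (h.sg a) ?_
    have := h1 a
    have := h.sg a
    show (M.sg a)⁻¹ ≤ _
    linarith
  · have := h1 a
    have := inv_pos.2 (h.sg a)
    show M.sg a ≤ _
    linarith

theorem colT (h : M.Ok) : ColT M.T M.col := fun a ha _ hb => col_sub (h.ty a ha) hb

theorem mv_sub (F : Finset Γ) : M.mv F ⊆ M.U := filter_subset _ _

theorem bk_mv (h : M.Ok) (F : Finset Γ) : M.G.Bk (M.mv F) := fun a b k => by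
  simp only [MT.mv, mem_filter, h.bk a b k, (h.blk a b k).2]

theorem bk_bs (h : M.Ok) (F : Finset Γ) : M.G.Bk (M.U \ M.mv F) := fun a b k => by
  simp only [mem_sdiff, h.bk a b k, bk_mv h F a b k]

theorem pv_bs (h : M.Ok) (F : Finset Γ) {a : ι} (ha : a ∈ M.U \ M.mv F) :
    (M.p a).vars ⊆ M.U \ M.mv F := fun b hb => by
  obtain ⟨h1, h2⟩ := mem_sdiff.1 ha
  refine mem_sdiff.2 ⟨h.pv a h1 hb, fun k => h2 (mem_filter.2 ⟨h1, ?_⟩)⟩
  exact (mem_filter.1 k).2.mono (inter_subset_inter_right (colT h a h1 b hb))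

end Tok

open Tok

theorem tok (hD : DET) : TOK := by
  intro ι Γ _ _ _ _ M h
  obtain ⟨d1, -, d3, -⟩ := hD _ ι M.G (gok h)
  obtain ⟨P, hP, hA⟩ := aok h
  refine ⟨⟨_, P, hP, gok h, hA⟩, ⟨fun a b k => (h.blk a b k).2, fun a b hb => by simp [MT.G] at hb,
    fun a m hm => by simp [MT.G] at hm⟩, colT h,
    mul_pos (d1 _ h.bk) (prod_pos fun a _ => inv_pos.2 (h.sg a)), ch_eq M, fun a ha => ?_,
    fun F y => ⟨⟨bk_bs h F, fun a _ => by simp [MT.G], fun a _ k => pv_bs h F k⟩,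
      Finset.sdiff_sdiff_eq_self (mv_sub F), ?_⟩⟩
  · rw [ch_eq]
    refine ⟨(vars_add_subset _ _).trans (union_subset ((vars_sum_subset _ _).trans ?_) (h.pv a ha)),
      ty_add (ty_sum _ fun b _ => ty_lin _ _ fun k => (h.blk a b (Or.inl k)).2.ge) (h.ty a ha)⟩
    exact biUnion_subset.2 fun b _ => vars_lin _ _ fun k => (h.bk a b (Or.inl k)).1 ha
  · show M.G.dv (M.mv F) * (∏ a ∈ M.mv F, (M.sg a)⁻¹) *
      (M.G.dv (M.U \ M.mv F) * ∏ a ∈ M.U \ M.mv F, (M.sg a)⁻¹) =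
        M.G.dv M.U * ∏ a ∈ M.U, (M.sg a)⁻¹
    rw [d3 _ _ h.bk (bk_mv h F) (mv_sub F), ← prod_sdiff (mv_sub F)]
    ring

end

end Vale.Agent.P057T.Mt
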