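import Vale.Agent.P057T.Mt.Defs

/-!
Row EMB: embeddings of multi-affine towers.
-/

set_option linter.unusedSectionVars false

open MvPolynomial Finset

namespace Vale.Agent.P057T.Mt

open Vale.Agent.P057T.Eq Vale.Agent.P057T.Cp

namespace EmbP

variable {ι Γ ι' Γ' : Type} [Fintype ι] [DecidableEq ι] [Fintype Γ] [DecidableEq Γ]
  [Fintype ι'] [DecidableEq ι'] [Fintype Γ'] [DecidableEq Γ']

theorem coeff_kp (col : ι → Finset Γ) (D : Finset Γ) (F : MvPolynomial ι ℝ) (m : ι →₀ ℕ) :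
    coeff m (kp col D F) = if ∀ c ∈ D, dg col c m ≠ 0 then coeff m F else 0 := by
  rw [kp, coeff_sum]
  simp only [coeff_monomial]
  rw [Finset.sum_ite_eq']
  by_cases h : ∀ c ∈ D, dg col c m ≠ 0
  · rw [if_pos h]
    by_cases hm : m ∈ F.support
    · rw [if_pos (mem_filter.2 ⟨hm, h⟩)]
    · rw [if_neg fun h' => hm (mem_filter.1 h').1, notMem_support_iff.1 hm]
  · rw [if_neg h, if_neg fun h' => h (mem_filter.1 h').2]

theorem kp_kp (col : ι → Finset Γ) {D E : Finset Γ} (h : D ⊆ E) (F : MvPolynomial ι ℝ) :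
    kp col E (kp col D F) = kp col E F := by
  ext m
  rw [coeff_kp, coeff_kp, coeff_kp]
  by_cases hE : ∀ c ∈ E, dg col c m ≠ 0
  · rw [if_pos hE, if_pos hE, if_pos fun c hc => hE c (h hc)]
  · rw [if_neg hE, if_neg hE]

theorem kp_sub_C (col : ι → Finset Γ) {D : Finset Γ} (h : D.Nonempty) (F : MvPolynomial ι ℝ)
    (x : ℝ) : kp col D (F - C x) = kp col D F := by
  ext m
  rw [coeff_kp, coeff_kp]
  by_cases hE : ∀ c ∈ D, dg col c m ≠ 0
  · rw [if_pos hE, if_pos hE, coeff_sub, coeff_C, if_neg, sub_zero]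
    rintro rfl
    obtain ⟨c, hc⟩ := h
    exact hE c hc (map_zero _)
  · rw [if_neg hE, if_neg hE]

theorem dg_map {col : ι → Finset Γ} {col' : ι' → Finset Γ'} {j : ι' → ι} {c : Γ} {c' : Γ'}
    (h : ∀ b, c ∈ col (j b) ↔ c' ∈ col' b) (m : ι' →₀ ℕ) :
    dg col c (Finsupp.mapDomain j m) = dg col' c' m := by
  induction m using Finsupp.induction_linear with
  | zero => rw [Finsupp.mapDomain_zero]; exact (map_zero _).trans (map_zero _).symm
  | add f g hf hg =>
    rw [Finsupp.mapDomain_add]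
    exact ((map_add _ _ _).trans (congrArg₂ (· + ·) hf hg)).trans (map_add _ _ _).symm
  | single b n =>
    rw [Finsupp.mapDomain_single, dg, dg, Finsupp.weight_single, Finsupp.weight_single]
    by_cases hb : c' ∈ col' b
    · rw [if_pos hb, if_pos ((h b).2 hb)]
    · rw [if_neg hb, if_neg fun h' => hb ((h b).1 h')]

theorem kp_rename {col : ι → Finset Γ} {col' : ι' → Finset Γ'} {j : ι' → ι}
    (hj : Function.Injective j) {D : Finset Γ} {D' : Finset Γ'}
    (h : ∀ m, (∀ c ∈ D, dg col c (Finsupp.mapDomain j m) ≠ 0) ↔ ∀ c ∈ D', dg col' c m ≠ 0)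
    (F : MvPolynomial ι' ℝ) : rename j (kp col' D' F) = kp col D (rename j F) := by
  ext m
  rw [coeff_kp]
  by_cases hm : ∃ u, Finsupp.mapDomain j u = m
  · obtain ⟨u, rfl⟩ := hm
    rw [coeff_rename_mapDomain j hj, coeff_rename_mapDomain j hj, coeff_kp]
    by_cases hD : ∀ c ∈ D', dg col' c u ≠ 0
    · rw [if_pos hD, if_pos ((h u).2 hD)]
    · rw [if_neg hD, if_neg fun h' => hD ((h u).1 h')]
  · rw [coeff_rename_eq_zero j _ m fun u hu => absurd ⟨u, hu⟩ hm,
      coeff_rename_eq_zero j _ m fun u hu => absurd ⟨u, hu⟩ hm, ite_self]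

section
variable {K : Type} [Fintype K] [DecidableEq K] [Inhabited K]

theorem vx_inj (col : ι → Finset Γ) (f : Γ → K) : Function.Injective (vx col f) :=
  fun _ _ h => congrArg (fun x : CV col K => x.1.1) h

theorem vx_rs (col : ι → Finset Γ) (f : Γ → K) {e : Finset Γ} {b : ι} (h : col b ⊆ e) :
    vx col (rs e f) b = vx col f b := by
  refine Subtype.ext (Prod.ext rfl (funext fun c => ?_))
  show rs (col b) (rs e f) c = rs (col b) f c
  by_cases hc : c ∈ col b
  · simp only [rs, if_pos hc, if_pos (h hc)]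
  · simp only [rs, if_neg hc]

theorem col_vx (M : MT ι Γ) (f : Γ → K) (a : ι) :
    (M.cpy K).col (vx M.col f a) = (M.col a).image fun c => (c, f c) :=
  Finset.image_congr fun c hc => by
    show (c, rs (M.col a) f c) = (c, f c)
    rw [rs, if_pos (show c ∈ M.col a from mem_coe.1 hc)]

theorem cm_vx {col : ι → Finset Γ} {A : Matrix ι ι ℝ} (f : Γ → K) {a b : ι}
    (h : A a b ≠ 0 → col a = col b) : A a b = cm col K A (vx col f a) (vx col f b) := by
  show A a b = if rs (col a) f = rs (col b) f then A a b else 0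
  by_cases h0 : A a b = 0
  · rw [h0, ite_self]
  · rw [h h0, if_pos rfl]

theorem cm_ne {col : ι → Finset Γ} {A : Matrix ι ι ℝ} {x y : CV col K} (h : cm col K A x y ≠ 0) :
    x.1.2 = y.1.2 ∧ A x.1.1 y.1.1 ≠ 0 := by
  by_cases e : x.1.2 = y.1.2
  · exact ⟨e, by rwa [cm, if_pos e] at h⟩
  · exact absurd (if_neg e) h

theorem mem_img {M : MT ι Γ} (f : Γ → K) (x : CV M.col K) :
    x ∈ M.U.image (vx M.col f) ↔ x.1.1 ∈ M.U ∧ x.1.2 = rs (M.col x.1.1) f := by
  rw [mem_image]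
  constructor
  · rintro ⟨a, ha, rfl⟩
    exact ⟨ha, rfl⟩
  · rintro ⟨h1, h2⟩
    exact ⟨x.1.1, h1, Subtype.ext (Prod.ext rfl h2.symm)⟩

theorem cpy {M : MT ι Γ} (hM : M.Ok) (hc : ColT M.T M.col) (f : Γ → K) :
    Emb M (M.cpy K) (vx M.col f) (fun c => (c, f c)) 1 where
  ij := (vx_inj _ f).injOn
  iγ := fun _ _ h => congrArg Prod.fst h
  U := fun a ha => mem_filter.2 ⟨mem_univ _, ha⟩
  col := fun a _ => col_vx M f a
  A := fun a _ b _ => ⟨cm_vx f fun h => (hM.blk a b (Or.inl h)).2,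
    cm_vx f fun h => (hM.blk a b (Or.inr h)).2⟩
  bk := fun x y h => by
    have h1 : x.1.2 = y.1.2 := h.elim (fun h => (cm_ne h).1) fun h => (cm_ne h).1
    have h2 : M.A x.1.1 y.1.1 ≠ 0 ∨ M.B x.1.1 y.1.1 ≠ 0 :=
      h.imp (fun h => (cm_ne h).2) fun h => (cm_ne h).2
    rw [mem_img, mem_img, hM.bk _ _ h2, (hM.blk _ _ h2).2, h1]
  p := fun a ha => by
    show rename (vx M.col f) (kp M.col (univ ∩ M.col a) (M.p a)) =
      kp (M.cpy K).col (univ ∩ (M.cpy K).col (vx M.col f a))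
        (rename (vx M.col (rs (M.col a) f)) (M.p a))
    have e : rename (vx M.col (rs (M.col a) f)) (M.p a) = rename (vx M.col f) (M.p a) := by
      refine hom_congr_vars (f₁ := (rename (vx M.col (rs (M.col a) f))).toRingHom)
        (f₂ := (rename (vx M.col f)).toRingHom) (RingHom.ext fun r => ?_) (fun b hb _ => ?_) rfl
      · exact (rename_C _ r).trans (rename_C _ r).symm
      · exact (rename_X _ b).trans ((congrArg X (vx_rs _ _ (hc a ha b hb))).trans
          (rename_X _ b).symm)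
    have d : ∀ c m, dg (M.cpy K).col (c, f c) (Finsupp.mapDomain (vx M.col f) m) =
        dg M.col c m := fun c m => dg_map (fun b => by
      rw [col_vx, mem_image]
      refine ⟨fun ⟨c', h1, h2⟩ => ?_, fun h => ⟨c, h, rfl⟩⟩
      obtain rfl : c' = c := congrArg Prod.fst h2
      exact h1) m
    rw [e, univ_inter, univ_inter, col_vx]
    refine kp_rename (vx_inj _ f) (fun m => ?_) _
    rw [Finset.forall_mem_image]
    exact ⟨fun h c hc => d c m ▸ h hc, fun h c hc => (d c m).symm ▸ h c hc⟩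
  sg := fun a _ => (one_mul _).ge

end

theorem comp {ι'' Γ'' : Type} [Fintype ι''] [DecidableEq ι''] [Fintype Γ''] [DecidableEq Γ'']
    {M'' : MT ι'' Γ''} {M' : MT ι' Γ'} {M : MT ι Γ} {j' : ι'' → ι'} {γ' : Γ'' → Γ'} {j : ι' → ι}
    {γ : Γ' → Γ} {Λ' Λ : ℝ} (h0 : 0 ≤ Λ') (h' : Emb M'' M' j' γ' Λ') (h : Emb M' M j γ Λ) :
    Emb M'' M (j ∘ j') (γ ∘ γ') (Λ' * Λ) where
  ij := h.ij.comp h'.ij fun a ha => h'.U a ha
  iγ := h.iγ.comp h'.iγ
  U := fun a ha => h.U _ (h'.U a ha)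
  col := fun a ha => by
    rw [Function.comp_apply, h.col _ (h'.U a ha), h'.col a ha, image_image]
  A := fun a ha b hb => ⟨(h'.A a ha b hb).1.trans (h.A _ (h'.U a ha) _ (h'.U b hb)).1,
    (h'.A a ha b hb).2.trans (h.A _ (h'.U a ha) _ (h'.U b hb)).2⟩
  bk := fun x y hxy => by
    have sub : M''.U.image (j ∘ j') ⊆ M'.U.image j := by
      rw [← image_image]
      exact image_subset_image fun a ha => by
        obtain ⟨b, hb, rfl⟩ := mem_image.1 ha
        exact h'.U b hb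
    have key : ∀ a ∈ M'.U, (j a ∈ M''.U.image (j ∘ j') ↔ a ∈ M''.U.image j') := fun a ha => by
      rw [mem_image, mem_image]
      exact ⟨fun ⟨b, hb, e⟩ => ⟨b, hb, h.ij (h'.U b hb) ha e⟩,
        fun ⟨b, hb, e⟩ => ⟨b, hb, congrArg j e⟩⟩
    by_cases hx : x ∈ M'.U.image j
    · obtain ⟨b, hb, rfl⟩ := mem_image.1 ((h.bk x y hxy).1 hx)
      obtain ⟨a, ha, rfl⟩ := mem_image.1 hx
      rw [key a ha, key b hb]
      refine h'.bk a b ?_
      show M'.A a b ≠ 0 ∨ M'.B a b ≠ 0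
      rw [(h.A a ha b hb).1, (h.A a ha b hb).2]
      exact hxy
    · exact iff_of_false (fun h1 => hx (sub h1)) fun h1 => hx ((h.bk x y hxy).2 (sub h1))
  p := fun a ha => by
    rw [← rename_rename, h'.p a ha, h.p _ (h'.U a ha), Function.comp_apply]
  sg := fun a ha => by
    rw [mul_assoc]
    exact (h'.sg a ha).trans (mul_le_mul_of_nonneg_left (h.sg _ (h'.U a ha)) h0)

/-- a move which keeps colours and matrices -/
theorem same {M' M : MT ι Γ} {Λ : ℝ} (hU : M'.U ⊆ M.U) (hc : M'.col = M.col) (hA : M'.A = M.A)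
    (hB : M'.B = M.B) (hb : M.G.Bk M'.U)
    (hp : ∀ a ∈ M'.U, (M'.dir univ).p a = (M.dir univ).p a)
    (hs : ∀ a ∈ M'.U, M'.sg a ≤ Λ * M.sg a) : Emb M' M id id Λ where
  ij := Function.injective_id.injOn
  iγ := Function.injective_id
  U := fun _ ha => hU ha
  col := fun a _ => by rw [image_id, hc, id]
  A := fun a _ b _ => by rw [hA, hB]; exact ⟨rfl, rfl⟩
  bk := by rwa [image_id]
  p := fun a ha => by rw [rename_id_apply, hp a ha, id]
  sg := hs

end EmbP

open EmbP in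
theorem emb (hT : TOK) : EMB := by
  refine ⟨fun ι Γ ι' Γ' ι'' Γ'' _ _ _ _ _ _ _ _ _ _ _ _ M'' M' M j' γ' j γ Λ' Λ _ _ _ h0 h' h =>
    comp h0 h' h, fun ι Γ _ _ _ _ M hM => ⟨fun D => ?_, fun c => ?_, fun l Λ hl => ?_,
      fun V hV hb => ?_, fun K _ _ _ f => cpy hM (hT ι Γ M hM).2.2.1 f⟩⟩
  · exact same subset_rfl rfl rfl rfl hM.bk
      (fun a _ => kp_kp M.col (inter_subset_inter (subset_univ D) subset_rfl) _)
      fun a _ => (one_mul _).ge
  · exact same subset_rfl rfl rfl rfl hM.bk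
      (fun a ha => kp_sub_C M.col (by rw [univ_inter]; exact hM.ne a ha) _ _)
      fun a _ => (one_mul _).ge
  · exact same subset_rfl rfl rfl rfl hM.bk (fun _ _ => rfl)
      fun a ha => mul_le_mul_of_nonneg_right (hl a ha) (hM.sg a).le
  · exact same hV rfl rfl rfl hb (fun _ _ => rfl) fun a _ => (one_mul _).ge

end Vale.Agent.P057T.Mt
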