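import Vale.Agent.P057T.Mt.Cmp0

/-! Comparison of masses. -/

set_option linter.all false

open MvPolynomial Finset
open scoped Real

namespace Vale.Agent.P057T.Mt

open Vale.Agent.P057T.Eq Vale.Agent.P057T.Eq.Br Vale.Agent.P057T.Cp

noncomputable section

namespace Cm

variable {ι Γ ι' Γ' : Type} [Fintype ι] [DecidableEq ι] [Fintype Γ] [DecidableEq Γ]
  [Fintype ι'] [DecidableEq ι'] [Fintype Γ'] [DecidableEq Γ']

theorem nm_congr {M N : MT ι Γ}
    (hU : M.U = N.U) (hA : M.A = N.A) (hB : M.B = N.B) (hp : ∀ a ∈ M.U, M.p a = N.p a)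
    (hs : ∀ a ∈ M.U, M.sg a = N.sg a) : M.nm = N.nm := En_congr hU hA hB hp hs _

theorem mem_mv {M : MT ι Γ} {c : Γ} {a : ι} : a ∈ M.mv {c} ↔ a ∈ M.U ∧ c ∈ M.col a := by
  simp [MT.mv, Finset.Nonempty]

theorem fib_col {M : MT ι Γ} {c : Γ} (y : ι → ℤ) :
    ∀ a ∈ (M.fib {c} y).U, (M.fib {c} y).col a = {c} := fun a ha =>
  inter_eq_right.2 (singleton_subset_iff.2 (mem_mv.1 ha).2)

theorem nm_fum (hF : FUM) {M : MT ι Γ} (hM : M.Ok) (F : Finset Γ) :
    M.nm = (M.bs F).En fun y => (M.fib F y).nm :=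
  (hF ι Γ M F hM).2 ℝ (fun _ => 1) 1 fun _ => by simp

theorem fib_bd (hT : TOK) (hO : OPS) (hF : FUM) {M : MT ι Γ} (hM : M.Ok) (F : Finset Γ) :
    ∃ B, ∀ y, |(M.fib F y).nm| ≤ B := by
  obtain ⟨B, hB⟩ := (hF ι Γ M F hM).1
  exact ⟨B, fun y => by
    rw [abs_of_nonneg (nm_nonneg hT ((hO ι Γ M hM).2.2.2.2.2.1 F y).1)]; exact hB y⟩

/-- reduction to the fibres of one colour -/
theorem red (hT : TOK) (hO : OPS) (hF : FUM) {M N : MT ι Γ} (hM : M.Ok) (hN : N.Ok) (c : Γ)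
    (hb : ∀ h : (ι → ℤ) → ℝ, (M.bs {c}).En h = (N.bs {c}).En h)
    (hf : ∀ y, (M.fib {c} y).nm ≤ (N.fib {c} y).nm) : M.nm ≤ N.nm := by
  obtain ⟨B, hB⟩ := fib_bd hT hO hF hM {c}
  obtain ⟨B', hB'⟩ := fib_bd hT hO hF hN {c}
  rw [nm_fum hF hM {c}, nm_fum hF hN {c}, hb]
  exact En_mono hT ((hO ι Γ N hN).2.2.2.2.1 {c}) hB hB' hf

theorem bs_dir (M : MT ι Γ) (c : Γ) (h : (ι → ℤ) → ℝ) :
    (M.bs {c}).En h = ((M.dir {c}).bs {c}).En h := by
  refine En_congr (by rfl) (by rfl) (by rfl) (fun a ha => ?_) (fun _ _ => by rfl) h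
  have h1 := mem_sdiff.1 ha
  have : ({c} : Finset Γ) ∩ M.col a = ∅ :=
    singleton_inter_of_notMem fun hc => h1.2 (mem_mv.2 ⟨h1.1, hc⟩)
  show M.p a = kp M.col ({c} ∩ M.col a) (M.p a)
  rw [this, kp_empty]

theorem fib_dir {M : MT ι Γ} (hM : M.Ok) (c : Γ) (y : ι → ℤ) {a : ι} (ha : a ∈ M.mv {c}) :
    ((M.fib {c} y).dir {c}).p a = ((M.dir {c}).fib {c} y).p a := by
  have h1 := mem_mv.1 ha
  show kp (fun a => M.col a ∩ {c}) ({c} ∩ (M.col a ∩ {c})) (fz (M.mv {c}) y (M.p a)) =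
    fz (M.mv {c}) y (kp M.col ({c} ∩ M.col a) (M.p a))
  rw [singleton_inter_of_mem h1.2, singleton_inter_of_mem
    (mem_inter.2 ⟨h1.2, mem_singleton_self c⟩), fz_kp M c y (hM.pv a h1.1)]

theorem nm_fib_dir {M : MT ι Γ} (hM : M.Ok) (c : Γ) (y : ι → ℤ) :
    ((M.fib {c} y).dir {c}).nm = ((M.dir {c}).fib {c} y).nm :=
  nm_congr (by rfl) (by rfl) (by rfl) (fun a ha => fib_dir hM c y ha) (fun _ _ => by rfl)

theorem dir1 (hT : TOK) (hO : OPS) (hF : FUM) (h1 : ONE) {M : MT ι Γ} (hM : M.Ok) (c : Γ) :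
    M.nm ≤ (M.dir {c}).nm := by
  refine red hT hO hF hM ((hO ι Γ M hM).1 {c}).1 c (bs_dir M c) fun y => ?_
  have := (h1 ι Γ _ c ((hO ι Γ M hM).2.2.2.2.2.1 {c} y).1 (fib_col y)).2.1
  rw [← nm_fib_dir hM]
  linarith [le_abs_self ((M.fib {c} y).nm - 1)]

theorem dirD (hT : TOK) (hO : OPS) (hF : FUM) (h1 : ONE) {M : MT ι Γ} (hM : M.Ok) (D : Finset Γ) :
    M.nm ≤ (M.dir D).nm := by
  induction D using Finset.induction_on with
  | empty =>
    refine le_of_eq (nm_congr (by rfl) (by rfl) (by rfl) (fun a _ => ?_) (fun _ _ => by rfl))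
    show M.p a = kp M.col (∅ ∩ M.col a) (M.p a)
    rw [empty_inter, kp_empty]
  | insert c D _ ih =>
    refine ih.trans ((dir1 hT hO hF h1 ((hO ι Γ M hM).1 D).1 c).trans (le_of_eq ?_))
    refine nm_congr (by rfl) (by rfl) (by rfl) (fun a _ => ?_) (fun _ _ => by rfl)
    show kp M.col ({c} ∩ M.col a) (kp M.col (D ∩ M.col a) (M.p a)) =
      kp M.col (insert c D ∩ M.col a) (M.p a)
    rw [kp_kp, ← union_inter_distrib_right, insert_eq]

/-- all colours are directions -/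
def Ce (M : MT ι Γ) : Prop := ∀ a ∈ M.U, ∀ c, kp M.col ({c} ∩ M.col a) (M.p a) = M.p a

theorem ce_dir (M : MT ι Γ) : Ce (M.dir univ) := fun a _ c => by
  show kp M.col ({c} ∩ M.col a) (kp M.col (univ ∩ M.col a) (M.p a)) =
    kp M.col (univ ∩ M.col a) (M.p a)
  rw [kp_kp, ← union_inter_distrib_right, union_eq_right.2 (subset_univ _)]

theorem Ce.fib {M : MT ι Γ} (hM : M.Ok) (h : Ce M) (c : Γ) (y : ι → ℤ) {a : ι}
    (ha : a ∈ M.mv {c}) : ((M.fib {c} y).dir {c}).p a = (M.fib {c} y).p a := by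
  rw [fib_dir hM c y ha]
  show fz (M.mv {c}) y (kp M.col ({c} ∩ M.col a) (M.p a)) = fz (M.mv {c}) y (M.p a)
  rw [h a (mem_mv.1 ha).1]

theorem wid1 (hT : TOK) (hO : OPS) (hF : FUM) (h1 : ONE) {M : MT ι Γ} (hM : M.Ok) (h : Ce M)
    (c : Γ) {l : ι → ℝ} (hl : ∀ a, 1 ≤ l a) (hc : ∀ a, c ∉ M.col a → l a = 1) :
    M.nm ≤ (M.wid l).nm := by
  refine red hT hO hF hM ((hO ι Γ M hM).2.1 l fun a => by linarith [hl a]).1 c (fun k => ?_)
    fun y => ?_
  · refine En_congr (by rfl) (by rfl) (by rfl) (fun _ _ => by rfl) (fun a ha => ?_) k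
    have h2 := mem_sdiff.1 ha
    show M.sg a = l a * M.sg a
    rw [hc a fun x => h2.2 (mem_mv.2 ⟨h2.1, x⟩), one_mul]
  · have := (h1 ι Γ _ c ((hO ι Γ M hM).2.2.2.2.2.1 {c} y).1 (fib_col y)).2.2.1 l hl
    have e1 : ((M.fib {c} y).dir {c}).nm = (M.fib {c} y).nm :=
      nm_congr (by rfl) (by rfl) (by rfl) (fun a ha => h.fib hM c y ha) (fun _ _ => by rfl)
    have e2 : (((M.fib {c} y).dir {c}).wid l).nm = ((M.wid l).fib {c} y).nm :=
      nm_congr (by rfl) (by rfl) (by rfl) (fun a ha => h.fib hM c y ha) (fun _ _ => by rfl)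
    rwa [e1, e2] at this

theorem widA (hT : TOK) (hO : OPS) (hF : FUM) (h1 : ONE) {M : MT ι Γ} (hM : M.Ok) (h : Ce M)
    {l : ι → ℝ} (hl : ∀ a, 1 ≤ l a) : M.nm ≤ (M.wid l).nm := by
  have key : ∀ S : Finset Γ,
      M.nm ≤ (M.wid fun a => if (M.col a ∩ S).Nonempty then l a else 1).nm := by
    intro S
    induction S using Finset.induction_on with
    | empty =>
      refine le_of_eq (nm_congr (by rfl) (by rfl) (by rfl) (fun _ _ => by rfl) (fun a _ => ?_))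
      simp [MT.wid]
    | insert c S _ ih =>
      have ok := ((hO ι Γ M hM).2.1 (fun a => if (M.col a ∩ S).Nonempty then l a else 1)
        fun a => by split_ifs <;> linarith [hl a]).1
      refine ih.trans ((wid1 hT hO hF h1 ok h c
        (l := fun a => if c ∈ M.col a ∧ ¬ (M.col a ∩ S).Nonempty then l a else 1)
        (fun a => by split_ifs <;> linarith [hl a]) fun a ha => if_neg fun x => ha x.1).trans
        (le_of_eq ?_))
      refine nm_congr (by rfl) (by rfl) (by rfl) (fun _ _ => by rfl) (fun a _ => ?_)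
      show (if c ∈ M.col a ∧ ¬ (M.col a ∩ S).Nonempty then l a else 1) *
        ((if (M.col a ∩ S).Nonempty then l a else 1) * M.sg a) =
        (if (M.col a ∩ insert c S).Nonempty then l a else 1) * M.sg a
      by_cases x1 : (M.col a ∩ S).Nonempty
      · rw [if_neg fun x => x.2 x1, if_pos x1,
          if_pos (x1.mono (inter_subset_inter_left (subset_insert _ _))), one_mul]
      · by_cases x2 : c ∈ M.col a
        · rw [if_pos ⟨x2, x1⟩, if_neg x1, if_pos ⟨c, mem_inter.2 ⟨x2, mem_insert_self _ _⟩⟩, one_mul]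
        · rw [if_neg fun x => x2 x.1, if_neg x1, inter_insert_of_notMem x2, if_neg x1, one_mul]
  refine (key univ).trans (le_of_eq (nm_congr (by rfl) (by rfl) (by rfl) (fun _ _ => by rfl) (fun a ha => ?_)))
  show (if (M.col a ∩ univ).Nonempty then l a else 1) * M.sg a = l a * M.sg a
  rw [inter_univ, if_pos (hM.ne a ha)]

theorem fz_congr {V V' : Finset ι} (y : ι → ℤ) {F : MvPolynomial ι ℝ}
    (h : ∀ b ∈ F.vars, b ∈ V ↔ b ∈ V') : fz V y F = fz V' y F :=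
  Chart.aeval_congr_vars fun b hb => by simp only [h b hb]

theorem vars_fz (V : Finset ι) (y : ι → ℤ) (F : MvPolynomial ι ℝ) :
    ∀ b ∈ (fz V y F).vars, b ∈ F.vars ∧ b ∈ V := by
  refine Chart.vars_aeval fun b hb => ?_
  split_ifs with x
  · exact Chart.vars_X' ⟨hb, x⟩
  · exact Chart.vars_C' _

theorem del1 (hT : TOK) (hO : OPS) (hF : FUM) (h1 : ONE) {M : MT ι Γ} (hM : M.Ok) (h : Ce M)
    (c : Γ) {V : Finset ι} (hV : V ⊆ M.U) (hB : M.G.Bk V) (hp : ∀ a ∈ V, (M.p a).vars ⊆ V)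
    (hc : ∀ a ∈ M.U, c ∉ M.col a → a ∈ V) : (M.rs V).nm ≤ M.nm := by
  have ok := (hO ι Γ M hM).2.2.2.1 V hV hB hp
  have mvV : ∀ a, a ∈ (M.rs V).mv {c} ↔ a ∈ V ∧ c ∈ M.col a := fun a => mem_mv
  refine red hT hO hF ok hM c (fun k => ?_) fun y => ?_
  · refine En_congr ?_ (by rfl) (by rfl) (fun _ _ => by rfl) (fun _ _ => by rfl) k
    ext a
    show a ∈ V \ (M.rs V).mv {c} ↔ a ∈ M.U \ M.mv {c}
    rw [mem_sdiff, mem_sdiff, mvV, mem_mv]
    exact ⟨fun x => ⟨hV x.1, fun z => x.2 ⟨x.1, z.2⟩⟩,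
      fun x => ⟨hc a x.1 fun z => x.2 ⟨x.1, z⟩, fun z => x.2 ⟨x.1, z.2⟩⟩⟩
  · have okf := ((hO ι Γ M hM).2.2.2.2.2.1 {c} y).1
    have bkV : ∀ a b, (M.A a b ≠ 0 ∨ M.B a b ≠ 0) →
        (a ∈ (M.rs V).mv {c} ↔ b ∈ (M.rs V).mv {c}) := fun a b hab => by
      rw [mvV, mvV, hB a b hab, (hM.blk a b hab).2]
    have sub : (M.rs V).mv {c} ⊆ M.mv {c} := fun a ha =>
      mem_mv.2 ⟨hV ((mvV a).1 ha).1, ((mvV a).1 ha).2⟩
    have ez : ∀ a ∈ (M.rs V).mv {c},
        fz (M.mv {c}) y (M.p a) = fz ((M.rs V).mv {c}) y (M.p a) := fun a ha =>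
      fz_congr y fun b hb => by
        have := hp a ((mvV a).1 ha).1 hb
        rw [mvV, mem_mv]
        exact ⟨fun x => ⟨this, x.2⟩, fun x => ⟨hV this, x.2⟩⟩
    have := (h1 ι Γ _ c okf (fib_col y)).2.2.2 ((M.rs V).mv {c}) sub (fun a b hab => bkV a b hab)
      fun a ha b hb => by
      have hb' : b ∈ (fz (M.mv {c}) y (M.p a)).vars := hb
      rw [ez a ha] at hb'
      exact (vars_fz _ _ _ b hb').2
    have e1 : ((M.fib {c} y).dir {c}).nm = (M.fib {c} y).nm :=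
      nm_congr (by rfl) (by rfl) (by rfl) (fun a ha => h.fib hM c y ha) (fun _ _ => by rfl)
    have e2 : (((M.fib {c} y).rs ((M.rs V).mv {c})).dir {c}).nm = ((M.rs V).fib {c} y).nm :=
      nm_congr (by rfl) (by rfl) (by rfl) (fun a ha => by
        have e3 := h.fib hM c y (sub ha)
        have e4 := ez a ha
        simp only [MT.dir, MT.fib, MT.rs] at e3 e4 ⊢
        rw [e3, e4]) (fun _ _ => by rfl)
    rwa [e1, e2] at this

theorem delA (hT : TOK) (hO : OPS) (hF : FUM) (h1 : ONE) {M : MT ι Γ} (hM : M.Ok) (h : Ce M)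
    {V : Finset ι} (hV : V ⊆ M.U) (hB : M.G.Bk V) (hp : ∀ a ∈ V, (M.p a).vars ⊆ V) :
    (M.rs V).nm ≤ M.nm := by
  have ct : ColT M.T M.col := (hT ι Γ M hM).2.2.1
  let W : Finset Γ → Finset ι := fun S => M.U.filter fun a => a ∈ V ∨ Disjoint (M.col a) S
  have wB : ∀ S, M.G.Bk (W S) := fun S a b hab => by
    simp only [W, mem_filter]
    rw [show a ∈ M.U ↔ b ∈ M.U from hM.bk a b hab, hB a b hab, (hM.blk a b hab).2]
  have wp : ∀ S, ∀ a ∈ W S, (M.p a).vars ⊆ W S := fun S a ha b hb => by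
    have h2 := mem_filter.1 ha
    refine mem_filter.2 ⟨hM.pv a h2.1 hb, h2.2.imp (fun x => hp a x hb) fun x => ?_⟩
    exact x.mono_left (ct a h2.1 b hb)
  have key : ∀ S : Finset Γ, (M.rs (W S)).nm ≤ M.nm := by
    intro S
    induction S using Finset.induction_on with
    | empty =>
      refine le_of_eq (nm_congr ?_ (by rfl) (by rfl) (fun _ _ => by rfl) (fun _ _ => by rfl))
      exact filter_true_of_mem fun a _ => Or.inr (disjoint_empty_right _)
    | insert c S _ ih =>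
      have ok := (hO ι Γ M hM).2.2.2.1 (W S) (filter_subset _ _) (wB S) (wp S)
      refine le_trans ?_ ih
      refine del1 hT hO hF h1 ok (fun a ha => h a (mem_filter.1 ha).1) c (V := W (insert c S))
        (fun a ha => ?_) (wB _) (wp _) fun a ha hc => ?_
      · have h2 := mem_filter.1 ha
        exact mem_filter.2 ⟨h2.1, h2.2.imp id fun x => x.mono_right (subset_insert _ _)⟩
      · have h2 := mem_filter.1 ha
        exact mem_filter.2 ⟨h2.1, h2.2.imp id fun x => disjoint_insert_right.2 ⟨hc, x⟩⟩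
  refine le_trans (le_of_eq (nm_congr ?_ (by rfl) (by rfl) (fun _ _ => by rfl) (fun _ _ => by rfl))) (key univ)
  ext a
  show a ∈ V ↔ a ∈ W univ
  refine ⟨fun x => mem_filter.2 ⟨hV x, Or.inl x⟩, fun x => ?_⟩
  have h2 := mem_filter.1 x
  exact h2.2.resolve_right fun z => (hM.ne a h2.1).ne_empty (disjoint_top.1 z)

theorem upper (hT : TOK) (hO : OPS) (hF : FUM) (h1 : ONE) {M' : MT ι' Γ'} {M : MT ι Γ}
    {j : ι' → ι} {γ : Γ' → Γ} {Λ : ℝ} (h' : M'.Ok) (hM : M.Ok) (hΛ : 0 < Λ)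
    (hE : Emb M' M j γ Λ) : M'.nm ≤ ((M.dir univ).wid fun _ => Λ).nm := by
  classical
  have okd := ((hO ι Γ M hM).1 univ).1
  have okw := ((hO ι Γ _ okd).2.1 (fun _ => Λ) fun _ => hΛ).1
  have okd' := ((hO ι' Γ' M' h').1 univ).1
  have hV : M'.U.image j ⊆ M.U := fun x hx => by
    obtain ⟨a, ha, rfl⟩ := mem_image.1 hx
    exact hE.U a ha
  have hp : ∀ x ∈ M'.U.image j, ((M.dir univ).p x).vars ⊆ M'.U.image j := fun x hx => by
    obtain ⟨a, ha, rfl⟩ := mem_image.1 hx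
    rw [← hE.p a ha]
    exact (vars_rename j _).trans (image_subset_image (okd'.pv a ha))
  let σ : ι → ℝ := fun x => if h : ∃ a ∈ M'.U, j a = x then M'.sg h.choose else Λ * M.sg x
  have hσ : ∀ a ∈ M'.U, σ (j a) = M'.sg a := fun a ha => by
    have h : ∃ b ∈ M'.U, j b = j a := ⟨a, ha, rfl⟩
    simp only [σ, dif_pos h]
    rw [hE.ij h.choose_spec.1 ha h.choose_spec.2]
  have σ0 : ∀ x, 0 < σ x := fun x => by
    simp only [σ]
    split_ifs
    · exact h'.sg _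
    · exact mul_pos hΛ (hM.sg x)
  have σ1 : ∀ x, σ x ≤ Λ * M.sg x := fun x => by
    by_cases h : ∃ a ∈ M'.U, j a = x
    · obtain ⟨a, ha, rfl⟩ := h
      rw [hσ a ha]
      exact hE.sg a ha
    · simp only [σ, dif_neg h, le_refl]
  have okr := (hO ι Γ _ okd).2.2.2.1 (M'.U.image j) hV hE.bk hp
  have okN := ((hO ι Γ _ okr).2.1 (fun x => σ x / M.sg x) fun x => div_pos (σ0 x) (hM.sg x)).1
  have s1 : ∀ x, σ x / M.sg x * M.sg x = σ x := fun x => div_mul_cancel₀ _ (hM.sg x).ne'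
  refine (dirD hT hO hF h1 h' univ).trans ?_
  rw [nm_re hT okd' okN j hE.ij rfl hE.A hE.p fun a ha => by
    show M'.sg a = σ (j a) / M.sg (j a) * M.sg (j a)
    rw [s1, hσ a ha]]
  refine (widA hT hO hF h1 okN (fun a ha => ce_dir M a (hV ha)) (l := fun x => Λ * M.sg x / σ x)
    fun x => (one_le_div (σ0 x)).2 (σ1 x)).trans ?_
  refine le_trans (le_of_eq ?_) (delA hT hO hF h1 okw (ce_dir M) hV hE.bk hp)
  refine nm_congr (by rfl) (by rfl) (by rfl) (fun _ _ => by rfl) (fun x _ => ?_)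
  show Λ * M.sg x / σ x * (σ x / M.sg x * M.sg x) = Λ * M.sg x
  rw [s1, div_mul_cancel₀ _ (σ0 x).ne']

end Cm

open Cm in
theorem cmp (hT : TOK) (hO : OPS) (hF : FUM) (h1 : ONE) (hE : EMB) : CMP := by
  intro ι Γ ι' Γ' _ _ _ _ _ _ _ _ M' M j γ Λ d h' hM hΛ hj hd
  have up : ∀ N : MT ι' Γ', N.Ok → Emb N M j γ Λ → N.nm ≤ 1 + d := fun N hN hj =>
    (upper hT hO hF h1 hN hM hΛ hj).trans hd
  have cp : ∀ N N' : MT ι' Γ', N'.Ok → N.Ok → Emb N' N id id 1 → Emb N M j γ Λ →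
      Emb N' M j γ Λ := fun N N' a b c e => by
    have := hE.1 ι Γ ι' Γ' ι' Γ' N' N M id id j γ 1 Λ a b hM zero_le_one c e
    rwa [one_mul] at this
  have d0 : 0 ≤ d := by
    have bk : M'.G.Bk ∅ := fun _ _ _ => by simp
    have ok := (hO ι' Γ' M' h').2.2.2.1 ∅ (empty_subset _) bk fun a ha => absurd ha (notMem_empty a)
    have := up _ ok (cp _ _ ok h' ((hE.2 ι' Γ' M' h').2.2.2.1 ∅ (empty_subset _) bk) hj)
    rw [nm_empty rfl] at this
    linarith
  have lo : ∀ (S : Finset Γ') (N : MT ι' Γ'), N.Ok → Emb N M j γ Λ → (∀ a ∈ N.U, N.col a ⊆ S) →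
      1 - (2 ^ S.card - 1) * d ≤ N.nm := by
    intro S
    induction S using Finset.induction_on with
    | empty =>
      intro N hN _ hS
      rw [nm_empty (eq_empty_of_forall_notMem fun a ha =>
        (hN.ne a ha).ne_empty (subset_empty.1 (hS a ha)))]
      simp
    | insert c S hc ih =>
      intro N hN hj hS
      have okb := (hO ι' Γ' N hN).2.2.2.2.1 {c}
      have okd := ((hO ι' Γ' N hN).1 {c}).1
      have b1 := ih _ okb (cp _ _ okb hN ((hE.2 ι' Γ' N hN).2.2.2.1 _ sdiff_subset okb.bk) hj)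
        fun a ha x hx => by
          have h2 := mem_sdiff.1 ha
          exact (mem_insert.1 (hS a h2.1 hx)).resolve_left fun z =>
            h2.2 (mem_mv.2 ⟨h2.1, z ▸ hx⟩)
      have b2 := up _ okd (cp _ _ okd hN ((hE.2 ι' Γ' N hN).1 {c}) hj)
      obtain ⟨B, hB⟩ := fib_bd hT hO hF hN {c}
      obtain ⟨B', hB'⟩ := fib_bd hT hO hF okd {c}
      have b3 := En_mono hT okb (h := fun y => 2 - ((N.dir {c}).fib {c} y).nm) (B := 2 + B')
        (fun y => (abs_sub _ _).trans (by rw [abs_two]; linarith [hB' y])) hB fun y => by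
          have := (h1 ι' Γ' _ c ((hO ι' Γ' N hN).2.2.2.2.2.1 {c} y).1 (fib_col y)).2.1
          rw [nm_fib_dir hN] at this
          linarith [neg_abs_le ((N.fib {c} y).nm - 1)]
      rw [En_sub hT okb hB', ← nm_fum hF hN, bs_dir N c, ← nm_fum hF okd] at b3
      rw [card_insert_of_notMem hc, pow_succ]
      linarith
  refine ⟨d0, up _ h' hj, le_trans ?_ (lo univ M' h' hj fun a _ => subset_univ _)⟩
  rw [card_univ]
  linarith

end

end Vale.Agent.P057T.Mt
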