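import Vale.Agent.P057T.Mt.Defs
import Vale.Agent.P057T.Eq.Summ

/-! Typical fibres of a regular tower are regular. -/

open MvPolynomial Finset
open scoped Real

namespace Vale.Agent.P057T.Mt

open Vale.Agent.P057T.Eq Vale.Agent.P057T.Cp

noncomputable section

set_option linter.unusedSectionVars false

namespace Fb

variable {ι Γ ι' Γ' : Type} [Fintype ι] [DecidableEq ι] [Fintype Γ] [DecidableEq Γ]
  [Fintype ι'] [DecidableEq ι'] [Fintype Γ'] [DecidableEq Γ']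

theorem kp_coeff (col : ι → Finset Γ) (D : Finset Γ) (F : MvPolynomial ι ℝ) (m : ι →₀ ℕ) :
    coeff m (kp col D F) = if ∀ c ∈ D, dg col c m ≠ 0 then coeff m F else 0 := by
  unfold kp
  rw [coeff_sum]
  simp only [coeff_monomial]
  rw [Finset.sum_ite_eq']
  by_cases h : ∀ c ∈ D, dg col c m ≠ 0
  · rw [if_pos h]
    by_cases h2 : m ∈ F.support
    · rw [if_pos (mem_filter.2 ⟨h2, h⟩)]
    · rw [if_neg fun h3 => h2 (mem_filter.1 h3).1]
      exact (notMem_support_iff.1 h2).symm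
  · rw [if_neg h, if_neg fun h3 => h (mem_filter.1 h3).2]

theorem kp_sum {α : Type} (col : ι → Finset Γ) (D : Finset Γ) (s : Finset α)
    (F : α → MvPolynomial ι ℝ) : kp col D (∑ i ∈ s, F i) = ∑ i ∈ s, kp col D (F i) := by
  ext m
  rw [coeff_sum, kp_coeff, coeff_sum]
  simp only [kp_coeff]
  split_ifs <;> simp

theorem kp_mono (col : ι → Finset Γ) (D : Finset Γ) (m : ι →₀ ℕ) (r : ℝ) :
    kp col D (monomial m r) = if ∀ c ∈ D, dg col c m ≠ 0 then monomial m r else 0 := by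
  ext m'
  rw [kp_coeff]
  by_cases h : m = m'
  · subst h
    split_ifs <;> simp
  · split_ifs <;> simp [coeff_monomial, h]

theorem kp_empty (col : ι → Finset Γ) (F : MvPolynomial ι ℝ) : kp col ∅ F = F := by
  ext m
  rw [kp_coeff, if_pos (by simp)]

theorem kp_vars (col : ι → Finset Γ) (D : Finset Γ) (F : MvPolynomial ι ℝ) :
    (kp col D F).vars ⊆ F.vars := by
  intro b hb
  obtain ⟨m, hm, hbm⟩ := (mem_vars_iff_mem_support _).1 hb
  refine (mem_vars_iff_mem_support _).2 ⟨m, ?_, hbm⟩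
  rw [mem_support_iff, kp_coeff] at hm
  rw [mem_support_iff]
  intro h0
  apply hm
  split_ifs
  · exact h0
  · rfl

theorem dg_ne (col : ι → Finset Γ) (c : Γ) (m : ι →₀ ℕ) :
    dg col c m ≠ 0 ↔ ∃ b ∈ m.support, c ∈ col b := by
  unfold dg
  rw [Finsupp.weight_apply, Finsupp.sum, Ne, Finset.sum_eq_zero_iff]
  push Not
  refine exists_congr fun b => and_congr_right fun hb => ?_
  have := Finsupp.mem_support_iff.1 hb
  by_cases h : c ∈ col b <;> simp [h, this]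

/-- exponent of the image of a monomial -/
def mu (V : Finset ι) (g : ι → ι') (m : ι →₀ ℕ) : ι' →₀ ℕ :=
  ∑ b ∈ m.support, if b ∈ V then Finsupp.single (g b) (m b) else 0

theorem mem_mu (V : Finset ι) (g : ι → ι') (m : ι →₀ ℕ) (x : ι') :
    x ∈ (mu V g m).support ↔ ∃ b ∈ m.support, b ∈ V ∧ g b = x := by
  unfold mu
  rw [Finsupp.mem_support_iff, Finsupp.finsetSum_apply, Ne, Finset.sum_eq_zero_iff]
  push Not
  refine exists_congr fun b => and_congr_right fun hb => ?_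
  have := Finsupp.mem_support_iff.1 hb
  by_cases h : b ∈ V
  · by_cases h2 : g b = x <;> simp [h, h2, this]
  · simp [h]

theorem prod_mono {α : Type} (s : Finset α) (u : α → ι' →₀ ℕ) (r : α → ℝ) :
    ∏ b ∈ s, (monomial (u b) (r b) : MvPolynomial ι' ℝ) = monomial (∑ b ∈ s, u b) (∏ b ∈ s, r b) := by
  classical
  induction s using Finset.induction_on with
  | empty => simp
  | insert a s ha ih => rw [prod_insert ha, sum_insert ha, prod_insert ha, ih, monomial_mul]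

theorem aeval_mono (V : Finset ι) (g : ι → ι') (r : ι → ℝ) (m : ι →₀ ℕ) (c : ℝ) :
    ∃ e : ℝ, aeval (fun b => if b ∈ V then (X (g b) : MvPolynomial ι' ℝ) else C (r b))
      (monomial m c) = monomial (mu V g m) e := by
  refine ⟨c * ∏ b ∈ m.support, if b ∈ V then 1 else r b ^ m b, ?_⟩
  rw [aeval_monomial, Finsupp.prod]
  have : ∀ b ∈ m.support, (if b ∈ V then (X (g b) : MvPolynomial ι' ℝ) else C (r b)) ^ m b =
      monomial (if b ∈ V then Finsupp.single (g b) (m b) else 0)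
        (if b ∈ V then 1 else r b ^ m b) := by
    intro b _
    split_ifs
    · exact X_pow_eq_monomial
    · rw [← C_pow]; rfl
  rw [prod_congr rfl this, prod_mono, algebraMap_eq, C_mul_monomial]
  rfl

theorem kp_aeval (col : ι → Finset Γ) (col' : ι' → Finset Γ') (D : Finset Γ) (D' : Finset Γ')
    (V : Finset ι) (g : ι → ι') (r : ι → ℝ) (Q : MvPolynomial ι ℝ)
    (h : ∀ m ∈ Q.support, (∀ c ∈ D, ∃ b ∈ m.support, c ∈ col b) ↔
      ∀ c ∈ D', ∃ b ∈ m.support, b ∈ V ∧ c ∈ col' (g b)) :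
    kp col' D' (aeval (fun b => if b ∈ V then (X (g b) : MvPolynomial ι' ℝ) else C (r b)) Q) =
      aeval (fun b => if b ∈ V then (X (g b) : MvPolynomial ι' ℝ) else C (r b)) (kp col D Q) := by
  conv_lhs => rw [Q.as_sum]
  conv_rhs => rw [Q.as_sum]
  rw [map_sum, kp_sum, kp_sum, map_sum]
  refine sum_congr rfl fun m hm => ?_
  obtain ⟨e, he⟩ := aeval_mono V g r m (coeff m Q)
  have hi : (∀ c ∈ D', dg col' c (mu V g m) ≠ 0) ↔ ∀ c ∈ D, dg col c m ≠ 0 := by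
    simp only [dg_ne]
    rw [h m hm]
    refine forall₂_congr fun c _ => ⟨?_, ?_⟩
    · rintro ⟨x, hx, hc⟩
      obtain ⟨b, hb, hV, rfl⟩ := (mem_mu V g m x).1 hx
      exact ⟨b, hb, hV, hc⟩
    · rintro ⟨b, hb, hV, hc⟩
      exact ⟨g b, (mem_mu V g m _).2 ⟨b, hb, hV, rfl⟩, hc⟩
  rw [he, kp_mono, kp_mono]
  by_cases hp : ∀ c ∈ D, dg col c m ≠ 0
  · rw [if_pos hp, if_pos (hi.2 hp), he]
  · rw [if_neg hp, if_neg fun h2 => hp (hi.1 h2), map_zero]

theorem ren_eq (g : ι → ι') (Q : MvPolynomial ι ℝ) : rename g Q =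
    aeval (fun b => if b ∈ (univ : Finset ι) then (X (g b) : MvPolynomial ι' ℝ) else C 0) Q := by
  have : (rename g : MvPolynomial ι ℝ →ₐ[ℝ] MvPolynomial ι' ℝ) =
      aeval (fun b => if b ∈ (univ : Finset ι) then (X (g b) : MvPolynomial ι' ℝ) else C 0) := by
    ext1 b
    simp
  rw [this]

theorem ren_fz (g : ι → ι') (V : Finset ι) (y : ι → ℤ) (Q : MvPolynomial ι ℝ) :
    rename g (fz V y Q) =
      aeval (fun b => if b ∈ V then (X (g b) : MvPolynomial ι' ℝ) else C (y b : ℝ)) Q := by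
  have : (rename g : MvPolynomial ι ℝ →ₐ[ℝ] MvPolynomial ι' ℝ).comp
      (aeval (fun b => if b ∈ V then (X b : MvPolynomial ι ℝ) else C (y b : ℝ))) =
      aeval (fun b => if b ∈ V then (X (g b) : MvPolynomial ι' ℝ) else C (y b : ℝ)) := by
    ext1 b
    simp only [AlgHom.comp_apply, aeval_X]
    split_ifs <;> simp
  exact DFunLike.congr_fun this Q

theorem eval_ae (u : ι' → ℝ) (φ : ι → MvPolynomial ι' ℝ) (Q : MvPolynomial ι ℝ) :
    eval u (aeval φ Q) = eval (fun b => eval u (φ b)) Q := by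
  induction Q using MvPolynomial.induction_on with
  | C a => simp
  | add p q hp hq => simp only [map_add, hp, hq]
  | mul_X p n hp => simp only [map_mul, hp, aeval_X, eval_X]

theorem eval_cg (u v : ι → ℝ) (Q : MvPolynomial ι ℝ) (h : ∀ b ∈ Q.vars, u b = v b) :
    eval u Q = eval v Q := eval₂_congr (RingHom.id ℝ) u v fun hi hc =>
      h _ ((mem_vars_iff_mem_support _).2 ⟨_, mem_support_iff.2 hc, hi⟩)

/-- pull back of points -/
def pull (U : Finset ι') (j : ι' → ι) (z : ι → ℤ) : ι' → ℤ := fun a => if a ∈ U then z (j a) else 0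

/-- reindexing -/
theorem reix (M' : MT ι' Γ') (M : MT ι Γ) (j : ι' → ι) (hj : Set.InjOn j M'.U)
    (hU : M'.U.image j = M.U) (hB : ∀ a ∈ M'.U, ∀ b ∈ M'.U, M'.B a b = M.B (j a) (j b))
    (hs : ∀ a ∈ M'.U, M'.sg a = M.sg (j a)) (hv : ∀ a ∈ M'.U, (M'.ch a).vars ⊆ M'.U)
    (hc : ∀ (z : ι → ℤ), ∀ a ∈ M'.U, eval (cz z ∘ j) (M'.ch a) = eval (cz z) (M.ch (j a)))
    (h : (ι' → ℤ) → ℝ) : M'.En h = M.En fun z => h (pull M'.U j z) := by
  have hm : ∀ a ∈ M'.U, j a ∈ M.U := fun a ha => hU ▸ mem_image_of_mem j ha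
  have hsu : ∀ b ∈ M.U, ∃ a ∈ M'.U, j a = b := fun b hb => mem_image.1 (hU ▸ hb)
  have h1 : M'.mn = M.mn := by
    let e : M'.U ≃ M.U := Equiv.ofBijective (fun a => ⟨j a.1, hm a.1 a.2⟩)
      ⟨fun a b hab => Subtype.ext (hj a.2 b.2 (congrArg Subtype.val hab)), fun b => by
        obtain ⟨a, ha, hab⟩ := hsu b.1 b.2
        exact ⟨⟨a, ha⟩, Subtype.ext hab⟩⟩
    show |(M'.B.submatrix (Subtype.val : M'.U → ι') (Subtype.val : M'.U → ι')).det| *
      ∏ a ∈ M'.U, (M'.sg a)⁻¹ = |(M.B.submatrix (Subtype.val : M.U → ι) (Subtype.val : M.U → ι)).det| *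
      ∏ a ∈ M.U, (M.sg a)⁻¹
    congr 1
    · rw [← Matrix.det_submatrix_equiv_self e]
      congr 2
      ext a b
      exact hB a.1 a.2 b.1 b.2
    · rw [← hU, prod_image hj]
      exact prod_congr rfl fun a ha => by rw [hs a ha]
  let e : Lat M.U ≃ Lat M'.U := Equiv.ofBijective
    (fun z => ⟨pull M'.U j z.1, fun a ha => if_neg ha⟩)
    ⟨fun z w hzw => by
      apply Subtype.ext
      funext b
      by_cases hb : b ∈ M.U
      · obtain ⟨a, ha, rfl⟩ := hsu b hb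
        have := congrFun (congrArg Subtype.val hzw) a
        simpa [pull, ha] using this
      · rw [z.2 b hb, w.2 b hb], fun z' => by
      classical
      refine ⟨⟨fun b => if hb : ∃ a ∈ M'.U, j a = b then z'.1 hb.choose else 0, fun b hb => ?_⟩, ?_⟩
      · refine dif_neg ?_
        rintro ⟨a, ha, rfl⟩
        exact hb (hm a ha)
      · apply Subtype.ext
        funext a
        by_cases ha : a ∈ M'.U
        · have hb : ∃ a' ∈ M'.U, j a' = j a := ⟨a, ha, rfl⟩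
          show pull M'.U j _ a = _
          unfold pull
          rw [if_pos ha]
          show (if hb : ∃ a' ∈ M'.U, j a' = j a then z'.1 hb.choose else 0) = _
          rw [dif_pos hb, hj hb.choose_spec.1 ha hb.choose_spec.2]
        · exact (if_neg ha).trans (z'.2 a ha).symm⟩
  unfold MT.En
  rw [h1]
  congr 1
  unfold Ex
  show ∑' z : Lat M'.U, M'.G.nu M'.T z.1 • h z.1 =
    ∑' z : Lat M.U, M.G.nu M.T z.1 • h (pull M'.U j z.1)
  rw [← e.tsum_eq]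
  refine tsum_congr fun z => ?_
  show M'.G.nu M'.T (pull M'.U j z.1) • h (pull M'.U j z.1) = _
  congr 1
  show Real.exp (-π * ∑ a ∈ M'.U, (M'.sg a * eval (cz (pull M'.U j z.1)) (M'.ch a)) ^ 2) =
    Real.exp (-π * ∑ a ∈ M.U, (M.sg a * eval (cz z.1) (M.ch a)) ^ 2)
  generalize z.1 = z0
  rw [← hU, sum_image hj]
  congr 2
  refine sum_congr rfl fun a ha => ?_
  rw [hs a ha, ← hc z0 a ha]
  congr 2
  refine eval_cg _ _ _ fun b hb => ?_
  simp [cz, pull, hv a ha hb]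

/-- Markov -/
theorem markov (hT : TOK) (M : MT ι Γ) (hM : M.Ok) (h g : (ι → ℤ) → ℝ) (t B : ℝ)
    (hh : ∀ z, |h z| ≤ 1) (hg : ∀ z, |g z| ≤ B) (hle : ∀ z, t * h z + 1 ≤ g z) :
    t * M.En h + M.nm ≤ M.En g := by
  obtain ⟨⟨s, P, hP, hG, hA⟩, -, -, hmn, -⟩ := hT ι Γ M hM
  have h0 : Summable fun z : Lat M.T.U => M.G.nu M.T z.1 := summ s ι M.G M.T P hG hP hA
  have hp : ∀ z : ι → ℤ, 0 ≤ M.G.nu M.T z := fun z => (Real.exp_pos _).le
  have hs : ∀ (u : (ι → ℤ) → ℝ) (B : ℝ), (∀ z, |u z| ≤ B) →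
      Summable fun z : Lat M.T.U => M.G.nu M.T z.1 • u z.1 := by
    intro u B hu
    refine Summable.of_norm_bounded (h0.mul_right B) fun z => ?_
    rw [smul_eq_mul, Real.norm_eq_abs, abs_mul, abs_of_nonneg (hp _)]
    exact mul_le_mul_of_nonneg_left (hu _) (hp _)
  have h1 := hs h 1 hh
  have h2 := hs (fun _ => 1) 1 (by simp)
  have h3 := hs g B hg
  have key : t * Ex M.G M.T h + Ex M.G M.T (fun _ => (1 : ℝ)) ≤ Ex M.G M.T g := by
    unfold Ex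
    rw [← tsum_mul_left, ← (h1.mul_left t).tsum_add h2]
    refine ((h1.mul_left t).add h2).tsum_le_tsum (fun z => ?_) h3
    simp only [smul_eq_mul]
    have := mul_le_mul_of_nonneg_left (hle z.1) (hp z.1)
    linarith
  unfold MT.nm MT.En
  simp only [smul_eq_mul]
  have := mul_le_mul_of_nonneg_left key (inv_pos.2 hmn).le
  linarith

section Aux

variable (K : Type) [Fintype K] [DecidableEq K] [Inhabited K]

/-- copies with the default vertex outside `F` -/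
def VV (M : MT ι Γ) (F : Finset Γ) : Finset (CV M.col K) :=
  univ.filter fun x => x.1.1 ∈ M.U ∧ ∀ c, c ∉ F → x.1.2 c = default

def DD (F : Finset Γ) : Finset (Γ × K) := univ.filter fun p => p.1 ∈ F

def ll (M : MT ι Γ) (F : Finset Γ) (Λ : ℝ) (x : CV M.col K) : ℝ := if x.1.1 ∈ M.mv F then Λ else 1

/-- the auxiliary tower -/
def NN (M : MT ι Γ) (F : Finset Γ) (Λ : ℝ) : MT (CV M.col K) (Γ × K) :=
  (((M.cpy K).rs (VV K M F)).dir (DD K F)).wid (ll K M F Λ)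

/-- the law that tests the regularity -/
def TT (M : MT ι Γ) (Λ : ℝ) : MT (CV M.col K) (Γ × K) := ((M.cpy K).dir univ).wid fun _ => Λ

variable {K}

theorem mem_VV (M : MT ι Γ) (F : Finset Γ) (x : CV M.col K) :
    x ∈ VV K M F ↔ x.1.1 ∈ M.U ∧ ∀ c, c ∉ F → x.1.2 c = default := by
  simp [VV]

theorem mem_cc (M : MT ι Γ) (x : CV M.col K) (p : Γ × K) :
    p ∈ (M.cpy K).col x ↔ p.1 ∈ M.col x.1.1 ∧ x.1.2 p.1 = p.2 := by
  show p ∈ (M.col x.1.1).image (fun c => (c, x.1.2 c)) ↔ _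
  rw [mem_image]
  constructor
  · rintro ⟨c, hc, rfl⟩
    exact ⟨hc, rfl⟩
  · rintro ⟨h1, h2⟩
    exact ⟨p.1, h1, Prod.ext rfl h2⟩

theorem mem_cv (M : MT ι Γ) (f : Γ → K) (b : ι) (p : Γ × K) :
    p ∈ (M.cpy K).col (vx M.col f b) ↔ p.1 ∈ M.col b ∧ f p.1 = p.2 := by
  rw [mem_cc]
  refine and_congr_right fun h => ?_
  show Cp.rs (M.col b) f p.1 = p.2 ↔ _
  unfold Cp.rs
  rw [if_pos (show p.1 ∈ M.col b from h)]

theorem mem_mv (M : MT ι Γ) (F : Finset Γ) (a : ι) :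
    a ∈ M.mv F ↔ a ∈ M.U ∧ ∃ c ∈ M.col a, c ∈ F := by
  unfold MT.mv
  rw [mem_filter]
  refine and_congr_right fun _ => ⟨?_, ?_⟩
  · rintro ⟨c, hc⟩
    exact ⟨c, mem_inter.1 hc⟩
  · rintro ⟨c, hc⟩
    exact ⟨c, mem_inter.2 hc⟩

theorem mem_nmv (M : MT ι Γ) (F : Finset Γ) (Λ : ℝ) (x : CV M.col K) :
    x ∈ (NN K M F Λ).mv (DD K F) ↔ x ∈ VV K M F ∧ x.1.1 ∈ M.mv F := by
  rw [mem_mv, mem_mv]
  show (x ∈ VV K M F ∧ ∃ c ∈ (M.cpy K).col x, c ∈ DD K F) ↔ _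
  refine and_congr_right fun hx => ⟨?_, ?_⟩
  · rintro ⟨p, hp, hD⟩
    exact ⟨((mem_VV M F x).1 hx).1, p.1, ((mem_cc M x p).1 hp).1, (mem_filter.1 hD).2⟩
  · rintro ⟨-, c, hc, hF⟩
    exact ⟨(c, x.1.2 c), (mem_cc M x _).2 ⟨hc, rfl⟩, mem_filter.2 ⟨mem_univ _, hF⟩⟩

theorem vx_self (col : ι → Finset Γ) (x : CV col K) : vx col x.1.2 x.1.1 = x :=
  Subtype.ext (Prod.ext rfl x.2)

theorem vx_VV (M : MT ι Γ) (F : Finset Γ) (f : Γ → K) (hf : ∀ c, c ∉ F → f c = default) (b : ι)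
    (hb : b ∈ M.U) : vx M.col f b ∈ VV K M F := by
  refine (mem_VV M F _).2 ⟨hb, fun c hc => ?_⟩
  show Cp.rs (M.col b) f c = default
  unfold Cp.rs
  split_ifs
  · exact hf c hc
  · rfl

theorem vx_base (M : MT ι Γ) (F : Finset Γ) (f : Γ → K) (hf : ∀ c, c ∉ F → f c = default) (b : ι)
    (hb : b ∈ M.U) (hm : b ∉ M.mv F) : vx M.col f b = vx M.col (fun _ => default) b := by
  refine Subtype.ext (Prod.ext rfl ?_)
  funext c
  show Cp.rs (M.col b) f c = Cp.rs (M.col b) (fun _ => default) c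
  unfold Cp.rs
  split_ifs with h
  · exact hf c fun hF => hm ((mem_mv M F b).2 ⟨hb, c, h, hF⟩)
  · rfl

theorem vv_bk (M : MT ι Γ) (hM : M.Ok) (F : Finset Γ) : (M.cpy K).G.Bk (VV K M F) := by
  intro x y h
  have h2 : x.1.2 = y.1.2 ∧ (M.A x.1.1 y.1.1 ≠ 0 ∨ M.B x.1.1 y.1.1 ≠ 0) := by
    have h' : cm M.col K M.A x y ≠ 0 ∨ cm M.col K M.B x y ≠ 0 := h
    unfold cm at h'
    by_cases e : x.1.2 = y.1.2
    · rw [if_pos e, if_pos e] at h'
      exact ⟨e, h'⟩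
    · rw [if_neg e, if_neg e] at h'
      simp at h'
  rw [mem_VV, mem_VV, h2.1]
  exact and_congr_left fun _ => hM.bk _ _ h2.2

theorem vv_sub (M : MT ι Γ) (F : Finset Γ) : VV K M F ⊆ (M.cpy K).U := fun x hx =>
  mem_filter.2 ⟨mem_univ _, ((mem_VV M F x).1 hx).1⟩

theorem ok_rs (hO : OPS) (M : MT ι Γ) (hM : M.Ok) (F : Finset Γ) :
    ((M.cpy K).rs (VV K M F)).Ok := by
  have hC := ((hO ι Γ M hM).2.2.2.2.2.2.2 K).1
  refine (hO _ _ _ hC).2.2.2.1 _ (vv_sub M F) (vv_bk M hM F) fun x hx y hy => ?_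
  obtain ⟨hx1, hx2⟩ := (mem_VV M F x).1 hx
  have hy' : y ∈ (rename (vx M.col x.1.2) (M.p x.1.1)).vars := hy
  obtain ⟨b, hb, rfl⟩ := mem_image.1 (vars_rename _ _ hy')
  exact vx_VV M F _ hx2 b (hM.pv _ hx1 hb)

theorem ll_pos (M : MT ι Γ) (F : Finset Γ) {Λ : ℝ} (hΛ : 1 ≤ Λ) (x : CV M.col K) :
    0 < ll K M F Λ x := by
  unfold ll
  split_ifs <;> linarith

theorem ok_nn (hO : OPS) (M : MT ι Γ) (hM : M.Ok) (F : Finset Γ) {Λ : ℝ} (hΛ : 1 ≤ Λ) :
    (NN K M F Λ).Ok :=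
  ((hO _ _ _ ((hO _ _ _ (ok_rs hO M hM F)).1 (DD K F)).1).2.1 _ (ll_pos M F hΛ)).1

theorem ok_tt (hO : OPS) (M : MT ι Γ) (hM : M.Ok) {Λ : ℝ} (hΛ : 1 ≤ Λ) : (TT K M Λ).Ok :=
  ((hO _ _ _ ((hO _ _ _ ((hO ι Γ M hM).2.2.2.2.2.2.2 K).1).1 univ).1).2.1 _
    fun _ => lt_of_lt_of_le one_pos hΛ).1

theorem ch_nn (hO : OPS) (M : MT ι Γ) (hM : M.Ok) (F : Finset Γ) (Λ : ℝ) (f : Γ → K) (a : ι)
    (ha : a ∈ M.U) : (NN K M F Λ).ch (vx M.col f a) =
      rename (vx M.col f) (kp M.col (F ∩ M.col a) (M.ch a)) := by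
  have h1 := ((hO _ _ _ (ok_rs (K := K) hO M hM F)).1 (DD K F)).2 (vx M.col f a)
  have h2 := ((hO ι Γ M hM).2.2.2.2.2.2.2 K).2 f a ha
  have h3 : (NN K M F Λ).ch (vx M.col f a) = kp (M.cpy K).col
      (DD K F ∩ (M.cpy K).col (vx M.col f a)) ((M.cpy K).ch (vx M.col f a)) := h1
  rw [h3, h2, ren_eq, ren_eq]
  refine kp_aeval M.col _ _ _ _ _ _ _ fun m _ => ⟨fun h p hp => ?_, fun h c hc => ?_⟩
  · obtain ⟨hp1, hp2⟩ := mem_inter.1 hp
    obtain ⟨h4, h5⟩ := (mem_cv M f a p).1 hp2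
    obtain ⟨b, hb, hcb⟩ := h p.1 (mem_inter.2 ⟨(mem_filter.1 hp1).2, h4⟩)
    exact ⟨b, hb, mem_univ _, (mem_cv M f b p).2 ⟨hcb, h5⟩⟩
  · obtain ⟨hc1, hc2⟩ := mem_inter.1 hc
    obtain ⟨b, hb, -, hcb⟩ := h (c, f c)
      (mem_inter.2 ⟨mem_filter.2 ⟨mem_univ _, hc1⟩, (mem_cv M f a _).2 ⟨hc2, rfl⟩⟩)
    exact ⟨b, hb, ((mem_cv M f b _).1 hcb).1⟩

theorem ch_tt (hT : TOK) (hO : OPS) (M : MT ι Γ) (hM : M.Ok) (F : Finset Γ) (Λ : ℝ) (y : ι → ℤ)
    (f : Γ → K) (a : ι) (ha : a ∈ M.mv F) :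
    (TT K (M.fib F y) Λ).ch (vx (M.fib F y).col f a) =
      aeval (fun b => if b ∈ M.mv F then X (vx (M.fib F y).col f b) else C (y b : ℝ))
        (kp M.col (F ∩ M.col a) (M.ch a)) := by
  obtain ⟨hX, hX2⟩ := (hO ι Γ M hM).2.2.2.2.2.1 F y
  obtain ⟨hC, hC2⟩ := (hO ι Γ _ hX).2.2.2.2.2.2.2 K
  have h1 := ((hO _ _ _ hC).1 univ).2 (vx (M.fib F y).col f a)
  have h3 : (TT K (M.fib F y) Λ).ch (vx (M.fib F y).col f a) = _ := h1
  have haU := ((mem_mv M F a).1 ha).1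
  have hv := ((hT ι Γ M hM).2.2.2.2.2.1 a haU).1
  rw [h3, hC2 f a ha, hX2 a ha, ren_fz]
  refine kp_aeval M.col _ _ _ _ _ _ _ fun m hm => ⟨fun h p hp => ?_, fun h c hc => ?_⟩
  · obtain ⟨h4, h5⟩ := (mem_cv (M.fib F y) f a p).1 (mem_inter.1 hp).2
    obtain ⟨h6, h7⟩ := mem_inter.1 (show p.1 ∈ M.col a ∩ F from h4)
    obtain ⟨b, hb, hcb⟩ := h p.1 (mem_inter.2 ⟨h7, h6⟩)
    have hbU : b ∈ M.U := hv ((mem_vars_iff_mem_support _).2 ⟨m, hm, hb⟩)
    exact ⟨b, hb, (mem_mv M F b).2 ⟨hbU, p.1, hcb, h7⟩,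
      (mem_cv (M.fib F y) f b p).2 ⟨show p.1 ∈ M.col b ∩ F from mem_inter.2 ⟨hcb, h7⟩, h5⟩⟩
  · obtain ⟨hc1, hc2⟩ := mem_inter.1 hc
    obtain ⟨b, hb, -, hcb⟩ := h (c, f c) (mem_inter.2 ⟨mem_univ _, (mem_cv (M.fib F y) f a _).2
      ⟨show c ∈ M.col a ∩ F from mem_inter.2 ⟨hc2, hc1⟩, rfl⟩⟩)
    have := ((mem_cv (M.fib F y) f b _).1 hcb).1
    exact ⟨b, hb, (mem_inter.1 (show c ∈ M.col b ∩ F from this)).1⟩

theorem rs0 (e : Finset Γ) : Cp.rs e (fun _ => (default : K)) = fun _ => default := by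
  funext c
  unfold Cp.rs
  split_ifs <;> rfl

theorem base (hT : TOK) (hO : OPS) (M : MT ι Γ) (hM : M.Ok) (F : Finset Γ) (Λ : ℝ)
    (h : (ι → ℤ) → ℝ) : (M.bs F).En h = ((NN K M F Λ).bs (DD K F)).En fun z =>
      h (pull (M.U \ M.mv F) (vx M.col fun _ => default) z) := by
  have hB := (hO ι Γ M hM).2.2.2.2.1 F
  refine reix (M.bs F) ((NN K M F Λ).bs (DD K F)) (vx M.col fun _ => default)
    (fun a _ b _ hab => congrArg (fun x : CV M.col K => x.1.1) hab) ?_ ?_ ?_ ?_ ?_ h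
  · show (M.U \ M.mv F).image _ = VV K M F \ (NN K M F Λ).mv (DD K F)
    ext x
    rw [mem_image, mem_sdiff, mem_nmv]
    constructor
    · rintro ⟨a, ha, rfl⟩
      obtain ⟨h1, h2⟩ := mem_sdiff.1 ha
      exact ⟨vx_VV M F _ (fun _ _ => rfl) a h1, fun h3 => h2 h3.2⟩
    · rintro ⟨h1, h2⟩
      obtain ⟨h3, h4⟩ := (mem_VV M F x).1 h1
      have h5 : x.1.1 ∉ M.mv F := fun h5 => h2 ⟨h1, h5⟩
      exact ⟨x.1.1, mem_sdiff.2 ⟨h3, h5⟩, (vx_base M F _ h4 _ h3 h5).symm.trans (vx_self _ x)⟩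
  · intro a _ b _
    show M.B a b = if Cp.rs (M.col a) (fun _ => (default : K)) =
      Cp.rs (M.col b) (fun _ => (default : K)) then M.B a b else 0
    rw [rs0, rs0, if_pos rfl]
  · intro a ha
    show M.sg a = (if a ∈ M.mv F then Λ else 1) * M.sg a
    rw [if_neg (mem_sdiff.1 ha).2, one_mul]
  · exact fun a ha => ((hT ι Γ _ hB).2.2.2.2.2.1 a ha).1
  · intro z a ha
    obtain ⟨h1, h2⟩ := mem_sdiff.1 ha
    show eval _ (M.ch a) = eval _ ((NN K M F Λ).ch (vx M.col (fun _ => default) a))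
    have he : F ∩ M.col a = ∅ := eq_empty_of_forall_notMem fun c hc =>
      h2 ((mem_mv M F a).2 ⟨h1, c, (mem_inter.1 hc).2, (mem_inter.1 hc).1⟩)
    rw [ch_nn hO M hM F Λ _ a h1, he, kp_empty, eval_rename]

theorem df_out (M : MT ι Γ) (F : Finset Γ) (y : ι → ℤ) (x : CV (M.fib F y).col K) (c : Γ)
    (hc : ¬ (c ∈ M.col x.1.1 ∧ c ∈ F)) : x.1.2 c = default := by
  rw [← x.2]
  exact if_neg fun h => hc (mem_inter.1 h)

/-- copies of the fibre as copies of the tower -/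
def jj (M : MT ι Γ) (F : Finset Γ) (y : ι → ℤ) (x : CV (M.fib F y).col K) : CV M.col K :=
  ⟨x.1, by
    funext c
    unfold Cp.rs
    split_ifs with h
    · rfl
    · exact (df_out M F y x c fun h2 => h h2.1).symm⟩

theorem fibre (hT : TOK) (hO : OPS) (M : MT ι Γ) (hM : M.Ok) (F : Finset Γ) {Λ : ℝ} (hΛ : 1 ≤ Λ)
    (y' : CV M.col K → ℤ) :
    (TT K (M.fib F (pull (M.U \ M.mv F) (vx M.col fun _ => default) y')) Λ).nm =
      ((NN K M F Λ).fib (DD K F) y').nm := by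
  generalize hy : pull (M.U \ M.mv F) (vx M.col fun _ => default) y' = y
  have hX := ((hO ι Γ M hM).2.2.2.2.2.1 F y).1
  have hTT := ok_tt (K := K) hO _ hX hΛ
  have hN := ok_nn (K := K) hO M hM F hΛ
  have hm : ∀ x : CV (M.fib F y).col K, x ∈ (TT K (M.fib F y) Λ).U → x.1.1 ∈ M.mv F :=
    fun x hx => (mem_filter.1 hx).2
  have hj : ∀ x : CV (M.fib F y).col K, x.1.1 ∈ M.mv F → jj M F y x ∈ (NN K M F Λ).mv (DD K F) :=
    fun x hx => (mem_nmv M F Λ _).2 ⟨(mem_VV M F _).2 ⟨((mem_mv M F _).1 hx).1,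
      fun c hc => df_out M F y x c fun h => hc h.2⟩, hx⟩
  refine reix (TT K (M.fib F y) Λ) ((NN K M F Λ).fib (DD K F) y') (jj M F y)
    (fun a _ b _ hab => Subtype.ext (congrArg (fun x : CV M.col K => x.1) hab)) ?_ ?_ ?_ ?_ ?_
    fun _ => (1 : ℝ)
  · show (TT K (M.fib F y) Λ).U.image _ = (NN K M F Λ).mv (DD K F)
    ext x
    rw [mem_image]
    constructor
    · rintro ⟨a, ha, rfl⟩
      exact hj a (hm a ha)
    · intro hx
      obtain ⟨h1, h2⟩ := (mem_nmv M F Λ x).1 hx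
      obtain ⟨h3, h4⟩ := (mem_VV M F x).1 h1
      refine ⟨⟨x.1, ?_⟩, mem_filter.2 ⟨mem_univ _, h2⟩, rfl⟩
      funext c
      show (if c ∈ M.col x.1.1 ∩ F then x.1.2 c else default) = x.1.2 c
      split_ifs with h
      · rfl
      · by_cases hF : c ∈ F
        · rw [← x.2]
          exact (if_neg fun h5 => h (mem_inter.2 ⟨h5, hF⟩)).symm
        · exact (h4 c hF).symm
  · intro a _ b _
    rfl
  · intro a ha
    show Λ * M.sg a.1.1 = (if a.1.1 ∈ M.mv F then Λ else 1) * M.sg a.1.1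
    rw [if_pos (hm a ha)]
  · exact fun a ha => ((hT _ _ _ hTT).2.2.2.2.2.1 a ha).1
  · intro z x hx
    have h1 := hm x hx
    have hU := ((mem_mv M F _).1 h1).1
    have hf : ∀ c, c ∉ F → x.1.2 c = default := fun c hc => df_out M F y x c fun h => hc h.2
    have e1 := ch_tt hT hO M hM F Λ y x.1.2 x.1.1 h1
    rw [vx_self] at e1
    have e2 := ch_nn hO M hM F Λ x.1.2 x.1.1 hU
    have e3 : vx M.col x.1.2 x.1.1 = jj M F y x := vx_self M.col (jj M F y x)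
    rw [e3] at e2
    rw [e1, ((hO _ _ _ hN).2.2.2.2.2.1 (DD K F) y').2 _ (hj x h1), e2, eval_ae]
    unfold fz
    rw [eval_ae, eval_rename]
    refine eval_cg _ _ _ fun b hb => ?_
    have hbU : b ∈ M.U := ((hT ι Γ M hM).2.2.2.2.2.1 _ hU).1 (kp_vars _ _ _ hb)
    have hV := vx_VV M F x.1.2 hf b hbU
    simp only [Function.comp_apply]
    by_cases hb2 : b ∈ M.mv F
    · rw [if_pos hb2, if_pos ((mem_nmv M F Λ _).2 ⟨hV, hb2⟩), eval_X, eval_X]
      show cz z (jj M F y (vx (M.fib F y).col x.1.2 b)) = _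
      congr 1
      refine Subtype.ext (Prod.ext rfl ?_)
      funext c
      show (if c ∈ M.col b ∩ F then x.1.2 c else default) = if c ∈ M.col b then x.1.2 c else default
      by_cases hF : c ∈ F
      · simp [hF]
      · simp [hF, hf c hF]
    · rw [if_neg hb2, if_neg fun h => hb2 ((mem_nmv M F Λ _).1 h).2, eval_C, eval_C,
        vx_base M F _ hf b hbU hb2, ← hy]
      unfold pull
      rw [if_pos (mem_sdiff.2 ⟨hbU, hb2⟩)]

end Aux

end Fb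

open Fb in
theorem fibt (hT : TOK) (hO : OPS) (hF : FUM) (hE : EMB) (hC : CMP) (hH : THM) : FIBT := by
  intro ι Γ _ _ _ _ M F k Λ d t hM hΛ ht hTH
  have hΛ0 : 0 < Λ := lt_of_lt_of_le one_pos hΛ
  have hcd : Fintype.card (Fin (k + 1)) ≤ k + 1 := by simp
  have hCo := ((hO ι Γ M hM).2.2.2.2.2.2.2 (Fin (k + 1))).1
  have hR := ok_rs (K := Fin (k + 1)) hO M hM F
  have hD := ((hO _ _ _ hR).1 (DD (Fin (k + 1)) F)).1
  have hN := ok_nn (K := Fin (k + 1)) hO M hM F hΛ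
  have hB := (hO ι Γ M hM).2.2.2.2.1 F
  have hNB := (hO _ _ _ hN).2.2.2.2.1 (DD (Fin (k + 1)) F)
  have e1 := (hE.2 _ _ _ hD).2.2.1 (ll (Fin (k + 1)) M F Λ) Λ fun x _ => by
    unfold ll
    split_ifs <;> linarith
  have e2 := (hE.2 _ _ _ hR).1 (DD (Fin (k + 1)) F)
  have e3 := (hE.2 _ _ _ hCo).2.2.2.1 _ (vv_sub M F) (vv_bk M hM F)
  have e4 := hE.1 _ _ _ _ _ _ _ _ _ _ _ _ _ _ _ hD hR hCo zero_le_one e2 e3
  have e5 := hE.1 _ _ _ _ _ _ _ _ _ _ _ _ _ _ _ hN hD hCo hΛ0.le e1 e4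
  have u1 := ((hH _ _ _ _ _ _ M _ _ k _ Λ d hN hM (by simpa using hΛ0) e5 hTH).1 hcd
    (by simp)).2.1
  have f1 := (hE.2 _ _ _ hM).2.2.2.1 (M.U \ M.mv F) sdiff_subset
    ((hT ι Γ M hM).2.2.2.2.2.2 F 0).1.bk
  have f2 := (hE.2 _ _ _ hM).2.2.2.2 (Fin (k + 1)) default
  have f3 := hE.1 _ _ _ _ _ _ _ _ _ _ _ _ _ _ _ hB hM hCo zero_le_one f1 f2
  have u2 := ((hH _ _ _ _ _ _ M _ _ k _ Λ d hB hM (by simp) f3 hTH).1 hcd (by simpa using hΛ)).2.2
  have u3 : ∀ y, 1 ≤ (TT (Fin (k + 1)) (M.fib F y) Λ).nm := by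
    intro y
    have hX := ((hO ι Γ M hM).2.2.2.2.2.1 F y).1
    have hXC := ((hO ι Γ _ hX).2.2.2.2.2.2.2 (Fin (k + 1))).1
    have g1 := (hE.2 _ _ _ hXC).2.2.1 (fun _ => Λ) Λ fun _ _ => le_rfl
    have := (hC _ _ _ _ _ _ _ _ Λ ((TT (Fin (k + 1)) (M.fib F y) Λ).nm - 1)
      ((hO _ _ _ hXC).2.1 _ fun _ => hΛ0).1 hXC hΛ0 g1
      (show (TT (Fin (k + 1)) (M.fib F y) Λ).nm ≤ _ by linarith)).1
    linarith
  obtain ⟨⟨B, hBd⟩, hfu⟩ := hF _ _ _ (DD (Fin (k + 1)) F) hN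
  have u4 : (NN (Fin (k + 1)) M F Λ).nm = ((NN (Fin (k + 1)) M F Λ).bs (DD (Fin (k + 1)) F)).En
      fun y => ((NN (Fin (k + 1)) M F Λ).fib (DD (Fin (k + 1)) F) y).nm :=
    hfu ℝ (fun _ => (1 : ℝ)) 1 (by simp)
  have u5 : (M.bs F).nm = ((NN (Fin (k + 1)) M F Λ).bs (DD (Fin (k + 1)) F)).nm :=
    base hT hO M hM F Λ fun _ => (1 : ℝ)
  rw [base (K := Fin (k + 1)) hT hO M hM F Λ, le_div_iff₀ ht, mul_comm]
  have key := markov hT _ hNB (fun z => (fun y => by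
      classical exact if (M.fib F y).TH k Λ t then (0 : ℝ) else 1)
        (pull (M.U \ M.mv F) (vx M.col fun _ => default) z))
    (fun y => ((NN (Fin (k + 1)) M F Λ).fib (DD (Fin (k + 1)) F) y).nm) t B
    (fun z => by beta_reduce; split_ifs <;> simp)
    (fun z => by
      have := u3 (pull (M.U \ M.mv F) (vx M.col fun _ => default) z)
      rw [fibre hT hO M hM F hΛ z] at this
      rw [abs_of_nonneg (by linarith)]
      exact hBd z)
    (fun z => by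
      beta_reduce
      rw [← fibre hT hO M hM F hΛ z]
      split_ifs with h
      · have := u3 (pull (M.U \ M.mv F) (vx M.col fun _ => default) z)
        linarith
      · have h2 : ¬ (TT (Fin (k + 1)) (M.fib F (pull (M.U \ M.mv F)
          (vx M.col fun _ => default) z)) Λ).nm ≤ 1 + t := h
        linarith [not_le.1 h2])
  rw [← u4, ← u5] at key
  linarith

end

end Vale.Agent.P057T.Mt
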