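import Vale.Agent.P057T.Mt.Defs

/-! Fubini along the base of a multi-affine tower. -/

open MvPolynomial Finset
open scoped Real

namespace Vale.Agent.P057T.Mt

open Vale.Agent.P057T.Eq Vale.Agent.P057T.Cp

namespace FumP

variable {ι Γ : Type} [Fintype ι] [DecidableEq ι] [Fintype Γ] [DecidableEq Γ]

theorem fs_eq {E : Type} [NormedAddCommGroup E] [NormedSpace ℝ E] (G : GT ι) (T : AT ι)
    (W V : Finset ι) (hV : T.U \ W = V) (h : (ι → ℤ) → E) (y : ι → ℤ) :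
    Fs G T W h y = ∑' x : Lat V, G.nu (T.rs V) (y + x.1) • h (y + x.1) := by
  subst hV
  rfl

omit [Fintype ι] in
theorem ev_fz (V : Finset ι) (y y' x : ι → ℤ) (hx : x ∈ Lat V) (h0 : ∀ b ∈ V, y' b = 0)
    (h1 : ∀ b, b ∉ V → y' b = y b) (F : MvPolynomial ι ℝ) :
    eval (cz x) (fz V y F) = eval (cz (y' + x)) F := by
  rw [fz, ← coe_aeval_eq_eval, ← coe_aeval_eq_eval]
  change aeval (cz x) (aeval _ F) = aeval _ F
  rw [← AlgHom.comp_apply, comp_aeval]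
  refine congrArg (fun f : ι → ℝ => aeval f F) (funext fun b => ?_)
  by_cases hb : b ∈ V
  · simp [hb, cz, h0 b hb]
  · simp [hb, cz, h1 b hb, hx b hb]

omit [Fintype Γ] in
theorem mn_fib (M : MT ι Γ) (F : Finset Γ) (y : ι → ℤ) :
    (M.fib F y).mn = M.G.mn M.sg (M.mv F) := rfl

omit [Fintype Γ] in
theorem nu_fib (M : MT ι Γ) (F : Finset Γ) (y y' x : ι → ℤ)
    (hc : ∀ a ∈ M.mv F, (M.fib F y).ch a = fz (M.mv F) y (M.ch a)) (hx : x ∈ Lat (M.mv F))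
    (h0 : ∀ b ∈ M.mv F, y' b = 0) (h1 : ∀ b, b ∉ M.mv F → y' b = y b) :
    (M.fib F y).G.nu (M.fib F y).T x = M.G.nu (M.T.rs (M.mv F)) (y' + x) := by
  refine congrArg (fun t => Real.exp (-π * t)) (sum_congr rfl fun a ha => ?_)
  have e : eval (cz x) ((M.fib F y).ch a) = eval (cz (y' + x)) (M.ch a) := by
    rw [hc a ha, ev_fz _ y y' x hx h0 h1]
  exact congrArg (fun t => (M.sg a * t) ^ 2) e

end FumP

theorem fum (hT : TOK) (hO : OPS) (hF : FUB) : FUM := by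
  intro ι Γ _ _ _ _ M F hM
  obtain ⟨⟨s, P, hP, ok, aok⟩, -, -, hpos, -, -, hc⟩ := hT ι Γ M hM
  obtain ⟨-, -, -, -, hb, hf, -⟩ := hO ι Γ M hM
  obtain ⟨cls, hV, hmn⟩ := hc F 0
  obtain ⟨-, -, -, ⟨B, hB⟩, fub⟩ := hF s ι M.G M.T P (M.U \ M.mv F) ok hP aok cls
  have hm : ∀ y, (M.fib F y).mn = (M.fib F 0).mn := fun y =>
    (FumP.mn_fib M F y).trans (FumP.mn_fib M F 0).symm
  have hp : 0 < (M.fib F 0).mn := (hT ι Γ _ (hf F 0).1).2.2.2.1
  have key : ∀ (E : Type) [NormedAddCommGroup E] [NormedSpace ℝ E] (h : (ι → ℤ) → E) y y',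
      (∀ b ∈ M.mv F, y' b = 0) → (∀ b, b ∉ M.mv F → y' b = y b) →
      ((M.fib F y).En fun x => h (y' + x)) =
        (M.fib F 0).mn⁻¹ • Fs M.G M.T (M.U \ M.mv F) h y' := by
    intro E _ _ h y y' h0 h1
    rw [FumP.fs_eq M.G M.T _ _ hV, MT.En, hm]
    refine congrArg (fun t => (M.fib F 0).mn⁻¹ • t) (tsum_congr fun x => ?_)
    exact congrArg (fun t => t • h (y' + x.1)) (FumP.nu_fib M F y y' x.1 (hf F y).2 x.2 h0 h1)
  refine ⟨⟨(M.fib F 0).mn⁻¹ * B, fun y => ?_⟩, fun E _ _ _ h C hh => ?_⟩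
  · have := key ℝ (fun _ => 1) y (fun b => if b ∈ M.mv F then 0 else y b)
      (fun b hb => if_pos hb) (fun b hb => if_neg hb)
    rw [MT.nm, this, smul_eq_mul]
    exact mul_le_mul_of_nonneg_left (hB _) (inv_nonneg.2 hp.le)
  · have e1 : M.T.rs (M.T.U ∩ (M.U \ M.mv F)) = (M.bs F).T :=
      congrArg M.T.rs (inter_eq_right.2 sdiff_subset)
    have e2 : Ex (M.bs F).G (M.bs F).T (fun y => (M.fib F y).En fun x => h (y + x)) =
        (M.fib F 0).mn⁻¹ • Ex M.G (M.bs F).T (Fs M.G M.T (M.U \ M.mv F) h) := by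
      rw [Ex, Ex, ← tsum_const_smul'']
      refine tsum_congr fun y => ?_
      rw [key E h y.1 y.1 (fun b hb => y.2 b fun k => (mem_sdiff.1 k).2 hb) (fun _ _ => rfl),
        smul_comm]
      rfl
    rw [MT.En, MT.En, fub E h C hh, e1, e2, smul_smul, ← hmn, mul_inv, mul_comm]

end Vale.Agent.P057T.Mt
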