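import Vale.Agent.P057T.Mt.Defs

/-! Charts of combined points. -/

set_option linter.all false

open MvPolynomial Finset

namespace Vale.Agent.P057T.Mt

open Vale.Agent.P057T.Eq Vale.Agent.P057T.Cp

namespace Mx

variable {ι Γ K : Type} [Fintype ι] [DecidableEq ι] [Fintype Γ] [DecidableEq Γ]
  [Fintype K] [DecidableEq K] [Inhabited K]

/-- sum over the choices on `e` -/
noncomputable def S (e : Finset Γ) (φ : (Γ → K) → ℝ) : ℝ :=
  ∑ f ∈ univ.filter (fun f : Γ → K => rs e f = f), φ f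

theorem rs_rs {e e' : Finset Γ} (h : e ⊆ e') (f : Γ → K) : rs e (rs e' f) = rs e f := by
  funext c
  by_cases a : c ∈ e
  · simp [rs, a, h a]
  · simp [rs, a]

theorem S_empty (φ : (Γ → K) → ℝ) : S ∅ φ = φ fun _ => default := by
  rw [S, sum_eq_single_of_mem (fun _ => default) (mem_filter.2 ⟨mem_univ _, by ext c; simp [rs]⟩)]
  exact fun f hf h => (h (by rw [← (mem_filter.1 hf).2]; ext c; simp [rs])).elim

theorem S_single (c : Γ) (ψ : K → ℝ) : S {c} (fun f : Γ → K => ψ (f c)) = ∑ k, ψ k := by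
  refine sum_nbij' (fun f => f c) (fun k => rs {c} fun _ => k) (fun _ _ => mem_univ _)
    (fun k _ => mem_filter.2 ⟨mem_univ _, rs_rs le_rfl _⟩) (fun f hf => ?_)
    (fun k _ => by simp [rs]) fun _ _ => rfl
  refine Eq.trans (funext fun c' => ?_) (mem_filter.1 hf).2
  by_cases a : c' = c <;> simp [rs, a]

theorem S_union {e e' : Finset Γ} (h : Disjoint e e') (α β : (Γ → K) → ℝ)
    (hα : ∀ f, α (rs e f) = α f) (hβ : ∀ f, β (rs e' f) = β f) :
    S (e ∪ e') (fun f => α f * β f) = S e α * S e' β := by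
  rw [S, S, S, sum_mul_sum, ← sum_product']
  have d : ∀ c ∈ e', c ∉ e := fun c a b => disjoint_left.1 h b a
  refine sum_nbij' (fun f => (rs e f, rs e' f)) (fun p c => if c ∈ e then p.1 c else p.2 c)
    (fun f _ => mem_product.2 ⟨mem_filter.2 ⟨mem_univ _, rs_rs le_rfl _⟩,
      mem_filter.2 ⟨mem_univ _, rs_rs le_rfl _⟩⟩) (fun p hp => mem_filter.2 ⟨mem_univ _, ?_⟩)
    (fun f hf => ?_) (fun p hp => ?_) fun f _ => by rw [hα, hβ]
  · funext c
    have := congrFun (mem_filter.1 (mem_product.1 hp).2).2 c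
    by_cases a : c ∈ e <;> by_cases b : c ∈ e' <;> simp_all [rs]
  · funext c
    have := congrFun (mem_filter.1 hf).2 c
    by_cases a : c ∈ e <;> by_cases b : c ∈ e' <;> simp_all [rs]
  · refine Prod.ext (funext fun c => ?_) (funext fun c => ?_)
    · have := congrFun (mem_filter.1 (mem_product.1 hp).1).2 c
      by_cases a : c ∈ e <;> simp_all [rs]
    · have := congrFun (mem_filter.1 (mem_product.1 hp).2).2 c
      by_cases a : c ∈ e'
      · simp [rs, a, d c a]
      · simp_all [rs]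

theorem S_prod {α : Type} [DecidableEq α] (s : Finset α) (cl : α → Finset Γ)
    (φ : α → (Γ → K) → ℝ) (hφ : ∀ a f, φ a (rs (cl a) f) = φ a f)
    (h : ∀ a ∈ s, ∀ b ∈ s, a ≠ b → Disjoint (cl a) (cl b)) :
    S (s.biUnion cl) (fun f => ∏ a ∈ s, φ a f) = ∏ a ∈ s, S (cl a) (φ a) := by
  induction s using Finset.induction_on with
  | empty => simp [S_empty]
  | insert a s ha ih =>
    simp only [prod_insert ha, biUnion_insert]
    rw [S_union ((disjoint_biUnion_right _ _ _).2 fun b hb => h a (mem_insert_self _ _) b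
      (mem_insert_of_mem hb) (by rintro rfl; exact ha hb)) _ _ (hφ a) fun f =>
        prod_congr rfl fun b hb => by rw [← hφ, rs_rs (subset_biUnion_of_mem cl hb), hφ],
      ih fun b hb c hc => h b (mem_insert_of_mem hb) c (mem_insert_of_mem hc)]

theorem vx_rs (col : ι → Finset Γ) (f : Γ → K) (a : ι) : vx col (rs (col a) f) a = vx col f a :=
  Subtype.ext (Prod.ext rfl (rs_rs le_rfl _))

theorem sum_cv (col : ι → Finset Γ) (a : ι) (φ : CV col K → ℝ) :
    ∑ x ∈ univ.filter (fun x : CV col K => x.1.1 = a), φ x = S (col a) fun f => φ (vx col f a) := by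
  have k : ∀ x ∈ univ.filter (fun x : CV col K => x.1.1 = a), vx col x.1.2 a = x := fun x hx => by
    obtain rfl := (mem_filter.1 hx).2
    exact Subtype.ext (Prod.ext rfl x.2)
  exact sum_nbij' (fun x => x.1.2) (fun f => vx col f a)
    (fun x hx => mem_filter.2 ⟨mem_univ _, (mem_filter.1 hx).2 ▸ x.2⟩)
    (fun f _ => mem_filter.2 ⟨mem_univ _, rfl⟩) k (fun f hf => (mem_filter.1 hf).2)
    fun x hx => by rw [k x hx]

theorem pr_rs (e : Finset Γ) (ψ : Γ → K → ℝ) (f : Γ → K) :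
    ∏ c ∈ e, ψ c (rs e f c) = ∏ c ∈ e, ψ c (f c) := prod_congr rfl fun c hc => by simp [rs, hc]

theorem dg_eq (col : ι → Finset Γ) (c : Γ) (m : ι →₀ ℕ) :
    dg col c m = ∑ a ∈ m.support, if c ∈ col a then m a else 0 := by
  simp [dg, Finsupp.weight_apply, Finsupp.sum]

theorem coeff_kp (col : ι → Finset Γ) (D : Finset Γ) (F : MvPolynomial ι ℝ) (m : ι →₀ ℕ) :
    coeff m (kp col D F) = if ∀ c ∈ D, dg col c m ≠ 0 then coeff m F else 0 := by
  simp only [kp, coeff_sum, coeff_monomial, sum_ite_eq', mem_filter, mem_support_iff]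
  by_cases a : coeff m F = 0 <;> simp [a]

theorem kp_sum {α : Type} (col : ι → Finset Γ) (D : Finset Γ) (s : Finset α)
    (F : α → MvPolynomial ι ℝ) : kp col D (∑ a ∈ s, F a) = ∑ a ∈ s, kp col D (F a) := by
  ext m
  simp only [coeff_kp, coeff_sum]
  split_ifs <;> simp

theorem kp_mon (col : ι → Finset Γ) (D : Finset Γ) (m : ι →₀ ℕ) (r : ℝ) :
    kp col D (monomial m r) = if ∀ c ∈ D, dg col c m ≠ 0 then monomial m r else 0 := by
  ext m'
  rw [coeff_kp, coeff_monomial]
  by_cases a : m = m'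
  · subst a
    split_ifs <;> simp_all
  · split_ifs <;> simp_all [coeff_monomial]

theorem dg_vx (M : MT ι Γ) (f : Γ → K) (c : Γ) (m : ι →₀ ℕ) :
    dg (M.cpy K).col (c, f c) (m.mapDomain (vx M.col f)) = dg M.col c m := by
  rw [dg, dg, Finsupp.weight_apply, Finsupp.weight_apply,
    Finsupp.sum_mapDomain_index (by simp) (fun _ _ _ => add_smul _ _ _)]
  refine Finsupp.sum_congr fun a _ => congrArg _ (if_congr ?_ rfl rfl)
  refine ⟨fun h => ?_, fun h => mem_image.2 ⟨c, h, by simp [vx, rs, h]⟩⟩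
  obtain ⟨c', a, b⟩ := mem_image.1 h
  obtain rfl : c' = c := (Prod.ext_iff.1 b).1
  exact a

theorem mon (M : MT ι Γ) (ε : Γ → K → ℤ) (D : Finset (Γ × K)) (z : CV M.col K → ℤ)
    (e : Finset Γ) (m : ι →₀ ℕ) (h1 : ∀ c, dg M.col c m ≤ if c ∈ e then 1 else 0)
    (h2 : ∀ c ∈ e, dg M.col c m = 0 → ∑ k ∈ univ.filter (fun k => (c, k) ∉ D), ε c k = 1) :
    ∏ a ∈ m.support, (M.mx ε z a : ℝ) ^ m a = S e fun f => (∏ c ∈ e, (ε c (f c) : ℝ)) *
      if ∀ c ∈ e, (c, f c) ∈ D → dg M.col c m ≠ 0 then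
        ∏ a ∈ m.support, (z (vx M.col f a) : ℝ) ^ m a else 0 := by
  have le : ∀ a ∈ m.support, ∀ c ∈ M.col a, m a ≤ dg M.col c m := fun a ha c hc => by
    rw [dg_eq]
    exact le_trans (by rw [if_pos hc]) (single_le_sum
      (f := fun a => if c ∈ M.col a then m a else 0) (fun _ _ => Nat.zero_le _) ha)
  have p : ∀ a ∈ m.support, 1 ≤ m a := fun a ha => Nat.pos_of_ne_zero (Finsupp.mem_support_iff.1 ha)
  have h3 : ∀ c, dg M.col c m ≤ 1 := fun c => (h1 c).trans (by split_ifs <;> omega)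
  have dj : ∀ a ∈ m.support, ∀ b ∈ m.support, a ≠ b → Disjoint (M.col a) (M.col b) :=
    fun a ha b hb n => disjoint_left.2 fun c ca cb => by
      have := add_le_sum (f := fun a => if c ∈ M.col a then m a else 0)
        (fun _ _ => Nat.zero_le _) ha hb n
      simp only [ca, cb, if_true, ← dg_eq] at this
      have := h3 c
      have := p a ha
      have := p b hb
      omega
  set u := m.support.biUnion M.col with hu
  have mu : ∀ c, c ∈ u ↔ dg M.col c m ≠ 0 := fun c => by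
    refine ⟨fun h => ?_, fun h => ?_⟩
    · obtain ⟨a, ha, hc⟩ := mem_biUnion.1 h
      have := le a ha c hc
      have := p a ha
      omega
    · rw [dg_eq] at h
      obtain ⟨a, ha, hc⟩ := exists_ne_zero_of_sum_ne_zero h
      exact mem_biUnion.2 ⟨a, ha, by_contra fun n => hc (if_neg n)⟩
  have ue : u ⊆ e := fun c hc => by_contra fun n => (mu c).1 hc (by simpa [n] using h1 c)
  let φ : ι → (Γ → K) → ℝ := fun a f =>
    (∏ c ∈ M.col a, (ε c (f c) : ℝ)) * (z (vx M.col f a) : ℝ) ^ m a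
  have hφ : ∀ a f, φ a (rs (M.col a) f) = φ a f := fun a f => by
    simp only [φ, vx_rs, pr_rs (M.col a) fun c k => (ε c k : ℝ)]
  let ψ : Γ → K → ℝ := fun c k => if (c, k) ∉ D then ε c k else 0
  have e1 := S_prod m.support M.col φ hφ dj
  have e2 := S_prod (e \ u) (fun c => {c}) (fun c (f : Γ → K) => ψ c (f c))
    (fun c f => by simp [rs]) fun a _ b _ n => disjoint_singleton.2 n
  rw [biUnion_singleton_eq_self, prod_eq_one fun c hc => by
    rw [S_single, ← sum_filter, ← Int.cast_sum, h2 c (mem_sdiff.1 hc).1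
      (by_contra fun n => (mem_sdiff.1 hc).2 ((mu c).2 n)), Int.cast_one]] at e2
  have e3 := S_union (disjoint_sdiff : Disjoint u (e \ u)) (fun f => ∏ a ∈ m.support, φ a f)
    (fun f : Γ → K => ∏ a ∈ e \ u, ψ a (f a)) (fun f => prod_congr rfl
    fun b hb => by rw [← hφ, rs_rs (subset_biUnion_of_mem M.col hb), hφ]) (pr_rs (e \ u) ψ)
  rw [union_sdiff_of_subset ue, e1, e2, mul_one] at e3
  refine (prod_congr rfl fun a ha => ?_).trans (e3.symm.trans (congrArg _ (funext fun f => ?_)))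
  · rw [MT.mx, Int.cast_sum, sum_cv]
    push_cast
    simp only [vx, pr_rs (M.col a) fun c k => (ε c k : ℝ)]
    rcases (M.col a).eq_empty_or_nonempty with h | ⟨c, hc⟩
    · simp only [φ, h, S_empty, prod_empty, one_mul, vx]
    · have : m a = 1 := le_antisymm ((le a ha c hc).trans (h3 c)) (p a ha)
      simp only [φ, this, pow_one, vx]
  · simp only [φ, prod_mul_distrib]
    rw [← prod_biUnion (fun a ha b hb n => dj a ha b hb n), ← hu, ← prod_sdiff ue]
    split_ifs with h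
    · rw [prod_congr rfl (f := fun c => ψ c (f c)) (g := fun c => (ε c (f c) : ℝ))
        fun c hc => if_pos fun d =>
        (mem_sdiff.1 hc).2 ((mu c).2 (h c (mem_sdiff.1 hc).1 d))]
      ring
    · push Not at h
      obtain ⟨c, c1, c2, c3⟩ := h
      rw [prod_eq_zero (s := e \ u) (f := fun c => ψ c (f c)) (mem_sdiff.2 ⟨c1, fun n => (mu c).1 n c3⟩)
        (if_neg (not_not.2 c2))]
      simp

theorem one (M : MT ι Γ) (ε : Γ → K → ℤ) (D : Finset (Γ × K)) (D0 : Finset Γ)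
    (z : CV M.col K → ℤ)
    (h : ∀ c, c ∉ D0 → ∑ k ∈ univ.filter (fun k => (c, k) ∉ D), ε c k = 1)
    (e : Finset Γ) (F : MvPolynomial ι ℝ) (h1 : Ty M.col e F) (h2 : kp M.col (D0 ∩ e) F = F) :
    eval (cz (M.mx ε z)) F = S e fun f => (∏ c ∈ e, (ε c (f c) : ℝ)) * eval (cz z)
      (kp (M.cpy K).col (D ∩ e.image fun c => (c, f c)) (rename (vx M.col f) F)) := by
  rw [eval_eq]
  conv_rhs => rw [F.as_sum]
  simp only [S, map_sum, kp_sum, mul_sum]
  rw [sum_comm]
  refine sum_congr rfl fun m hm => ?_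
  rw [show (∏ a ∈ m.support, cz (M.mx ε z) a ^ m a) = _ from mon M ε D z e m (h1 m hm)
    fun c hc d => h c fun n => by
      have := coeff_kp M.col (D0 ∩ e) F m
      rw [h2, if_neg fun k => k c (mem_inter.2 ⟨n, hc⟩) d] at this
      exact mem_support_iff.1 hm this, S, mul_sum]
  refine sum_congr rfl fun f _ => ?_
  have : (∀ v ∈ D ∩ e.image fun c => (c, f c),
      dg (M.cpy K).col v (m.mapDomain (vx M.col f)) ≠ 0) ↔
      ∀ c ∈ e, (c, f c) ∈ D → dg M.col c m ≠ 0 := by
    refine ⟨fun k c hc d => dg_vx M f c m ▸ k _ (mem_inter.2 ⟨d, mem_image_of_mem _ hc⟩),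
      fun k v hv => ?_⟩
    obtain ⟨c, hc, rfl⟩ := mem_image.1 (mem_inter.1 hv).2
    exact (dg_vx M f c m).symm ▸ k c hc (mem_inter.1 hv).1
  rw [rename_monomial, kp_mon, if_congr this rfl rfl]
  split_ifs
  · rw [← rename_monomial, eval_rename, eval_monomial, mul_left_comm]
    rfl
  · simp

end Mx

theorem mx0 (hT : TOK) (hO : OPS) : MX := by
  intro ι Γ K _ _ _ _ _ _ _ M ε D D0 z h
  refine ⟨Mx.one M ε D D0 z h, fun ok a ha hk => ?_⟩
  obtain ⟨o1, o2⟩ := (hO ι Γ M ok).2.2.2.2.2.2.2 K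
  rw [Mx.one M ε D D0 z h _ _ ((hT ι Γ M ok).2.2.2.2.2.1 a ha).2 hk, Mx.sum_cv]
  refine congrArg _ (funext fun f => ?_)
  rw [((hO _ _ _ o1).1 D).2, o2 f a ha]
  have e : (M.cpy K).col (vx M.col f a) = (M.col a).image fun c => (c, f c) :=
    image_congr fun c hc => by simp [vx, rs, show c ∈ M.col a from hc]
  rw [e]
  exact congrArg (· * _) (Mx.pr_rs (M.col a) (fun c k => (ε c k : ℝ)) f).symm

end Vale.Agent.P057T.Mt
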