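import Vale.Agent.P057T.Mt.Defs
import Vale.Agent.P057T.Cp.Cpa
import Vale.Agent.P057T.Cp.Rca

/-!
Old towers are regular multi-affine towers.
-/

set_option linter.all false

open MvPolynomial Finset
open scoped Real

namespace Vale.Agent.P057T.Mt

open Vale.Agent.P057T.Eq Vale.Agent.P057T.Cp

noncomputable section

namespace OldH16

variable {ι Γ : Type} [Fintype ι] [DecidableEq ι] [Fintype Γ] [DecidableEq Γ]

theorem coeff_kp (col : ι → Finset Γ) (D : Finset Γ) (F : MvPolynomial ι ℝ) (m : ι →₀ ℕ) :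
    coeff m (kp col D F) = if ∀ c ∈ D, dg col c m ≠ 0 then coeff m F else 0 := by
  unfold kp
  rw [coeff_sum]
  simp only [coeff_monomial]
  rw [Finset.sum_ite_eq']
  simp only [Finset.mem_filter, mem_support_iff]
  by_cases h1 : coeff m F = 0
  · simp [h1]
  · by_cases h2 : ∀ c ∈ D, dg col c m ≠ 0
    · rw [if_pos ⟨h1, h2⟩, if_pos h2]
    · rw [if_neg fun h => h2 h.2, if_neg h2]

theorem supp_kp (col : ι → Finset Γ) (D : Finset Γ) (F : MvPolynomial ι ℝ) :
    (kp col D F).support ⊆ F.support := fun m hm => by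
  rw [mem_support_iff] at hm ⊢
  rw [coeff_kp] at hm
  split_ifs at hm
  · exact hm
  · exact absurd rfl hm

theorem vars_mono {F F' : MvPolynomial ι ℝ} (h : F.support ⊆ F'.support) : F.vars ⊆ F'.vars :=
  fun x hx => by
    obtain ⟨m, hm, k⟩ := (mem_vars_iff_mem_support _).1 hx
    exact (mem_vars_iff_mem_support _).2 ⟨m, h hm, k⟩

theorem kp_sub (col : ι → Finset Γ) (D : Finset Γ) (F F' : MvPolynomial ι ℝ)
    (h : ∀ m ∈ F'.support, ∀ c ∈ D, dg col c m ≠ 0) : kp col D (F - F') = kp col D F - F' := by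
  ext m
  rw [coeff_sub, coeff_kp, coeff_kp, coeff_sub]
  split_ifs with k
  · rfl
  · have : coeff m F' = 0 := by
      by_contra e
      exact k (h m (mem_support_iff.2 e))
    rw [this, sub_zero]

theorem dg_ne {col : ι → Finset Γ} {c : Γ} {m : ι →₀ ℕ} {b : ι} (hb : b ∈ m.support)
    (hc : c ∈ col b) : dg col c m ≠ 0 := by
  unfold dg
  rw [Finsupp.weight_apply, Finsupp.sum]
  intro h
  have := Finset.sum_eq_zero_iff.1 h b hb
  rw [if_pos hc, smul_eq_mul, mul_one] at this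
  exact Finsupp.mem_support_iff.1 hb this

theorem wt_le (w g : ι → ℕ) (n k : ℕ) (m : ι →₀ ℕ) (h : ∀ b ∈ m.support, k * 2 ^ g b ≤ n) :
    k * Finsupp.weight (fun b => w b * 2 ^ g b) m ≤ Finsupp.weight w m * n := by
  rw [Finsupp.weight_apply, Finsupp.weight_apply, Finsupp.sum, Finsupp.sum, Finset.mul_sum,
    Finset.sum_mul]
  refine Finset.sum_le_sum fun b hb => ?_
  simp only [smul_eq_mul]
  calc k * (m b * (w b * 2 ^ g b)) = m b * w b * (k * 2 ^ g b) := by ring
    _ ≤ m b * w b * n := Nat.mul_le_mul_left _ (h b hb)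

variable {G : GT ι} {T : AT ι} {col : ι → Finset Γ} {s : ℕ} {P : ℝ}

theorem supp_p {a : ι} {m : ι →₀ ℕ} (h : m ∈ ((ofG G T col).p a).support) :
    m ∈ (T.p a).support ∨ ∃ b, G.A a b ≠ 0 ∧ m ∈ (G.q b).support := by
  rcases Finset.mem_union.1 (support_sub _ _ _ h) with k | k
  · exact Or.inl k
  · exact Or.inr (Rca.supp_sum k)

theorem ok (hG : G.Ok s) (hP : 0 < P) (hT : G.AOk T P) (hc : Col G col)
    (ne : ∀ a ∈ T.U, (col a).Nonempty)
    (ty : ∀ a ∈ T.U, Ty col (col a) (G.q a) ∧ Ty col (col a) (T.p a)) : (ofG G T col).Ok where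
  w1 := fun a => Nat.mul_pos (hG.w1 a) (Nat.two_pow_pos _)
  AB := hG.AB
  blk := fun a b h => ⟨by
    show G.w a * 2 ^ G.g a = G.w b * 2 ^ G.g b
    rw [(hG.blk a b h).1, (hG.blk a b h).2], hc.blk a b h⟩
  bk := hT.bk
  pv := fun a ha x hx => by
    obtain ⟨m, hm, k⟩ := (mem_vars_iff_mem_support _).1 hx
    rcases supp_p hm with h | ⟨b, h1, h2⟩
    · exact hT.pv a ha ((mem_vars_iff_mem_support _).2 ⟨m, h, k⟩)
    · exact hT.qv b ((hT.bk a b (Or.inl h1)).1 ha) ((mem_vars_iff_mem_support _).2 ⟨m, h2, k⟩)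
  pd := fun a ha m hm => by
    show Finsupp.weight (fun b => G.w b * 2 ^ G.g b) m < G.w a * 2 ^ G.g a
    rcases supp_p hm with h | ⟨b, h1, h2⟩
    · have k := wt_le G.w G.g (2 ^ G.g a) 1 m fun x hx => by
        rw [one_mul]
        exact Nat.pow_le_pow_right (by norm_num) (Nat.lt_succ_iff.1
          (hT.pl a ha x ((mem_vars_iff_mem_support _).2 ⟨m, h, hx⟩)))
      rw [one_mul] at k
      exact k.trans_lt (Nat.mul_lt_mul_of_pos_right (hT.pd a ha m h) (Nat.two_pow_pos _))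
    · obtain ⟨e1, e2⟩ := hG.blk a b (Or.inl h1)
      have k := wt_le G.w G.g (2 ^ G.g a) 2 m fun x hx => by
        rw [← pow_succ', e1]
        exact Nat.pow_le_pow_right (by norm_num)
          (hG.ql b x ((mem_vars_iff_mem_support _).2 ⟨m, h2, hx⟩))
      rw [hG.qh b (mem_support_iff.1 h2), ← e2] at k
      have : 0 < G.w a * 2 ^ G.g a := Nat.mul_pos (hG.w1 a) (Nat.two_pow_pos _)
      omega
  ty := fun a ha m hm => by
    rcases supp_p hm with h | ⟨b, h1, h2⟩
    · exact (ty a ha).2 m h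
    · have k := (ty b ((hT.bk a b (Or.inl h1)).1 ha)).1 m h2
      rw [← hc.blk a b (Or.inl h1)] at k
      exact k
  ne := ne
  sg := fun a => (inv_pos.2 hP).trans_le (hT.s1 a)

theorem ch (a : ι) : (ofG G T col).ch a = G.ch T a := by
  show ∑ b, C (G.A a b) * (X b - 0) + (T.p a - ∑ b, C (G.A a b) * G.q b) =
    ∑ b, C (G.A a b) * (X b - G.q b) + T.p a
  simp only [mul_sub, Finset.sum_sub_distrib, mul_zero, Finset.sum_const_zero]
  ring

theorem colT (ty : ∀ a ∈ T.U, Ty col (col a) (G.q a) ∧ Ty col (col a) (T.p a)) : ColT T col :=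
  fun a ha b hb c hc => by
    obtain ⟨m, hm, k⟩ := (mem_vars_iff_mem_support _).1 hb
    have h1 := (ty a ha).2 m hm c
    have h2 := dg_ne k hc
    by_contra h
    rw [if_neg h] at h1
    omega

variable (K : Type) [Fintype K] [DecidableEq K] [Inhabited K]

/-- the colours of the copies -/
def cc (col : ι → Finset Γ) (x : CV col K) : Finset (Γ × K) :=
  (col x.1.1).image fun c => (c, x.1.2 c)

/-- the centred analytic data on the copies -/
def T0 (T : AT ι) (col : ι → Finset Γ) : AT (CV col K) :=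
  ⟨fu T col K, fun x => kp (cc K col) (univ ∩ cc K col x) (rename (vx col x.1.2) (T.p x.1.1)),
    fun x => T.sg x.1.1⟩

theorem aok0 {P' : ℝ} (hP : 0 < P) (hP' : P ≤ P')
    (h : (cp G col K).AOk (cpT T col (fu T col K)) P) : (cp G col K).AOk (T0 K T col) P' where
  bk := h.bk
  qv := h.qv
  pv := fun a ha => (vars_mono (supp_kp _ _ _)).trans (h.pv a ha)
  pd := fun a ha m hm => h.pd a ha m (supp_kp _ _ _ hm)
  pl := fun a ha b hb => h.pl a ha b (vars_mono (supp_kp _ _ _) hb)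
  s1 := fun a => (inv_anti₀ hP hP').trans (h.s1 a)
  s2 := fun a => (h.s2 a).trans hP'

theorem ch0 (hc : Col G col) (Λ : ℝ) (x : CV col K) :
    ((((ofG G T col).cpy K).dir univ).wid fun _ => Λ).ch x = (cp G col K).ch (T0 K T col) x := by
  have e1 : ∑ y, C (cm col K G.A x y) * (cp G col K).q y =
      rename (vx col x.1.2) (∑ b, C (G.A x.1.1 b) * G.q b) := by
    have h1 := Cpa.sum_cv x (fun y => C (G.A x.1.1 y.1.1) * (cp G col K).q y) fun y hy => by
      have : G.A x.1.1 y.1.1 = 0 := by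
        by_contra h
        exact hy (hc.blk _ _ (Or.inl h)).symm
      rw [this, C_0, zero_mul]
    rw [map_sum]
    refine (Finset.sum_congr rfl fun y _ => ?_).trans (h1.trans
      (Finset.sum_congr rfl fun b _ => ?_))
    · unfold cm
      split_ifs
      · rfl
      · rw [C_0, zero_mul]
    · rw [Cpa.q_vx hc, map_mul, rename_C]
      rfl
  have e2 : kp (cc K col) (univ ∩ cc K col x)
      (rename (vx col x.1.2) (T.p x.1.1 - ∑ b, C (G.A x.1.1 b) * G.q b)) =
      (T0 K T col).p x - rename (vx col x.1.2) (∑ b, C (G.A x.1.1 b) * G.q b) := by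
    rw [map_sub]
    refine kp_sub _ _ _ _ fun m hm c hcx => ?_
    obtain ⟨m', rfl, h1⟩ := coeff_rename_ne_zero _ _ m (mem_support_iff.1 hm)
    obtain ⟨b, h2, h3⟩ := Rca.supp_sum (mem_support_iff.2 h1)
    obtain ⟨c0, h4, rfl⟩ := Finset.mem_image.1 (Finset.mem_inter.1 hcx).2
    rw [hc.blk _ _ (Or.inl h2)] at h4
    obtain ⟨b', h5, h6⟩ := Finset.mem_biUnion.1 (hc.cov b m' h3 h4)
    refine dg_ne (b := vx col x.1.2 b') ?_ (Finset.mem_image.2 ⟨c0, h6, ?_⟩)
    · rw [Finsupp.mem_support_iff, Finsupp.mapDomain_apply (Cpa.vx_inj _)]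
      exact Finsupp.mem_support_iff.1 h5
    · show (c0, rs (col b') x.1.2 c0) = _
      rw [rs, if_pos h6]
  have e3 : ∑ y : CV col K, C (cm col K G.A x y) * ((X y : MvPolynomial (CV col K) ℝ) - 0) +
      kp (cc K col) (univ ∩ cc K col x)
      (rename (vx col x.1.2) (T.p x.1.1 - ∑ b, C (G.A x.1.1 b) * G.q b)) =
      ∑ y : CV col K, C (cm col K G.A x y) *
        ((X y : MvPolynomial (CV col K) ℝ) - (cp G col K).q y) + (T0 K T col).p x := by
    rw [e2]
    simp only [mul_sub, Finset.sum_sub_distrib, mul_zero, Finset.sum_const_zero]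
    rw [e1]
    ring
  exact e3

theorem card_cv {r : ℕ} (hr : Fintype.card Γ ≤ r) :
    Fintype.card (CV col K) ≤ Fintype.card ι * Fintype.card K ^ r := by
  refine (Fintype.card_subtype_le _).trans ?_
  rw [Fintype.card_prod, Fintype.card_fun]
  exact Nat.mul_le_mul_left _ (Nat.pow_le_pow_right Fintype.card_pos hr)

end OldH16

open OldH16 in
theorem old (hM : MONO) (hA : RCA) (hR : RCR) (hC : CPA) (hP : CPR) (hS : MS) : OLD := by
  intro s r k
  obtain ⟨c0, hc0⟩ := hS s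
  refine ⟨((k + 1) ^ r + 1) * (c0 + 2) + (s + 3), ?_⟩
  intro ι Γ _ _ _ _ G T col WW P Y L hr hZ hL hT hc ne ty hG
  have hP2 := hZ.P2
  have hY := hZ.Y1
  have hP0 : 0 < P := by linarith
  have hP1 : 1 ≤ P := by linarith
  refine ⟨ok hG.ok hP0 hT hc ne ty, ch, ?_⟩
  have two : ∀ n : ℕ, (n : ℝ) ≤ P ^ n := fun n =>
    calc (n : ℝ) ≤ (2 : ℝ) ^ n := by exact_mod_cast Nat.lt_two_pow_self.le
      _ ≤ P ^ n := pow_le_pow_left₀ (by norm_num) hP2 n
  obtain ⟨e, he⟩ : ∃ e, e = (k + 1) ^ r := ⟨_, rfl⟩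
  rw [← he] at hG
  obtain ⟨P', hP'⟩ : ∃ P', P' = P ^ (e + 1) := ⟨_, rfl⟩
  have h1 : P ≤ P' := hP' ▸ le_self_pow₀ hP1 (Nat.succ_ne_zero e)
  have hZ' : Sz (CV col (Fin (k + 1))) P' Y := by
    refine ⟨?_, hP2.trans h1, hY⟩
    have := card_cv (col := col) (Fin (k + 1)) hr
    rw [Fintype.card_fin, ← he] at this
    calc (Fintype.card (CV col (Fin (k + 1))) : ℝ) ≤ (Fintype.card ι : ℝ) * e := by
          exact_mod_cast this
      _ ≤ P * P ^ e := mul_le_mul hZ.cd (two e) (Nat.cast_nonneg _) hP0.le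
      _ = P' := by rw [hP', pow_succ']
  obtain ⟨k1, -, -, -, k2⟩ := hC s ι Γ (Fin (k + 1)) G col hG.ok hc
  obtain ⟨k3, -, k4⟩ := k2 T P hT (colT ty)
  have a0 := aok0 (Fin (k + 1)) hP0 h1 ((k4 _).2 k3)
  let N : Matrix (CV col (Fin (k + 1))) (CV col (Fin (k + 1))) ℝ :=
    Matrix.diagonal fun _ => Real.exp L
  let N' : Matrix (CV col (Fin (k + 1))) (CV col (Fin (k + 1))) ℝ :=
    Matrix.diagonal fun _ => (Real.exp L)⁻¹
  have eq : ∀ a b, (N a b ≠ 0 ∨ N' a b ≠ 0) → a = b := fun a b h => by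
    by_contra k
    rcases h with h | h <;> exact h (Matrix.diagonal_apply_ne _ k)
  have rc0 : Rc (cp G col (Fin (k + 1))) N N' (Real.exp L) := by
    refine ⟨?_, fun a b h => by rw [eq a b h]; exact ⟨rfl, rfl⟩, fun a => ?_⟩
    · rw [Matrix.diagonal_mul_diagonal]
      simp only [mul_inv_cancel₀ (Real.exp_ne_zero L), Matrix.diagonal_one]
    · rw [Finset.sum_eq_single a (fun b _ h => by
        rw [show N a b = 0 from Matrix.diagonal_apply_ne _ (Ne.symm h), abs_zero])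
        fun h => (h (Finset.mem_univ _)).elim, show N a a = Real.exp L from
          Matrix.diagonal_apply_eq _ _, abs_of_pos (Real.exp_pos L)]
  obtain ⟨-, -, b1, b2, b3, -⟩ := hA s _ _ N N' _ k1 rc0
  have c1 : 1 ≤ P' ^ c0 := one_le_pow₀ (hP1.trans h1)
  have q1 : 1 ≤ P' ^ 2 := one_le_pow₀ (hP1.trans h1)
  have s1 : 1 ≤ P ^ (s + 3) := one_le_pow₀ hP1
  have ee : P ^ ((e + 1) * (c0 + 2) + (s + 3)) = P' ^ c0 * (P' ^ 2 * P ^ (s + 3)) := by
    rw [pow_add, pow_mul, ← hP', pow_add, mul_assoc]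
  have s0 : (0 : ℝ) ≤ s := Nat.cast_nonneg s
  have r1 := hP s ι Γ (Fin (k + 1)) G col WW _ _ (pow_pos hP0 _).le (by linarith) hc hG
  have r2 := (hM s _ _ WW _ _ (P' ^ c0) (Y + (s + 2) * (L + P' ^ 2)) r1 c1
    (by
      have := mul_nonneg (show (0 : ℝ) ≤ s + 2 by linarith) (show 0 ≤ L + P' ^ 2 by linarith)
      linarith)
    (by rw [ee]; exact le_mul_of_one_le_right (by linarith) (one_le_mul_of_one_le_of_one_le q1 s1))
    (by
      rw [ee, mul_assoc]
      refine mul_le_mul_of_nonneg_left ?_ (by linarith)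
      have t1 : ((s + 3 : ℕ) : ℝ) ≤ P ^ (s + 3) := two _
      push_cast at t1
      have t2 : Y ≤ P' ^ 2 * (Y + L) := by nlinarith
      have t3 : L + P' ^ 2 ≤ P' ^ 2 * (Y + L) := by nlinarith
      have t4 : 0 ≤ P' ^ 2 * (Y + L) := by linarith
      have t5 := mul_le_mul_of_nonneg_left t3 (show (0 : ℝ) ≤ s + 2 by linarith)
      have t6 := mul_le_mul_of_nonneg_right t1 t4
      nlinarith)).1
  have r3 := hR s _ _ N N' WW P' _ Y L hZ' c1 hL rc0 r2
  obtain ⟨m0, m1⟩ := hc0 _ _ (rcT (T0 (Fin (k + 1)) T col) N) _ P' Y hZ'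
    (b3 _ _ a0 fun a b h => by rw [eq a b h]) r3
  have e1 : ((((ofG G T col).cpy (Fin (k + 1))).dir univ).wid fun _ => Real.exp L).mn =
      Mn (rc (cp G col (Fin (k + 1))) N N') (rcT (T0 (Fin (k + 1)) T col) N) := by
    show (cp G col (Fin (k + 1))).dv (fu T col (Fin (k + 1))) *
        ∏ a ∈ fu T col (Fin (k + 1)), (Real.exp L * T.sg a.1.1)⁻¹ =
      (rc (cp G col (Fin (k + 1))) N N').dv (fu T col (Fin (k + 1))) *
        ∏ a ∈ fu T col (Fin (k + 1)), (T.sg a.1.1)⁻¹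
    rw [(b2 (fu T col (Fin (k + 1))) a0.bk fun a b h => by rw [eq a b h]).2,
      Matrix.submatrix_diagonal _ _ Subtype.val_injective, Matrix.det_diagonal]
    simp only [mul_inv, Finset.prod_mul_distrib, Function.comp]
    rw [Finset.prod_coe_sort (fu T col (Fin (k + 1))) fun _ => (Real.exp L)⁻¹,
      abs_of_nonneg (Finset.prod_nonneg fun _ _ => (inv_pos.2 (Real.exp_pos L)).le)]
    ring
  have e2 : Ex ((((ofG G T col).cpy (Fin (k + 1))).dir univ).wid fun _ => Real.exp L).G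
      ((((ofG G T col).cpy (Fin (k + 1))).dir univ).wid fun _ => Real.exp L).T (fun _ => (1 : ℝ)) =
      Ex (rc (cp G col (Fin (k + 1))) N N') (rcT (T0 (Fin (k + 1)) T col) N) fun _ => (1 : ℝ) := by
    have e3 : ∀ (z : CV col (Fin (k + 1)) → ℤ) (a : CV col (Fin (k + 1))),
        Real.exp L * T.sg a.1.1 *
          eval (cz z) ((cp G col (Fin (k + 1))).ch (T0 (Fin (k + 1)) T col) a) =
        T.sg a.1.1 * eval (cz z)
          ((rc (cp G col (Fin (k + 1))) N N').ch (rcT (T0 (Fin (k + 1)) T col) N) a) := by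
      intro z a
      rw [b1, Finset.sum_eq_single a (fun b _ h => by
        rw [show N a b = 0 from Matrix.diagonal_apply_ne _ (Ne.symm h), C_0, zero_mul])
        fun h => (h (Finset.mem_univ _)).elim, show N a a = Real.exp L from
          Matrix.diagonal_apply_eq _ _, map_mul, eval_C]
      ring
    refine tsum_congr fun z => congrArg (· • (1 : ℝ)) (congrArg Real.exp (congrArg (-π * ·)
      (Finset.sum_congr rfl fun a _ => congrArg (· ^ 2) ?_)))
    exact (congrArg (fun F => Real.exp L * T.sg a.1.1 * eval (cz z.1) F)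
      (ch0 (Fin (k + 1)) hc (Real.exp L) a)).trans (e3 z.1 a)
  unfold MT.TH MT.nm MT.En
  rw [e1, e2, smul_eq_mul, inv_mul_le_iff₀ m0]
  have := (abs_le.1 m1).2
  linarith

end

end Vale.Agent.P057T.Mt
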