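import Vale.Agent.P057T.Mt.Defs
import Vale.Agent.P057T.Eq.Summ

/-! Row ONE: one lattice. -/

open MvPolynomial Finset Matrix
open scoped Real
open Vale.Agent.P267.H775 Vale.Agent.P057T.Poi

namespace Vale.Agent.P057T.Mt

open Vale.Agent.P057T.Eq Vale.Agent.P057T.Cp

set_option linter.unusedSectionVars false

noncomputable section

namespace OneP

section lattice

variable {κ κ' : Type} [Fintype κ] [DecidableEq κ] [Fintype κ'] [DecidableEq κ']

/-- narrowing increases the dual theta value -/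
theorem th_wid {L : Matrix κ κ ℝ} (hL : L.det ≠ 0) {l : κ → ℝ} (hl : ∀ a, 1 ≤ l a) :
    th (L⁻¹)ᵀ 0 ≤ th ((diagonal l * L)⁻¹)ᵀ 0 := by
  have h0 : ∀ a, l a ≠ 0 := fun a => (one_pos.trans_le (hl a)).ne'
  have h1 : (diagonal l * L)⁻¹ = L⁻¹ * diagonal fun a => (l a)⁻¹ := by
    refine Matrix.inv_eq_left_inv ?_
    rw [Matrix.mul_assoc, ← Matrix.mul_assoc (diagonal _), diagonal_mul_diagonal]
    simp only [inv_mul_cancel₀ (h0 _), diagonal_one, Matrix.one_mul]
    exact nonsing_inv_mul _ (isUnit_iff_ne_zero.2 hL)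
  have h2 : (diagonal l * L).det ≠ 0 := by
    rw [det_mul, det_diagonal]
    exact mul_ne_zero (prod_ne_zero_iff.2 fun a _ => h0 a) hL
  refine (summable_gq (det_dual hL) 0).tsum_le_tsum (fun n => ?_) (summable_gq (det_dual h2) 0)
  rw [h1, transpose_mul, diagonal_transpose, gq, gq, Real.exp_le_exp]
  refine mul_le_mul_of_nonpos_left ?_ (neg_nonpos.2 Real.pi_pos.le)
  refine sum_le_sum fun a _ => ?_
  rw [← mulVec_mulVec, mulVec_diagonal, mul_pow]
  refine mul_le_of_le_one_left (sq_nonneg _) (pow_le_one₀ (inv_nonneg.2 ?_) ?_)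
  · exact zero_le_one.trans (hl a)
  · exact inv_le_one_of_one_le₀ (hl a)

/-- deleting down to a closed part decreases the dual theta value -/
theorem th_sub {L : Matrix κ κ ℝ} (hL : L.det ≠ 0) {j : κ' → κ} (hj : Function.Injective j)
    (hL' : (L.submatrix j j).det ≠ 0) (hc : ∀ a b, b ∉ Set.range j → L (j a) b = 0) :
    th ((L.submatrix j j)⁻¹)ᵀ 0 ≤ th (L⁻¹)ᵀ 0 := by
  rw [th_zero, th_zero]
  have s1 := summable_gq (det_dual hL) 0
  have s2 := summable_gq (det_dual hL') 0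
  simp only [zero_add] at s1 s2
  refine s2.tsum_le_tsum_of_inj (fun k => Function.extend j k 0) (fun k k' h => ?_)
    (fun _ _ => (gq_pos _ _).le) (fun k => le_of_eq ?_) s1
  · funext a
    have h1 := congrFun h (j a)
    simpa only [hj.extend_apply] using h1
  · set ξ : κ' → ℝ := ((L.submatrix j j)⁻¹)ᵀ *ᵥ toR k with hξ
    have h1 : (L.submatrix j j)ᵀ *ᵥ ξ = toR k := by
      rw [hξ, mulVec_mulVec, ← transpose_mul, nonsing_inv_mul _ (isUnit_iff_ne_zero.2 hL'),
        transpose_one, one_mulVec]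
    have h2 : Lᵀ *ᵥ Function.extend j ξ 0 = toR (Function.extend j k 0) := by
      funext b
      have h3 : (Lᵀ *ᵥ Function.extend j ξ 0) b = ∑ a, L (j a) b * ξ a := by
        refine (Fintype.sum_of_injective j hj _ _ (fun a ha => ?_) fun a => ?_).symm
        · rw [Function.extend_apply' _ _ _ ha, Pi.zero_apply, mul_zero]
        · rw [hj.extend_apply]
          rfl
      rw [h3, toR_apply]
      by_cases hb : b ∈ Set.range j
      · obtain ⟨b, rfl⟩ := hb
        rw [hj.extend_apply]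
        exact congrFun h1 b
      · rw [Function.extend_apply' _ _ _ hb, sum_eq_zero fun a _ => by rw [hc a b hb, zero_mul]]
        simp
    have h4 : (L⁻¹)ᵀ *ᵥ toR (Function.extend j k 0) = Function.extend j ξ 0 := by
      rw [← h2, mulVec_mulVec, ← transpose_mul, mul_nonsing_inv _ (isUnit_iff_ne_zero.2 hL),
        transpose_one, one_mulVec]
    rw [gq, gq, qf, qf, h4, ← hξ]
    congr 2
    refine Fintype.sum_of_injective j hj _ _ (fun a ha => ?_) fun a => ?_
    · rw [Function.extend_apply' _ _ _ ha, Pi.zero_apply, sq, mul_zero]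
    · rw [hj.extend_apply]

/-- unipotent matrices have determinant one -/
theorem det_uni (K : Matrix κ κ ℝ) (w : κ → ℕ) (h : ∀ a b, K a b ≠ 0 → w b < w a) :
    (1 + K).det = 1 := by
  have h0 : ∀ a b, w a ≤ w b → K a b = 0 := fun a b hab => by
    by_contra hn
    exact absurd (h a b hn) (not_lt.2 hab)
  have h1 : BlockTriangular (1 + K)ᵀ w := fun i j hij => by
    rw [transpose_apply, Matrix.add_apply, h0 j i hij.le, add_zero, one_apply_ne]
    rintro rfl
    exact lt_irrefl _ hij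
  rw [← det_transpose, h1.det]
  refine prod_eq_one fun a _ => ?_
  have h2 : (1 + K)ᵀ.toSquareBlock w a = 1 := by
    ext i j
    rw [toSquareBlock_def, of_apply, transpose_apply, Matrix.add_apply, h0 j i (by rw [i.2, j.2]),
      add_zero, one_apply, one_apply]
    simp only [Subtype.ext_iff, eq_comm]
  rw [h2, det_one]

end lattice

variable {ι Γ : Type} [Fintype ι] [DecidableEq ι] [Fintype Γ] [DecidableEq Γ]

theorem coeff_kp (col : ι → Finset Γ) (D : Finset Γ) (F : MvPolynomial ι ℝ) (m : ι →₀ ℕ) :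
    coeff m (kp col D F) = if ∀ c ∈ D, dg col c m ≠ 0 then coeff m F else 0 := by
  rw [kp, coeff_sum]
  simp only [coeff_monomial]
  rw [sum_ite_eq' ]
  by_cases h : ∀ c ∈ D, dg col c m ≠ 0
  · rw [if_pos h]
    by_cases hm : m ∈ F.support
    · rw [if_pos (mem_filter.2 ⟨hm, h⟩)]
    · rw [if_neg fun h' => hm (mem_filter.1 h').1, notMem_support_iff.1 hm]
  · rw [if_neg h, if_neg fun h' => h (mem_filter.1 h').2]

variable {M : MT ι Γ} {c : Γ}

/-- linear coefficients of the lower terms -/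
def nc (M : MT ι Γ) (a b : ι) : ℝ := coeff (Finsupp.single b 1) (M.p a)

/-- the matrix of the charts -/
def lm (M : MT ι Γ) : Matrix M.U M.U ℝ := Matrix.of fun a b => M.sg a * (M.A a b + nc M a b)

theorem nc_vars {a b : ι} (h : nc M a b ≠ 0) : b ∈ (M.p a).vars :=
  (mem_vars_iff_mem_support b).2 ⟨_, mem_support_iff.2 h, by simp⟩

theorem mono_cases (hM : M.Ok) (hc : ∀ a ∈ M.U, M.col a = {c}) {a : ι} (ha : a ∈ M.U)
    {m : ι →₀ ℕ} (hm : m ∈ (M.p a).support) : m = 0 ∨ ∃ b ∈ M.U, m = Finsupp.single b 1 := by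
  have hU : ∀ b ∈ m.support, b ∈ M.U := fun b hb =>
    hM.pv a ha ((mem_vars_iff_mem_support b).2 ⟨m, hm, hb⟩)
  have h1 : dg M.col c m ≤ 1 := (hM.ty a ha m hm c).trans (by split_ifs <;> simp)
  have h2 : dg M.col c m = m.sum fun _ n => n := by
    rw [dg, Finsupp.weight_apply]
    refine Finsupp.sum_congr fun b hb => ?_
    rw [hc b (hU b hb), if_pos (mem_singleton_self c), smul_eq_mul, mul_one]
  rw [h2] at h1
  rcases Nat.le_one_iff_eq_zero_or_eq_one.1 h1 with h | h
  · exact Or.inl ((Finsupp.degree_eq_zero_iff m).1 h)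
  · obtain ⟨b, rfl⟩ := (Finsupp.sum_eq_one_iff m).1 h
    exact Or.inr ⟨b, hU b (by simp), rfl⟩

theorem p_eq (hM : M.Ok) (hc : ∀ a ∈ M.U, M.col a = {c}) {a : ι} (ha : a ∈ M.U) :
    M.p a = C (coeff 0 (M.p a)) + ∑ b : M.U, C (nc M a b) * X b.1 := by
  ext m
  rw [coeff_add, coeff_C, coeff_sum]
  simp only [coeff_C_mul, coeff_X, mul_ite, mul_one, mul_zero]
  by_cases h0 : m = 0
  · subst h0
    rw [if_pos rfl, sum_eq_zero fun b _ => if_neg (by simp), add_zero]
  rw [if_neg (Ne.symm h0), zero_add]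
  by_cases h1 : ∃ b ∈ M.U, m = Finsupp.single b 1
  · obtain ⟨b, hb, rfl⟩ := h1
    rw [sum_eq_single (⟨b, hb⟩ : M.U), if_pos rfl]
    · rfl
    · intro b' _ hb'
      exact if_neg fun h => hb' (Subtype.ext (Finsupp.single_left_injective one_ne_zero h))
    · simp
  · rw [sum_eq_zero fun (b : M.U) _ => if_neg fun h => h1 ⟨b.1, b.2, Eq.symm h⟩]
    by_contra hn
    exact (mono_cases hM hc ha (mem_support_iff.2 hn)).elim h0 h1

theorem det_lm (hT : TOK) (hM : M.Ok) : (lm M).det ≠ 0 ∧ M.mn⁻¹ = |(lm M).det| := by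
  obtain ⟨⟨s, P, -, hG, -⟩, -⟩ := hT ι Γ M hM
  have h1 : lm M = Br.mM M.G M.sg M.U *
      (1 + Br.mI M.G M.sg M.U * Matrix.of fun a b : M.U => M.sg a * nc M a b) := by
    rw [Matrix.mul_add, Matrix.mul_one, ← Matrix.mul_assoc, Br.mM_mul hG hM.bk hM.sg, Matrix.one_mul]
    ext a b
    simp only [lm, Br.mM, of_apply, Matrix.add_apply, mul_add]
    rfl
  have h2 : (lm M).det = (Br.mM M.G M.sg M.U).det := by
    rw [h1, det_mul, det_uni _ (fun a : M.U => M.w a), mul_one]
    intro b' b h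
    rw [mul_apply] at h
    obtain ⟨a, -, ha⟩ := exists_ne_zero_of_sum_ne_zero h
    have h3 : M.B b' a ≠ 0 := fun h0 => ha (by
      simp only [Br.mI, of_apply]
      rw [show M.G.B b' a = 0 from h0, zero_div, zero_mul])
    have h4 : nc M a b ≠ 0 := fun h0 => ha (by rw [of_apply, h0, mul_zero, mul_zero])
    rw [(hM.blk _ _ (Or.inr h3)).1]
    exact Br.vars_w (hM.pd a a.2) (nc_vars h4)
  rw [h2]
  exact ⟨Br.mM_det hG hM.bk hM.sg,
    (congrArg (fun x : ℝ => x⁻¹) (Br.mn_eq hG hM.bk hM.sg)).trans (inv_inv _)⟩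

/-- the centre -/
def xc (M : MT ι Γ) : M.U → ℝ := (lm M)⁻¹ *ᵥ fun a => M.sg a * coeff 0 (M.p a)

theorem nm_eq (hT : TOK) (hM : M.Ok) (hc : ∀ a ∈ M.U, M.col a = {c}) :
    M.nm = |(lm M).det| * th (lm M) (xc M) := by
  obtain ⟨hd, hn⟩ := det_lm hT hM
  have hch := (hT ι Γ M hM).2.2.2.2.1
  rw [MT.nm, MT.En, hn, smul_eq_mul, Ex, th]
  congr 1
  refine ((Br.latE M.U).tsum_eq fun z => M.G.nu M.T z.1 • (1 : ℝ)).symm.trans
    (tsum_congr fun y => ?_)
  rw [smul_eq_mul, mul_one, Br.latE_coe, GT.nu, gq, qf]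
  congr 2
  refine (sum_coe_sort M.U _).symm.trans (sum_congr rfl fun a _ => ?_)
  congr 1
  rw [mulVec_add, xc, mulVec_mulVec, mul_nonsing_inv _ (isUnit_iff_ne_zero.2 hd), one_mulVec]
  have h1 : eval (cz (Br.ex0 M.U y)) (M.ch a) =
      coeff 0 (M.p a) + ∑ b : M.U, (M.A a b + nc M a b) * (y b : ℝ) := by
    rw [hch, map_add, map_sum, Br.sum_bk (V := M.U) _ fun b hb => by
      simp [cz, Br.ex0_mem M.U y b hb]]
    conv_lhs => rw [p_eq hM hc a.2]
    simp only [map_add, map_sum, map_mul, eval_C, eval_X, cz, Br.ex0_coe, add_mul, sum_add_distrib]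
    ring
  change M.sg a * eval (cz (Br.ex0 M.U y)) (M.ch a) = _
  rw [h1, mul_add, mul_sum, Pi.add_apply, mulVec, dotProduct]
  congr 1
  exact sum_congr rfl fun b _ => by rw [lm, of_apply, toR_apply, mul_assoc]

theorem lm_dir (hc : ∀ a ∈ M.U, M.col a = {c}) : lm (M.dir {c}) = lm M := by
  ext a b
  have h : nc (M.dir {c}) a b = nc M a b := by
    refine (coeff_kp _ _ _ _).trans (if_pos fun c' hc' => ?_)
    rw [mem_singleton.1 (mem_inter.1 hc').1, dg, Finsupp.weight_single, hc b b.2,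
      if_pos (mem_singleton_self c)]
    simp
  simp only [lm, of_apply, h]
  rfl

theorem xc_dir (hc : ∀ a ∈ M.U, M.col a = {c}) : xc (M.dir {c}) = 0 := by
  have h : (fun a : (M.dir {c}).U => (M.dir {c}).sg a * coeff 0 ((M.dir {c}).p a)) = 0 := by
    funext a
    have h1 : coeff 0 ((M.dir {c}).p a) = 0 := by
      refine (coeff_kp _ _ _ _).trans (if_neg fun h => h c ?_ ?_)
      · rw [hc a a.2, inter_self]
        exact mem_singleton_self c
      · simp [dg]
    rw [h1, mul_zero, Pi.zero_apply]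
  rw [xc, h, mulVec_zero]

/-- the centred mass is the dual theta value -/
theorem nm_dir (hT : TOK) (hO : OPS) (hM : M.Ok) (hc : ∀ a ∈ M.U, M.col a = {c}) :
    (M.dir {c}).nm = th ((lm M)⁻¹)ᵀ 0 := by
  rw [nm_eq (c := c) hT ((hO ι Γ M hM).1 {c}).1 hc, xc_dir hc, lm_dir hc]
  exact (th_dual (det_lm hT hM).1).symm

end OneP

open OneP

theorem one (hT : TOK) (hO : OPS) : ONE := by
  intro ι Γ _ _ _ _ M c hM hc
  have hd := (det_lm hT hM).1
  refine ⟨?_, ?_, fun l hl => ?_, fun V hV hB hp => ?_⟩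
  · rw [nm_dir hT hO hM hc]
    exact one_le_th (det_dual hd)
  · rw [nm_dir hT hO hM hc, nm_eq hT hM hc]
    exact abs_th_sub hd _
  · have h1 := ((hO ι Γ M hM).2.1 l fun a => one_pos.trans_le (hl a)).1
    have h2 : lm (M.wid l) = diagonal (fun a : M.U => l a) * lm M := by
      ext a b
      exact (mul_assoc _ _ _).trans (diagonal_mul (fun a : M.U => l a) (lm M) a b).symm
    have h3 := nm_dir (c := c) hT hO h1 hc
    rw [h2] at h3
    rw [nm_dir hT hO hM hc]
    exact (th_wid hd fun a => hl a).trans_eq h3.symm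
  · have h1 := (hO ι Γ M hM).2.2.2.1 V hV hB hp
    rw [nm_dir hT hO hM hc, nm_dir hT hO h1 fun a ha => hc a (hV ha)]
    refine th_sub (j := fun a : V => (⟨a.1, hV a.2⟩ : M.U)) hd
      (fun a b h => Subtype.ext (congrArg (fun x : M.U => x.1) h)) (det_lm hT h1).1 fun a b hb => ?_
    have hbV : b.1 ∉ V := fun h => hb ⟨⟨b.1, h⟩, rfl⟩
    have h2 : nc M a b = 0 := by
      by_contra hn
      exact hbV (hp a a.2 (nc_vars hn))
    have h3 : M.A a b = 0 := Br.A_zero hB a.2 hbV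
    simp only [lm, of_apply, h2, h3, add_zero, mul_zero]

end

end Vale.Agent.P057T.Mt
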