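import Vale.Agent.P057T.Mt.Defs
import Vale.Agent.P057T.Cp.Cpa

/-! The moves on multi-affine towers keep `Ok`; their charts. -/

set_option linter.all false

open MvPolynomial Finset

namespace Vale.Agent.P057T.Mt

open Vale.Agent.P057T.Eq Vale.Agent.P057T.Cp

namespace Op

variable {ι Γ : Type} [Fintype ι] [DecidableEq ι] [Fintype Γ] [DecidableEq Γ]

theorem ch_eq (M : MT ι Γ) (a : ι) : M.ch a = ∑ b, C (M.A a b) * X b + M.p a := by
  simp [MT.ch, GT.ch, GT.th, MT.G, MT.T]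

theorem coeff_kp (col : ι → Finset Γ) (D : Finset Γ) (F : MvPolynomial ι ℝ) (m : ι →₀ ℕ) :
    coeff m (kp col D F) = if ∀ c ∈ D, dg col c m ≠ 0 then coeff m F else 0 := by
  classical
  unfold kp
  rw [coeff_sum]
  simp only [coeff_monomial]
  rw [Finset.sum_ite_eq']
  by_cases h : ∀ c ∈ D, dg col c m ≠ 0
  · rw [if_pos h]
    by_cases h0 : coeff m F = 0
    · rw [h0]; split_ifs <;> rfl
    · rw [if_pos (mem_filter.2 ⟨mem_support_iff.2 h0, h⟩)]
  · rw [if_neg h, if_neg fun h' => h (mem_filter.1 h').2]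

theorem kp_add (col : ι → Finset Γ) (D : Finset Γ) (F F' : MvPolynomial ι ℝ) :
    kp col D (F + F') = kp col D F + kp col D F' := by
  ext m
  simp only [coeff_add, coeff_kp]
  split_ifs <;> simp

theorem kp_zero (col : ι → Finset Γ) (D : Finset Γ) : kp col D (0 : MvPolynomial ι ℝ) = 0 := by
  ext m
  simp [coeff_kp]

theorem kp_sum {α : Type} (col : ι → Finset Γ) (D : Finset Γ) (s : Finset α)
    (F : α → MvPolynomial ι ℝ) : kp col D (∑ i ∈ s, F i) = ∑ i ∈ s, kp col D (F i) := by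
  classical
  induction s using Finset.induction_on with
  | empty => simp [kp_zero]
  | insert i s hi ih => rw [sum_insert hi, sum_insert hi, kp_add, ih]

theorem supp_kp (col : ι → Finset Γ) (D : Finset Γ) (F : MvPolynomial ι ℝ) :
    (kp col D F).support ⊆ F.support := fun m hm => by
  rw [mem_support_iff] at hm ⊢
  intro h
  rw [coeff_kp, h] at hm
  exact hm (by split_ifs <;> rfl)

theorem dg_single (col : ι → Finset Γ) (c : Γ) (b : ι) (k : ℕ) :
    dg col c (Finsupp.single b k) = if c ∈ col b then k else 0 := by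
  unfold dg
  rw [Finsupp.weight_single]
  split_ifs <;> simp

theorem kp_lin (col : ι → Finset Γ) (D : Finset Γ) (x : ℝ) (b : ι) (h : D ⊆ col b) :
    kp col D (C x * X b) = C x * X b := by
  classical
  ext m
  rw [coeff_kp]
  split_ifs with h1
  · rfl
  · rw [coeff_C_mul, coeff_X']
    split_ifs with h2
    · refine absurd (fun c hc => ?_) h1
      rw [← h2, dg_single, if_pos (h hc)]
      exact one_ne_zero
    · simp

theorem wt_mono (u : ι → ℕ) {m m' : ι →₀ ℕ} (h : m' ≤ m) :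
    Finsupp.weight u m' ≤ Finsupp.weight u m := by
  obtain ⟨k, rfl⟩ := le_iff_exists_add.1 h
  rw [map_add]
  exact Nat.le_add_right _ _

/-- every monomial of `F'` is constant or divides a monomial of `F` -/
def Dv (F F' : MvPolynomial ι ℝ) : Prop := ∀ m' ∈ F'.support, m' = 0 ∨ ∃ m ∈ F.support, m' ≤ m

theorem Dv.vars {F F' : MvPolynomial ι ℝ} (h : Dv F F') : F'.vars ⊆ F.vars := fun b hb => by
  obtain ⟨m', h1, h2⟩ := (mem_vars b).1 hb
  rcases h m' h1 with rfl | ⟨m, h3, h4⟩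
  · simp at h2
  · exact (mem_vars b).2 ⟨m, h3, Finsupp.support_mono h4 h2⟩

theorem Dv.wt {F F' : MvPolynomial ι ℝ} (h : Dv F F') (u : ι → ℕ) (k : ℕ)
    (hF : ∀ m ∈ F.support, Finsupp.weight u m ≤ k) : ∀ m ∈ F'.support, Finsupp.weight u m ≤ k :=
  fun m' h1 => by
    rcases h m' h1 with rfl | ⟨m, h3, h4⟩
    · simp
    · exact (wt_mono u h4).trans (hF m h3)

theorem Dv.dl {F F' : MvPolynomial ι ℝ} (h : Dv F F') {G : GT ι} {e : ℕ} (he : 1 ≤ e)
    (hF : G.Dl e F) : G.Dl e F' := fun m' h1 => by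
  have := h.wt G.w (e - 1) (fun m hm => by have := hF m hm; omega) m' h1
  omega

theorem Dv.ty {F F' : MvPolynomial ι ℝ} (h : Dv F F') {col : ι → Finset Γ} {e : Finset Γ}
    (hF : Ty col e F) : Ty col e F' := fun m' h1 c =>
  h.wt _ _ (fun m hm => hF m hm c) m' h1

theorem dv_kp (col : ι → Finset Γ) (D : Finset Γ) (F : MvPolynomial ι ℝ) : Dv F (kp col D F) :=
  fun m hm => Or.inr ⟨m, supp_kp col D F hm, le_rfl⟩

theorem supp_C {x : ℝ} {m : ι →₀ ℕ} (h : m ∈ (C x : MvPolynomial ι ℝ).support) : m = 0 := by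
  classical
  rw [mem_support_iff, coeff_C] at h
  by_contra h0
  exact h (if_neg fun h' => h0 h'.symm)

theorem Dv.cadd {F F' : MvPolynomial ι ℝ} (h : Dv F F') (x : ℝ) : Dv F (C x + F') := fun m hm => by
  classical
  rcases mem_union.1 (support_add hm) with h1 | h1
  · exact Or.inl (supp_C h1)
  · exact h m h1

theorem dv_refl (F : MvPolynomial ι ℝ) : Dv F F := fun m hm => Or.inr ⟨m, hm, le_rfl⟩

theorem dv_cen (F : MvPolynomial ι ℝ) (x : ℝ) : Dv F (F - C x) := by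
  have := (dv_refl F).cadd (-x)
  rwa [map_neg, add_comm, ← sub_eq_add_neg] at this

/-- all monomials divide `m` and live on `S` -/
def Le (m : ι →₀ ℕ) (S : ι → Prop) (F : MvPolynomial ι ℝ) : Prop :=
  ∀ m' ∈ F.support, m' ≤ m ∧ ∀ b, m' b ≠ 0 → S b

theorem le_C (m : ι →₀ ℕ) (S : ι → Prop) (x : ℝ) : Le m S (C x) := fun m' h => by
  rw [supp_C h]
  exact ⟨zero_le, fun b hb => absurd rfl hb⟩

theorem Le.mul {m1 m2 : ι →₀ ℕ} {S : ι → Prop} {F1 F2 : MvPolynomial ι ℝ} (h1 : Le m1 S F1)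
    (h2 : Le m2 S F2) : Le (m1 + m2) S (F1 * F2) := fun m' h => by
  classical
  obtain ⟨a, ha, b, hb, rfl⟩ := Finset.mem_add.1 (support_mul _ _ h)
  refine ⟨add_le_add (h1 a ha).1 (h2 b hb).1, fun i hi => ?_⟩
  by_cases h0 : a i = 0
  · refine (h2 b hb).2 i fun h3 => hi ?_
    rw [Finsupp.add_apply, h0, h3]
  · exact (h1 a ha).2 i h0

theorem le_aff (r n : ι → ℝ) (b : ι) :
    Le (Finsupp.single b 1) (fun b => n b ≠ 0) (C (r b) + C (n b) * X b) := fun m' h => by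
  classical
  rcases mem_union.1 (support_add h) with h1 | h1
  · exact le_C _ _ _ m' h1
  · rw [mem_support_iff, coeff_C_mul, coeff_X'] at h1
    have h2 : n b ≠ 0 := left_ne_zero_of_mul h1
    have h3 : Finsupp.single b 1 = m' := by
      by_contra h3
      exact right_ne_zero_of_mul h1 (if_neg h3)
    subst h3
    refine ⟨le_rfl, fun i hi => ?_⟩
    have : i = b := by
      by_contra h4
      exact hi (Finsupp.single_eq_of_ne h4)
    rw [this]; exact h2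

theorem le_mon (r n : ι → ℝ) (m : ι →₀ ℕ) :
    Le m (fun b => n b ≠ 0) (aeval (fun b => C (r b) + C (n b) * X b) (monomial m (1 : ℝ))) := by
  induction m using Finsupp.induction_linear with
  | zero => rw [monomial_zero', aeval_C]; exact le_C _ _ _
  | add m1 m2 h1 h2 =>
    rw [← one_mul (1 : ℝ), ← monomial_mul, map_mul]
    exact h1.mul h2
  | single b k =>
    rw [← X_pow_eq_monomial, map_pow, aeval_X]
    induction k with
    | zero => rw [pow_zero, ← C_1]; exact le_C _ _ _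
    | succ k ih =>
      rw [pow_succ, Finsupp.single_add]
      exact ih.mul (le_aff r n b)

theorem supp_aff (r n : ι → ℝ) (F : MvPolynomial ι ℝ) :
    ∀ m' ∈ (aeval (fun b => C (r b) + C (n b) * X b) F : MvPolynomial ι ℝ).support,
      ∃ m ∈ F.support, m' ≤ m ∧ ∀ b, m' b ≠ 0 → n b ≠ 0 := fun m' h => by
  classical
  rw [F.as_sum, map_sum] at h
  obtain ⟨m, hm, h1⟩ := mem_biUnion.1 (support_sum h)
  refine ⟨m, hm, ?_⟩
  have h2 := (le_C 0 (fun b => n b ≠ 0) (coeff m F)).mul (le_mon r n m)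
  rw [zero_add] at h2
  refine h2 m' ?_
  rwa [← mul_one (coeff m F), ← C_mul_monomial, map_mul, aeval_C] at h1

theorem dv_aff (r n : ι → ℝ) (F : MvPolynomial ι ℝ) :
    Dv F (aeval (fun b => C (r b) + C (n b) * X b) F) := fun m' h => by
  obtain ⟨m, h1, h2, _⟩ := supp_aff r n F m' h
  exact Or.inr ⟨m, h1, h2⟩

theorem fz_eq (V : Finset ι) (y : ι → ℤ) (F : MvPolynomial ι ℝ) :
    fz V y F = aeval (fun b => C (if b ∈ V then 0 else (y b : ℝ)) +
      C (if b ∈ V then (1 : ℝ) else 0) * X b) F := by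
  unfold fz
  congr 2
  funext b
  split_ifs <;> simp

theorem dv_fz (V : Finset ι) (y : ι → ℤ) (F : MvPolynomial ι ℝ) : Dv F (fz V y F) := by
  rw [fz_eq]; exact dv_aff _ _ F

theorem vars_fz (V : Finset ι) (y : ι → ℤ) (F : MvPolynomial ι ℝ) : (fz V y F).vars ⊆ V :=
  fun b hb => by
    obtain ⟨m', h1, h2⟩ := (mem_vars b).1 hb
    rw [fz_eq] at h1
    obtain ⟨m, _, _, h3⟩ := supp_aff _ _ F m' h1
    by_contra h4
    exact h3 b (Finsupp.mem_support_iff.1 h2) (if_neg h4)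

theorem ev_aeval {κ : Type} (x : κ → ℝ) (f : ι → MvPolynomial κ ℝ) (F : MvPolynomial ι ℝ) :
    eval x (aeval f F) = eval (fun b => eval x (f b)) F := by
  induction F using MvPolynomial.induction_on with
  | C a => simp
  | add p q hp hq => simp only [map_add, hp, hq]
  | mul_X p b hp => simp only [map_mul, hp, aeval_X, eval_X]

/-- the variables of a typed form have smaller colours -/
theorem Ty.sub {col : ι → Finset Γ} {e : Finset Γ} {F : MvPolynomial ι ℝ} (h : Ty col e F) :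
    ∀ b ∈ F.vars, col b ⊆ e := fun b hb c hc => by
  obtain ⟨m, h1, h2⟩ := (mem_vars b).1 hb
  have h3 := h m h1 c
  have h4 : Finsupp.single b 1 ≤ m := by
    rw [Finsupp.single_le_iff]
    exact Nat.one_le_iff_ne_zero.2 (Finsupp.mem_support_iff.1 h2)
  have h5 : dg col c (Finsupp.single b 1) ≤ dg col c m := wt_mono _ h4
  rw [dg_single, if_pos hc] at h5
  by_contra h6
  rw [if_neg h6] at h3
  omega

variable {M : MT ι Γ}

theorem colG (h : M.Ok) : Col M.G M.col where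
  blk := fun a b hab => (h.blk a b hab).2
  sub := fun a b hb => by simp [MT.G] at hb
  cov := fun a m hm => by simp [MT.G] at hm

theorem colT (h : M.Ok) : ColT M.T M.col := fun a ha => Ty.sub (h.ty a ha)

theorem dir_ok (h : M.Ok) (D : Finset Γ) : (M.dir D).Ok where
  w1 := h.w1
  AB := h.AB
  blk := h.blk
  bk := h.bk
  pv := fun a ha => (dv_kp _ _ _).vars.trans (h.pv a ha)
  pd := fun a ha => (dv_kp _ _ _).dl (h.w1 a) (h.pd a ha)
  ty := fun a ha => (dv_kp _ _ _).ty (h.ty a ha)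
  ne := h.ne
  sg := h.sg

theorem dir_ch (h : M.Ok) (D : Finset Γ) (a : ι) :
    (M.dir D).ch a = kp M.col (D ∩ M.col a) (M.ch a) := by
  rw [ch_eq, ch_eq, kp_add, kp_sum]
  congr 1
  refine Finset.sum_congr rfl fun b _ => ?_
  by_cases h0 : M.A a b = 0
  · have : (M.dir D).A a b = 0 := h0
    rw [this, h0]; simp [kp_zero]
  · rw [kp_lin _ _ _ _ (by rw [← (h.blk a b (Or.inl h0)).2]; exact inter_subset_right)]
    rfl

theorem wid_ok (h : M.Ok) (l : ι → ℝ) (hl : ∀ a, 0 < l a) : (M.wid l).Ok where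
  w1 := h.w1
  AB := h.AB
  blk := h.blk
  bk := h.bk
  pv := h.pv
  pd := h.pd
  ty := h.ty
  ne := h.ne
  sg := fun a => mul_pos (hl a) (h.sg a)

theorem wid_mn (M : MT ι Γ) (l : ι → ℝ) (hl : ∀ a, 0 < l a) :
    (M.wid l).mn * ∏ a ∈ M.U, l a = M.mn := by
  show M.G.dv M.U * (∏ a ∈ M.U, (l a * M.sg a)⁻¹) * ∏ a ∈ M.U, l a =
    M.G.dv M.U * ∏ a ∈ M.U, (M.sg a)⁻¹
  rw [mul_assoc, ← prod_mul_distrib]
  congr 1
  refine prod_congr rfl fun a _ => ?_
  rw [mul_inv, mul_right_comm, inv_mul_cancel₀ (hl a).ne', one_mul]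

theorem cen_ok (h : M.Ok) (c : ι → ℝ) : (M.cen c).Ok where
  w1 := h.w1
  AB := h.AB
  blk := h.blk
  bk := h.bk
  pv := fun a ha => (dv_cen _ _).vars.trans (h.pv a ha)
  pd := fun a ha => (dv_cen _ _).dl (h.w1 a) (h.pd a ha)
  ty := fun a ha => (dv_cen _ _).ty (h.ty a ha)
  ne := h.ne
  sg := h.sg

theorem cen_ch (M : MT ι Γ) (c : ι → ℝ) (a : ι) : (M.cen c).ch a = M.ch a - C (c a) := by
  rw [ch_eq, ch_eq, add_sub_assoc]
  rfl

theorem rs_ok (h : M.Ok) (V : Finset ι) (hV : V ⊆ M.U) (hb : M.G.Bk V)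
    (hp : ∀ a ∈ V, (M.p a).vars ⊆ V) : (M.rs V).Ok where
  w1 := h.w1
  AB := h.AB
  blk := h.blk
  bk := hb
  pv := hp
  pd := fun a ha => h.pd a (hV ha)
  ty := fun a ha => h.ty a (hV ha)
  ne := fun a ha => h.ne a (hV ha)
  sg := h.sg

theorem mv_bk (h : M.Ok) (F : Finset Γ) : M.G.Bk (M.mv F) := fun a b hab => by
  unfold MT.mv
  rw [mem_filter, mem_filter, h.bk a b hab, (h.blk a b hab).2]

theorem bs_bk (h : M.Ok) (F : Finset Γ) : M.G.Bk (M.U \ M.mv F) := fun a b hab => by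
  rw [mem_sdiff, mem_sdiff, h.bk a b hab, mv_bk h F a b hab]

theorem bs_pv (h : M.Ok) (F : Finset Γ) : ∀ a ∈ M.U \ M.mv F, (M.p a).vars ⊆ M.U \ M.mv F :=
  fun a ha b hb => by
    obtain ⟨h1, h2⟩ := mem_sdiff.1 ha
    refine mem_sdiff.2 ⟨h.pv a h1 hb, fun h3 => h2 (mem_filter.2 ⟨h1, ?_⟩)⟩
    exact (mem_filter.1 h3).2.mono (inter_subset_inter_right (Ty.sub (h.ty a h1) b hb))

theorem bs_ok (h : M.Ok) (F : Finset Γ) : (M.bs F).Ok :=
  rs_ok h _ sdiff_subset (bs_bk h F) (bs_pv h F)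

theorem ty_int {col : ι → Finset Γ} {e : Finset Γ} {Q : MvPolynomial ι ℝ} (h : Ty col e Q)
    (F : Finset Γ) : Ty (fun a => col a ∩ F) (e ∩ F) Q := fun m hm c => by
  by_cases hc : c ∈ F
  · have h1 := h m hm c
    unfold dg at h1 ⊢
    simpa only [mem_inter, hc, and_true] using h1
  · unfold dg
    simp only [mem_inter, hc, and_false, if_false]
    rw [Finsupp.weight_apply]
    simp

theorem fib_ok (h : M.Ok) (F : Finset Γ) (y : ι → ℤ) : (M.fib F y).Ok where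
  w1 := h.w1
  AB := h.AB
  blk := fun a b hab => ⟨(h.blk a b hab).1, congrArg (· ∩ F) (h.blk a b hab).2⟩
  bk := mv_bk h F
  pv := fun a _ => vars_fz _ _ _
  pd := fun a ha => (dv_fz _ _ _).dl (h.w1 a) (h.pd a (mem_filter.1 ha).1)
  ty := fun a ha => ty_int ((dv_fz _ _ _).ty (h.ty a (mem_filter.1 ha).1)) F
  ne := fun a ha => (mem_filter.1 ha).2
  sg := h.sg

theorem fib_ch (h : M.Ok) (F : Finset Γ) (y : ι → ℤ) (a : ι) (ha : a ∈ M.mv F) :
    (M.fib F y).ch a = fz (M.mv F) y (M.ch a) := by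
  rw [ch_eq, ch_eq]
  unfold fz
  rw [map_add, map_sum]
  congr 1
  refine Finset.sum_congr rfl fun b _ => ?_
  rw [map_mul, aeval_C, aeval_X]
  by_cases h0 : M.A a b = 0
  · have : (M.fib F y).A a b = 0 := h0
    rw [this, h0]; simp
  · rw [if_pos ((mv_bk h F a b (Or.inl h0)).1 ha)]
    rfl

theorem np (M : MT ι Γ) {n : Γ → ℕ} (hn : ∀ c, 1 ≤ n c) (b : ι) :
    (0 : ℝ) < ∏ c ∈ M.col b, (n c : ℝ) := prod_pos fun c _ => by exact_mod_cast hn c

theorem cls_ne (M : MT ι Γ) (n : Γ → ℕ) (r : ι → ℤ) {a b : ι}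
    (h : (M.cls n r).A a b ≠ 0 ∨ (M.cls n r).B a b ≠ 0) : M.A a b ≠ 0 ∨ M.B a b ≠ 0 :=
  h.imp (fun h => left_ne_zero_of_mul h) fun h => right_ne_zero_of_mul h

theorem cls_ok (h : M.Ok) {n : Γ → ℕ} (hn : ∀ c, 1 ≤ n c) (r : ι → ℤ) : (M.cls n r).Ok where
  w1 := h.w1
  AB := by
    rw [← h.AB]
    ext a c
    simp only [MT.cls, Matrix.mul_apply, Matrix.of_apply]
    refine Finset.sum_congr rfl fun b _ => ?_
    rw [mul_assoc, mul_inv_cancel_left₀ (np M hn b).ne']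
  blk := fun a b hab => h.blk a b (cls_ne M n r hab)
  bk := fun a b hab => h.bk a b (cls_ne M n r hab)
  pv := fun a ha => ((dv_aff _ _ _).cadd _).vars.trans (h.pv a ha)
  pd := fun a ha => ((dv_aff _ _ _).cadd _).dl (h.w1 a) (h.pd a ha)
  ty := fun a ha => ((dv_aff _ _ _).cadd _).ty (h.ty a ha)
  ne := h.ne
  sg := h.sg

theorem cls_dv (M : MT ι Γ) {n : Γ → ℕ} (hn : ∀ c, 1 ≤ n c) (r : ι → ℤ) (V : Finset ι) :
    (M.cls n r).G.dv V * ∏ a ∈ V, ∏ c ∈ M.col a, (n c : ℝ) = M.G.dv V := by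
  have h1 : ((M.cls n r).G.B.submatrix (Subtype.val : V → ι) (Subtype.val : V → ι)) =
      Matrix.of fun a b : V => (∏ c ∈ M.col a.1, (n c : ℝ))⁻¹ *
        (M.G.B.submatrix (Subtype.val : V → ι) (Subtype.val : V → ι)) a b := rfl
  unfold GT.dv
  rw [h1, Matrix.det_mul_column, abs_mul, prod_coe_sort V fun a => (∏ c ∈ M.col a, (n c : ℝ))⁻¹,
    abs_of_pos (prod_pos fun a _ => inv_pos.2 (np M hn a)), mul_right_comm, ← prod_mul_distrib,
    prod_eq_one fun a _ => inv_mul_cancel₀ (np M hn a).ne', one_mul]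

theorem cls_mn (M : MT ι Γ) {n : Γ → ℕ} (hn : ∀ c, 1 ≤ n c) (r : ι → ℤ) :
    (M.cls n r).mn * ∏ a ∈ M.U, ∏ c ∈ M.col a, (n c : ℝ) = M.mn := by
  show (M.cls n r).G.dv M.U * (∏ a ∈ M.U, (M.sg a)⁻¹) * _ = M.G.dv M.U * ∏ a ∈ M.U, (M.sg a)⁻¹
  rw [mul_right_comm, cls_dv M hn]

theorem cls_ch (M : MT ι Γ) (n : Γ → ℕ) (r : ι → ℤ) (a : ι) (z : ι → ℤ) :
    eval (cz z) ((M.cls n r).ch a) = eval (cz (M.clz n r z)) (M.ch a) := by
  rw [ch_eq, ch_eq]
  have h1 : (fun b => eval (cz z) (C (r b : ℝ) + C (∏ c ∈ M.col b, (n c : ℝ)) * X b)) =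
      cz (M.clz n r z) := by
    funext b
    simp [cz, MT.clz]
  have h2 := ev_aeval (cz z) (fun b => C (r b : ℝ) + C (∏ c ∈ M.col b, (n c : ℝ)) * X b) (M.p a)
  rw [h1] at h2
  simp only [MT.cls, map_add, map_sum, h2, map_mul, eval_C, eval_X, Matrix.of_apply]
  rw [← add_assoc, ← sum_add_distrib]
  congr 1
  refine Finset.sum_congr rfl fun b _ => ?_
  simp only [cz, MT.clz]
  push_cast
  ring

section Cpy

variable {K : Type} [Fintype K] [DecidableEq K] [Inhabited K]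

theorem mem_col (M : MT ι Γ) (x : CV M.col K) (c : Γ) (k : K) :
    (c, k) ∈ (M.cpy K).col x ↔ c ∈ M.col x.1.1 ∧ x.1.2 c = k := by
  simp only [MT.cpy, mem_image, Prod.mk.injEq]
  constructor
  · rintro ⟨c', h1, rfl, h2⟩
    exact ⟨h1, h2⟩
  · rintro ⟨h1, h2⟩
    exact ⟨c, h1, rfl, h2⟩

theorem mem_col_vx (M : MT ι Γ) (f : Γ → K) (a : ι) (c : Γ) (k : K) :
    (c, k) ∈ (M.cpy K).col (vx M.col f a) ↔ c ∈ M.col a ∧ f c = k := by
  rw [mem_col, Cpa.vx_fst, Cpa.vx_snd]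
  refine and_congr_right fun hc => ?_
  unfold Cp.rs
  rw [if_pos hc]

/-- degrees of a renamed monomial -/
theorem dg_vx (M : MT ι Γ) (f : Γ → K) (c : Γ) (k : K) (m : ι →₀ ℕ) :
    dg (M.cpy K).col (c, k) (m.mapDomain (vx M.col f)) = if f c = k then dg M.col c m else 0 := by
  unfold dg
  rw [Cpa.wt_map]
  simp only [mem_col_vx]
  split_ifs with h
  · simp only [h, and_true]
  · simp only [h, and_false, if_false]
    rw [Finsupp.weight_apply]
    simp

theorem ty_vx (M : MT ι Γ) (f : Γ → K) {e : Finset Γ} {Q : MvPolynomial ι ℝ} (h : Ty M.col e Q) :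
    Ty (M.cpy K).col (e.image fun c => (c, f c)) (rename (vx M.col f) Q) := fun m hm ck => by
  obtain ⟨c, k⟩ := ck
  obtain ⟨m', rfl, h1⟩ := coeff_rename_ne_zero _ _ m (mem_support_iff.1 hm)
  rw [dg_vx]
  split_ifs with h2 h3 h3
  · exact (h m' (mem_support_iff.2 h1) c).trans (by split_ifs <;> simp)
  · have h4 : c ∉ e := fun h4 => h3 (mem_image.2 ⟨c, h4, by rw [h2]⟩)
    have h5 := h m' (mem_support_iff.2 h1) c
    rwa [if_neg h4] at h5
  · exact Nat.zero_le _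
  · exact le_rfl

theorem cpy_ne (M : MT ι Γ) {x y : CV M.col K}
    (h : (M.cpy K).A x y ≠ 0 ∨ (M.cpy K).B x y ≠ 0) :
    x.1.2 = y.1.2 ∧ (M.A x.1.1 y.1.1 ≠ 0 ∨ M.B x.1.1 y.1.1 ≠ 0) :=
  h.elim (fun h => ⟨(Cpa.cm_ne h).1, Or.inl (Cpa.cm_ne h).2⟩)
    fun h => ⟨(Cpa.cm_ne h).1, Or.inr (Cpa.cm_ne h).2⟩

theorem mem_U (M : MT ι Γ) (x : CV M.col K) : x ∈ (M.cpy K).U ↔ x.1.1 ∈ M.U := by
  exact ⟨fun h => (mem_filter.1 h).2, fun h => mem_filter.2 ⟨mem_univ _, h⟩⟩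

theorem cpy_ok (h : M.Ok) (K : Type) [Fintype K] [DecidableEq K] [Inhabited K] : (M.cpy K).Ok where
  w1 := fun x => h.w1 _
  AB := by
    ext x z
    have := Cpa.cm_mul (col := M.col) M.A M.B (fun a b hab => (h.blk a b (Or.inl hab)).2) x z
    rw [h.AB, Cpa.one_cm] at this
    exact this
  blk := fun x y hxy => by
    obtain ⟨h1, h2⟩ := cpy_ne M hxy
    refine ⟨(h.blk _ _ h2).1, ?_⟩
    show (M.col x.1.1).image (fun c => (c, x.1.2 c)) = (M.col y.1.1).image fun c => (c, y.1.2 c)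
    rw [h1, (h.blk _ _ h2).2]
  bk := fun x y hxy => by
    rw [mem_U, mem_U]
    exact h.bk _ _ (cpy_ne M hxy).2
  pv := fun x hx y hy => by
    obtain ⟨b, hb, rfl⟩ := mem_vars_rename _ _ hy
    exact (mem_U M _).2 (h.pv _ ((mem_U M x).1 hx) hb)
  pd := fun x hx m hm => Cpa.wt_ren (vx M.col x.1.2) (M.cpy K).w (M.p x.1.1)
    (fun n => n < M.w x.1.1)
    (fun m' h' => h.pd _ ((mem_U M x).1 hx) m' (mem_support_iff.2 h')) m (mem_support_iff.1 hm)
  ty := fun x hx => ty_vx M x.1.2 (h.ty _ ((mem_U M x).1 hx))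
  ne := fun x hx => (h.ne _ ((mem_U M x).1 hx)).image _
  sg := fun x => h.sg _

theorem cpy_ch (h : M.Ok) (f : Γ → K) (a : ι) (ha : a ∈ M.U) :
    (M.cpy K).ch (vx M.col f a) = rename (vx M.col f) (M.ch a) := by
  have h1 := Cpa.ch (colG h) (colT h) (fu M.T M.col K) f a ha
  refine Eq.trans ?_ h1
  rw [ch_eq]
  simp only [GT.ch, GT.th, cp, cpT, MT.G, MT.T, map_zero, sub_zero, MT.cpy]

end Cpy

end Op

theorem ops0 : OPS := fun _ _ _ _ _ _ M h =>
  ⟨fun D => ⟨Op.dir_ok h D, Op.dir_ch h D⟩, fun l hl => ⟨Op.wid_ok h l hl, Op.wid_mn M l hl⟩,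
    fun c => ⟨Op.cen_ok h c, Op.cen_ch M c⟩, Op.rs_ok h, Op.bs_ok h,
    fun F y => ⟨Op.fib_ok h F y, Op.fib_ch h F y⟩,
    fun n hn r => ⟨Op.cls_ok h hn r, Op.cls_mn M hn r, Op.cls_ch M n r⟩,
    fun K _ _ _ => ⟨Op.cpy_ok h K, Op.cpy_ch h⟩⟩

theorem ops (_ : TOK) (_ : CPA) : OPS := ops0

end Vale.Agent.P057T.Mt
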