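import Vale.Agent.P057T.Mt.Defs
import Vale.Agent.P057T.Cp.Cls

/-! Row PIG: some cell and some class keep a normalised sum. -/

set_option linter.all false

open MvPolynomial Finset
open scoped Real

namespace Vale.Agent.P057T.Mt

open Vale.Agent.P057T.Eq Vale.Agent.P057T.Cp

noncomputable section

namespace Pig

variable {ι Γ : Type} [Fintype ι] [DecidableEq ι] [Fintype Γ] [DecidableEq Γ]

theorem lt_En (M : MT ι Γ) (h0 : 0 < M.mn) (h : (ι → ℤ) → ℝ) (a : ℝ) :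
    a < M.En h ↔ a * M.mn < Ex M.G M.T h := by
  rw [MT.En, smul_eq_mul, inv_mul_eq_div, lt_div_iff₀ h0]

theorem nr_ch (G : GT ι) (T : AT ι) (l c : ι → ℝ) (a : ι) :
    (nr G l).ch (nrT T l c) a = C (l a) * G.ch T a - C (c a) := by
  have h1 : (nr G l).th a = C (l a) * G.th a := by
    simp only [GT.th, nr, rc, Matrix.diagonal_mul, mul_sum, C_mul, mul_assoc]
  have h2 : (nrT T l c).p a = C (l a) * T.p a - C (c a) := by
    show ∑ b, C (Matrix.diagonal l a b) * T.p b - C (c a) = _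
    rw [sum_eq_single a]
    · rw [Matrix.diagonal_apply_eq]
    · intro b _ hb
      rw [Matrix.diagonal_apply_ne _ hb.symm]
      simp
    · simp
  rw [GT.ch, GT.ch, h1, h2]
  ring

theorem nr_mn (G : GT ι) (T : AT ι) (l c : ι → ℝ) (hl : ∀ a, 0 < l a) :
    Mn (nr G l) (nrT T l c) = G.mn (fun a => l a * T.sg a) T.U := by
  have h1 : ((nr G l).B.submatrix (Subtype.val : T.U → ι) (Subtype.val : T.U → ι)) =
      G.B.submatrix (Subtype.val : T.U → ι) (Subtype.val : T.U → ι) *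
        Matrix.diagonal fun a : T.U => (l a.1)⁻¹ := by
    ext a b
    simp [nr, rc, Matrix.mul_diagonal]
  show (nr G l).dv T.U * ∏ a ∈ T.U, (T.sg a)⁻¹ = G.dv T.U * ∏ a ∈ T.U, (l a * T.sg a)⁻¹
  rw [GT.dv, GT.dv, h1, Matrix.det_mul, Matrix.det_diagonal, abs_mul,
    prod_coe_sort T.U fun a => (l a)⁻¹, abs_of_pos (prod_pos fun a _ => inv_pos.2 (hl a)),
    mul_assoc, ← prod_mul_distrib]
  simp only [mul_inv]

open ClsA in
theorem split (U : Finset ι) (N : ι → ℕ) (hN : ∀ b, 1 ≤ N b) (f : (ι → ℤ) → ℝ)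
    (hs : Summable fun z : Lat U => f z.1) :
    ∑' z : Lat U, f z.1 = ∑ ρ : ∀ b, Fin (nb U N b),
      ∑' z : Lat U, f fun b => rep U N ρ b + (N b : ℤ) * z.1 b := by
  let e := Equiv.ofBijective _ (jn_bij U hN)
  have h1 : Summable fun x => f (e x).1 := e.summable_iff.2 hs
  rw [← e.tsum_eq, h1.tsum_prod, tsum_fintype]
  rfl

theorem one (hT : TOK) (hO : OPS) (hC : CELL) (M : MT ι Γ) (h : (ι → ℤ) → ℝ) (B a : ℝ)
    (hM : M.Ok) (hB : ∀ z, |h z| ≤ B) (hlt : a < M.En h) (l : ι → ℝ) (hl : ∀ b, 1 ≤ l b) :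
    ∃ c : ι → ℝ, (∀ b, l b = 1 → c b = 0) ∧ a < ((M.cen c).wid l).En h := by
  obtain ⟨⟨s, P, hP, hG, hA⟩, -, -, h0, -⟩ := hT ι Γ M hM
  rw [lt_En M h0] at hlt
  have hl0 : ∀ b, 0 < l b := fun b => lt_of_lt_of_le one_pos (hl b)
  obtain ⟨c, h1, -, h3⟩ := hC s ι M.G M.T P l h B a hG hP hA hl hB hlt
  refine ⟨fun b => c b / l b, fun b hb => by simp [h1 b hb], ?_⟩
  obtain ⟨hc, hch⟩ := (hO ι Γ M hM).2.2.1 fun b => c b / l b
  have hw := ((hO ι Γ _ hc).2.1 l hl0).1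
  rw [lt_En _ (hT ι Γ _ hw).2.2.2.1]
  rw [nr_mn _ _ _ _ hl0] at h3
  refine lt_of_lt_of_eq h3 ?_
  refine tsum_congr fun z => ?_
  have e2 : (nr M.G l).nu (nrT M.T l c) z.1 = ((M.cen fun b => c b / l b).wid l).G.nu
      ((M.cen fun b => c b / l b).wid l).T z.1 := by
    unfold GT.nu
    refine congrArg (fun x => Real.exp (-π * x)) (sum_congr rfl fun b _ => ?_)
    have e : ((M.cen fun b => c b / l b).wid l).G.ch ((M.cen fun b => c b / l b).wid l).T b =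
        M.ch b - C (c b / l b) := hch b
    rw [nr_ch, e]
    show (M.sg b * _) ^ 2 = (l b * M.sg b * _) ^ 2
    refine congrArg (· ^ 2) ?_
    have := (hl0 b).ne'
    simp only [map_sub, map_mul, eval_C, MT.ch]
    field_simp
  rw [e2]

open ClsA in
theorem two (hT : TOK) (hO : OPS) (hS : SUMM) (M : MT ι Γ) (h : (ι → ℤ) → ℝ) (B a : ℝ)
    (hM : M.Ok) (hB : ∀ z, |h z| ≤ B) (hlt : a < M.En h) (n : Γ → ℕ) (hn : ∀ c, 1 ≤ n c) :
    ∃ r ∈ Lat M.U, a < (M.cls n r).En fun z => h (M.clz n r z) := by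
  obtain ⟨⟨s, P, hP, hG, hA⟩, -, -, h0, -⟩ := hT ι Γ M hM
  rw [lt_En M h0] at hlt
  by_contra hcon
  obtain ⟨N, hNe⟩ : ∃ N : ι → ℕ, N = fun b => ∏ c ∈ M.col b, n c := ⟨_, rfl⟩
  have hN : ∀ b, 1 ≤ N b := fun b => by rw [hNe]; exact one_le_prod' fun c _ => hn c
  have hcl := fun r => (hO ι Γ M hM).2.2.2.2.2.2.1 n hn r
  have hnu : ∀ r z, (M.cls n r).G.nu (M.cls n r).T z = M.G.nu M.T (M.clz n r z) := by
    intro r z
    unfold GT.nu
    refine congrArg (fun x => Real.exp (-π * x)) (sum_congr rfl fun b _ => ?_)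
    exact congrArg (fun x => (M.sg b * x) ^ 2) ((hcl r).2.2 b z)
  have hj : ∀ r z : ι → ℤ, (fun b => r b + (N b : ℤ) * z b) = M.clz n r z := by
    intro r z
    funext b
    simp [MT.clz, hNe]
  have hsum : Summable fun z : Lat M.U => M.G.nu M.T z.1 • h z.1 := by
    refine Summable.of_norm_bounded ((hS s ι M.G M.T P hG hP hA).mul_right B) fun z => ?_
    have : 0 ≤ M.G.nu M.T z.1 := (Real.exp_pos _).le
    rw [smul_eq_mul, Real.norm_eq_abs, abs_mul, abs_of_nonneg this]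
    exact mul_le_mul_of_nonneg_left (hB _) this
  have h1 : Ex M.G M.T h = _ := split M.U N hN (fun z => M.G.nu M.T z • h z) hsum
  have h5 : (0 : ℝ) < ∏ b ∈ M.U, (N b : ℝ) := prod_pos fun b _ => Nat.cast_pos.2 (hN b)
  have h6 : ∏ b ∈ M.U, (N b : ℝ) = ∏ b ∈ M.U, ∏ c ∈ M.col b, (n c : ℝ) :=
    prod_congr rfl fun b _ => by rw [hNe]; exact Nat.cast_prod _ _
  have h2 : ∀ r ∈ Lat M.U, ∑' z : Lat M.U, M.G.nu M.T (fun b => r b + (N b : ℤ) * z.1 b) •
      h (fun b => r b + (N b : ℤ) * z.1 b) ≤ a * (M.mn / ∏ b ∈ M.U, (N b : ℝ)) := by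
    intro r hr
    have h7 := (hT ι Γ _ (hcl r).1).2.2.2.1
    have h3 := not_lt.1 fun k => hcon ⟨r, hr, (lt_En _ h7 _ a).2 k⟩
    have h8 : (M.cls n r).mn = M.mn / ∏ b ∈ M.U, (N b : ℝ) := by
      rw [eq_div_iff h5.ne', h6]
      exact (hcl r).2.1
    rw [h8] at h3
    refine le_of_eq_of_le (tsum_congr fun z => ?_) h3
    rw [hj, hnu]
  have h4 := sum_le_sum fun ρ (_ : ρ ∈ univ) => h2 _ (rep_mem M.U N ρ)
  rw [← h1, sum_const, card_univ, card_cls, nsmul_eq_mul, Nat.cast_prod, mul_left_comm,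
    mul_div_cancel₀ _ h5.ne'] at h4
  exact absurd hlt (not_lt.2 h4)

end Pig

theorem pig (hT : TOK) (hO : OPS) (hC : CELL) (hS : SUMM) : PIG :=
  fun _ _ _ _ _ _ M h B a hM hB hlt =>
    ⟨Pig.one hT hO hC M h B a hM hB hlt, Pig.two hT hO hS M h B a hM hB hlt⟩

end

end Vale.Agent.P057T.Mt
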