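import Vale.Agent.P057T.Mt.Defs

/-! Classes of a regular tower are regular. -/

set_option linter.all false

open MvPolynomial Finset
open scoped Real

namespace Vale.Agent.P057T.Mt

open Vale.Agent.P057T.Eq Vale.Agent.P057T.Cp

namespace Thc

variable {ι Γ : Type} [Fintype ι] [DecidableEq ι] [Fintype Γ] [DecidableEq Γ]

theorem coeff_kp (col : ι → Finset Γ) (D : Finset Γ) (F : MvPolynomial ι ℝ) (m : ι →₀ ℕ) :
    coeff m (kp col D F) = if ∀ c ∈ D, dg col c m ≠ 0 then coeff m F else 0 := by
  unfold kp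
  rw [coeff_sum]
  simp only [coeff_monomial, sum_ite_eq', mem_filter, mem_support_iff]
  by_cases h : coeff m F = 0 <;> simp [h]

theorem shift (r N : ι → ℝ) (s : Multiset ι) : ∀ m', coeff m'
    (aeval (fun b => C (r b) + C (N b) * X b : ι → MvPolynomial ι ℝ)
      (monomial (Multiset.toFinsupp s) (1 : ℝ)) -
      monomial (Multiset.toFinsupp s) ((Multiset.toFinsupp s).prod fun b k => N b ^ k)) ≠ 0 →
    m' < Multiset.toFinsupp s := by
  induction s using Multiset.induction_on with
  | empty => intro m' h; simp at h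
  | cons b s ih =>
    intro m' h
    have e : Multiset.toFinsupp (b ::ₘ s) = Multiset.toFinsupp s + Finsupp.single b 1 := by
      rw [← Multiset.singleton_add, add_comm, Multiset.toFinsupp_add, Multiset.toFinsupp_singleton]
    rw [e] at h ⊢
    generalize Multiset.toFinsupp s = m at ih h ⊢
    have hlt : m < m + Finsupp.single b 1 := lt_add_of_pos_right _ (by
      rw [pos_iff_ne_zero]; simp)
    rw [Finsupp.prod_add_index' (by simp) (fun _ _ _ => pow_add _ _ _),
      Finsupp.prod_single_index (by simp), monomial_add_single, monomial_add_single, map_mul,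
      pow_one, pow_one, aeval_X] at h
    set T := aeval (fun b => C (r b) + C (N b) * X b : ι → MvPolynomial ι ℝ)
      (monomial m (1 : ℝ)) with hT
    set x := m.prod fun b k => N b ^ k with hx
    have e2 : T * (C (r b) + C (N b) * X b) - monomial m (x * N b) * X b =
        C (N b) * ((T - monomial m x) * X b) + (C (r b) * (T - monomial m x) +
          C (r b) * monomial m x) := by
      rw [mul_comm x, ← C_mul_monomial]
      ring
    rw [e2, coeff_add, coeff_add, coeff_C_mul, coeff_C_mul, coeff_C_mul] at h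
    by_contra hc
    apply h
    have z1 : coeff m' ((T - monomial m x) * X b) = 0 := by
      rw [coeff_mul_X']
      split_ifs with hb
      · by_contra k
        apply hc
        have k1 := ih _ k
        have k2 : m' - Finsupp.single b 1 + Finsupp.single b 1 = m' :=
          tsub_add_cancel_of_le (Finsupp.single_le_iff.2
            (Nat.one_le_iff_ne_zero.2 (Finsupp.mem_support_iff.1 hb)))
        rw [← k2]
        exact add_lt_add_left k1 _
      · rfl
    have z2 : coeff m' (T - monomial m x) = 0 := by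
      by_contra k
      exact hc ((ih _ k).trans hlt)
    have z3 : coeff m' (monomial m x) = 0 := by
      rw [coeff_monomial, if_neg]
      rintro rfl
      exact hc hlt
    rw [z1, z2, z3]
    simp

theorem prod_dg (col : ι → Finset Γ) (n : Γ → ℝ) (m : ι →₀ ℕ) :
    (m.prod fun b k => (∏ c ∈ col b, n c) ^ k) = ∏ c, n c ^ dg col c m := by
  induction m using Finsupp.induction_linear with
  | zero => simp [dg]
  | add f g hf hg =>
    rw [Finsupp.prod_add_index' (by simp) (fun _ _ _ => pow_add _ _ _), hf, hg, ← prod_mul_distrib]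
    simp only [dg, map_add, pow_add]
  | single b k =>
    rw [Finsupp.prod_single_index (by simp), ← prod_pow]
    simp only [dg, Finsupp.weight_single, smul_eq_mul, mul_ite, mul_one, mul_zero, pow_ite, pow_zero]
    rw [prod_ite_mem, univ_inter]

theorem kp_aff (col : ι → Finset Γ) (e : Finset Γ) (he : e.Nonempty) (n : Γ → ℝ) (r : ι → ℝ) (x : ℝ)
    (F : MvPolynomial ι ℝ) (hF : Ty col e F) (hv : ∀ b ∈ F.vars, (col b).Nonempty) :
    kp col e (C x + aeval (fun b => C (r b) + C (∏ c ∈ col b, n c) * X b : ι → MvPolynomial ι ℝ) F) =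
      C (∏ c ∈ e, n c) * kp col e F := by
  ext m'
  rw [coeff_C_mul, coeff_kp, coeff_kp]
  split_ifs with hm
  swap
  · simp
  have h0 : coeff m' (C x : MvPolynomial ι ℝ) = 0 := by
    rw [coeff_C, if_neg]
    rintro rfl
    obtain ⟨c, hc⟩ := he
    exact hm c hc (by simp [dg])
  rw [coeff_add, h0, zero_add]
  conv_lhs => rw [F.as_sum, map_sum, coeff_sum]
  have key : ∀ m ∈ F.support, coeff m' (aeval (fun b => C (r b) + C (∏ c ∈ col b, n c) * X b :
      ι → MvPolynomial ι ℝ) (monomial m (coeff m F))) =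
      if m = m' then (∏ c ∈ e, n c) * coeff m F else 0 := by
    intro m hs
    have h1 := shift r (fun b => ∏ c ∈ col b, n c) (Finsupp.toMultiset m) m'
    rw [Finsupp.toMultiset_toFinsupp] at h1
    have h2 : ¬ m' < m := by
      intro k
      obtain ⟨b, hb⟩ := (Finsupp.lt_def.1 k).2
      obtain ⟨c, hc⟩ := hv b ((mem_vars_iff_mem_support b).2 ⟨m, hs,
        Finsupp.mem_support_iff.2 (by omega)⟩)
      have k1 : dg col c m = dg col c m' + dg col c (m - m') := by
        unfold dg
        rw [← map_add, add_tsub_cancel_of_le k.le]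
      have k2 := Finsupp.le_weight_of_ne_zero' (fun a => if c ∈ col a then 1 else 0)
        (f := m - m') (s := b) (by rw [Finsupp.tsub_apply]; omega)
      rw [if_pos hc] at k2
      have k3 := hF m hs c
      change 1 ≤ dg col c (m - m') at k2
      by_cases k4 : c ∈ e
      · rw [if_pos k4] at k3
        have := hm c k4
        omega
      · rw [if_neg k4] at k3
        omega
    have h3 := not_not.1 (mt h1 h2)
    rw [coeff_sub, sub_eq_zero, coeff_monomial, prod_dg] at h3
    rw [← mul_one (coeff m F), ← C_mul_monomial, map_mul, aeval_C, algebraMap_eq, coeff_C_mul, h3]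
    split_ifs with k
    · subst k
      rw [mul_one, mul_comm]
      congr 1
      rw [← prod_subset (subset_univ e)]
      · refine prod_congr rfl fun c hc => ?_
        have k3 := hF m hs c
        have := hm c hc
        rw [if_pos hc] at k3
        rw [show dg col c m = 1 by omega, pow_one]
      · intro c _ hc
        have k3 := hF m hs c
        rw [if_neg hc] at k3
        rw [show dg col c m = 0 by omega, pow_zero]
    · simp
  rw [sum_congr rfl key, sum_ite_eq']
  split_ifs with k
  · rfl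
  · rw [notMem_support_iff.1 k, mul_zero]

end Thc

open Thc in
theorem thc (hT : TOK) (hO : OPS) (hE : EMB) (hC : CMP) : THC := by
  intro ι Γ _ _ _ _ M n r k Λ Λ' d hM hn hΛ hle hTH
  have hn0 : ∀ c, (1 : ℝ) ≤ n c := fun c => by exact_mod_cast hn c
  let N : ι → ℝ := fun b => ∏ c ∈ M.col b, (n c : ℝ)
  have hN0 : ∀ b, 0 < N b := fun b => prod_pos fun c _ => by linarith [hn0 c]
  have hN1 : ∀ b, N b ≤ ∏ c, (n c : ℝ) := fun b =>
    prod_le_prod_of_subset_of_one_le (subset_univ _) (fun c _ => by linarith [hn0 c])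
      fun c _ _ => hn0 c
  let Y := M.cpy (Fin (k + 1))
  have hY : Y.Ok := ((hO ι Γ M hM).2.2.2.2.2.2.2 (Fin (k + 1))).1
  have hD : (Y.dir univ).Ok := ((hO _ _ Y hY).1 univ).1
  let l : CV M.col (Fin (k + 1)) → ℝ := fun x => Λ' * N x.1.1
  have hl : ∀ x, 0 < l x := fun x => mul_pos hΛ (hN0 _)
  have hZ : ((Y.dir univ).wid l).Ok := ((hO _ _ _ hD).2.1 l hl).1
  have hΛ0 : 0 < Λ := lt_of_lt_of_le (mul_pos hΛ (prod_pos fun c _ => by linarith [hn0 c])) hle
  have e1 := (hE.2 _ _ _ hD).2.2.1 l Λ fun x _ =>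
    (mul_le_mul_of_nonneg_left (hN1 _) hΛ.le).trans hle
  have e2 := (hE.2 _ _ _ hY).1 univ
  have e3 := hE.1 _ _ _ _ _ _ _ _ _ _ _ _ _ _ _ hZ hD hY hΛ0.le e1 e2
  rw [mul_one] at e3
  have h1 := (hC _ _ _ _ _ _ _ _ Λ d hZ hY hΛ0 e3 hTH).2.1
  refine le_trans (le_of_eq ?_) h1
  let W : MT (CV M.col (Fin (k + 1))) (Γ × Fin (k + 1)) :=
    (((M.cls n r).cpy (Fin (k + 1))).dir univ).wid fun _ => Λ'
  show W.nm = ((Y.dir univ).wid l).nm
  have hNK : ∀ y : CV M.col (Fin (k + 1)), ∏ c ∈ Y.col y, (n c.1 : ℝ) = N y.1.1 := fun y => by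
    show ∏ c ∈ (M.col y.1.1).image (fun c => (c, y.1.2 c)), (n c.1 : ℝ) = _
    rw [prod_image fun a _ b _ h => (Prod.ext_iff.1 h).1]
  have hch : ∀ x ∈ Y.U, W.ch x = C (N x.1.1) * ((Y.dir univ).wid l).ch x := by
    intro x hx
    have hp : W.p x = C (N x.1.1) * ((Y.dir univ).wid l).p x := by
      have k1 := kp_aff Y.col (Y.col x) (hY.ne x hx) (fun c => (n c.1 : ℝ))
        (fun y => (r y.1.1 : ℝ)) (∑ b, M.A x.1.1 b * r b) (Y.p x) (hY.ty x hx)
        fun b hb => hY.ne b (hY.pv x hx hb)
      simp only [hNK] at k1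
      show kp Y.col (univ ∩ Y.col x) (rename (vx M.col x.1.2) (C (∑ b, M.A x.1.1 b * r b) +
        aeval (fun b => C (r b : ℝ) + C (N b) * X b : ι → MvPolynomial ι ℝ) (M.p x.1.1))) =
        C (N x.1.1) * kp Y.col (univ ∩ Y.col x) (Y.p x)
      rw [univ_inter, ← k1, map_add, rename_C]
      congr 2
      show _ = aeval _ (rename (vx M.col x.1.2) (M.p x.1.1))
      rw [aeval_rename, ← AlgHom.comp_apply, comp_aeval]
      congr 2
      funext b
      simp only [map_add, map_mul, rename_C, rename_X, Function.comp]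
      rfl
    show (∑ y, C (W.A x y) * (X y - 0)) + W.p x =
      C (N x.1.1) * ((∑ y, C (Y.A x y) * (X y - 0)) + ((Y.dir univ).wid l).p x)
    rw [hp, mul_add, mul_sum]
    congr 1
    refine sum_congr rfl fun y _ => ?_
    rw [← mul_assoc, ← map_mul]
    congr 2
    show (if x.1.2 = y.1.2 then M.A x.1.1 y.1.1 * N y.1.1 else 0) =
      N x.1.1 * if x.1.2 = y.1.2 then M.A x.1.1 y.1.1 else 0
    split_ifs
    · by_cases z : M.A x.1.1 y.1.1 = 0
      · simp [z]
      · simp only [N, (hM.blk _ _ (Or.inl z)).2, mul_comm]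
    · simp
  have hnu : ∀ z, W.G.nu W.T z = ((Y.dir univ).wid l).G.nu ((Y.dir univ).wid l).T z := by
    intro z
    show Real.exp (-π * ∑ x ∈ Y.U, (Λ' * M.sg x.1.1 * eval (cz z) (W.ch x)) ^ 2) =
      Real.exp (-π * ∑ x ∈ Y.U, (l x * M.sg x.1.1 * eval (cz z) (((Y.dir univ).wid l).ch x)) ^ 2)
    congr 2
    refine sum_congr rfl fun x hx => ?_
    rw [hch x hx, map_mul, eval_C]
    simp only [l]
    ring
  have hmn : W.mn = ((Y.dir univ).wid l).mn := by
    show |(W.B.submatrix (Subtype.val : Y.U → _) (Subtype.val : Y.U → _)).det| *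
        ∏ x ∈ Y.U, (Λ' * M.sg x.1.1)⁻¹ =
      |(Y.B.submatrix (Subtype.val : Y.U → _) (Subtype.val : Y.U → _)).det| *
        ∏ x ∈ Y.U, (l x * M.sg x.1.1)⁻¹
    have e : W.B.submatrix (Subtype.val : Y.U → _) (Subtype.val : Y.U → _) =
        Matrix.diagonal (fun x : Y.U => (N x.1.1.1)⁻¹) *
          Y.B.submatrix (Subtype.val : Y.U → _) (Subtype.val : Y.U → _) := by
      ext x y
      rw [Matrix.diagonal_mul]
      show (if x.1.1.2 = y.1.1.2 then (N x.1.1.1)⁻¹ * M.B x.1.1.1 y.1.1.1 else 0) =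
        (N x.1.1.1)⁻¹ * if x.1.1.2 = y.1.1.2 then M.B x.1.1.1 y.1.1.1 else 0
      split_ifs <;> simp
    rw [e, Matrix.det_mul, Matrix.det_diagonal, abs_mul,
      abs_of_pos (prod_pos fun x _ => inv_pos.2 (hN0 _)),
      prod_coe_sort Y.U fun x => (N x.1.1)⁻¹, mul_right_comm, ← prod_mul_distrib, mul_comm]
    congr 1
    refine prod_congr rfl fun x _ => ?_
    simp only [l, mul_inv]
    ring
  unfold MT.nm MT.En
  rw [hmn]
  congr 1
  exact tsum_congr fun z => by rw [hnu]

end Vale.Agent.P057T.Mt
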