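import Vale.Agent.P057T.Mt.Defs
import Vale.Agent.P057T.Cp.Cpa

/-! Towers over a regular tower. -/

set_option linter.all false

open MvPolynomial Finset

namespace Vale.Agent.P057T.Mt

open Vale.Agent.P057T.Eq Vale.Agent.P057T.Cp

noncomputable section

namespace ThmP

variable {ι Γ ι' Γ' K K' K2 : Type} [Fintype ι] [DecidableEq ι] [Fintype Γ] [DecidableEq Γ]
  [Fintype ι'] [DecidableEq ι'] [Fintype Γ'] [DecidableEq Γ'] [Fintype K] [DecidableEq K]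
  [Inhabited K] [Fintype K'] [DecidableEq K'] [Inhabited K'] [Fintype K2] [DecidableEq K2]
  [Inhabited K2]

def ff (γ : Γ' → Γ × K) (i : K × K' → K2) (f : Γ → K) (f1 : Γ' → K') : Γ → K2 :=
  fun c => i (f c, Function.extend γ f1 (fun _ => default) (c, f c))

theorem rs_ext {e : Finset Γ} {f g : Γ → K} (h : ∀ c ∈ e, f c = g c) : rs e f = rs e g := by
  funext c
  simp only [rs]
  split_ifs with h1
  · exact h c h1
  · rfl

theorem of_rs {e : Finset Γ} {f g : Γ → K} (h : rs e f = rs e g) : ∀ c ∈ e, f c = g c := by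
  intro c hc
  have := congrFun h c
  simpa only [rs, if_pos hc] using this

theorem emb_mono {M' : MT ι' Γ'} {M : MT ι Γ} {j γ} {Λ Λ' : ℝ} (h : Emb M' M j γ Λ) (hM : M.Ok)
    (hl : Λ ≤ Λ') : Emb M' M j γ Λ' :=
  { h with sg := fun a ha => (h.sg a ha).trans (mul_le_mul_of_nonneg_right hl (hM.sg _).le) }

theorem ce (hO : OPS) (hE : EMB) {M' : MT ι' Γ'} {M : MT ι Γ} {j : ι' → CV M.col K}
    {γ : Γ' → Γ × K} {Λ : ℝ} (h' : M'.Ok) (hM : M.Ok) (h : Emb M' (M.cpy K) j γ Λ)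
    (i : K × K' → K2) (hi : Function.Injective i) :
    Emb (M'.cpy K') (M.cpy K2)
      (fun y => vx M.col (ff γ i (j y.1.1).1.2 y.1.2) (j y.1.1).1.1)
      (fun p => ((γ p.1).1, i ((γ p.1).2, p.2))) Λ := by
  have hU : ∀ y : CV M'.col K', y ∈ (M'.cpy K').U ↔ y.1.1 ∈ M'.U := fun y =>
    ⟨fun h => (mem_filter.1 h).2, fun h => mem_filter.2 ⟨mem_univ _, h⟩⟩
  have hc : ∀ a1 ∈ M'.U, (M.col (j a1).1.1).image (fun c => (c, (j a1).1.2 c)) =
      (M'.col a1).image γ := fun a1 ha => h.col a1 ha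
  have hc1 : ∀ a1 ∈ M'.U, ∀ c1 ∈ M'.col a1, ∃ c ∈ M.col (j a1).1.1, (c, (j a1).1.2 c) = γ c1 := by
    intro a1 ha c1 hc1
    have := mem_image_of_mem γ hc1
    rw [← hc a1 ha] at this
    exact mem_image.1 this
  have hc2 : ∀ a1 ∈ M'.U, ∀ c ∈ M.col (j a1).1.1, ∃ c1 ∈ M'.col a1, γ c1 = (c, (j a1).1.2 c) := by
    intro a1 ha c hc1
    have := mem_image_of_mem (fun c => (c, (j a1).1.2 c)) hc1
    rw [hc a1 ha] at this
    exact mem_image.1 this
  have hcol : ∀ a1 ∈ M'.U, ∀ b1 ∈ M'.U, M.col (j a1).1.1 = M.col (j b1).1.1 →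
      (j a1).1.2 = (j b1).1.2 → M'.col a1 = M'.col b1 := by
    intro a1 ha b1 hb e1 e2
    apply image_injective h.iγ
    show (M'.col a1).image γ = (M'.col b1).image γ
    rw [← hc a1 ha, ← hc b1 hb, e1, e2]
  have key : ∀ y ∈ (M'.cpy K').U, ∀ y' ∈ (M'.cpy K').U, M.col (j y.1.1).1.1 = M.col (j y'.1.1).1.1 →
      (rs (M.col (j y.1.1).1.1) (ff γ i (j y.1.1).1.2 y.1.2) =
        rs (M.col (j y'.1.1).1.1) (ff γ i (j y'.1.1).1.2 y'.1.2) ↔
        (j y.1.1).1.2 = (j y'.1.1).1.2 ∧ y.1.2 = y'.1.2) := by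
    intro y hy y' hy' e
    rw [hU] at hy hy'
    constructor
    · intro h1
      rw [← e] at h1
      have h2 := fun c hc => Prod.ext_iff.1 (hi (of_rs h1 c hc))
      have h3 : (j y.1.1).1.2 = (j y'.1.1).1.2 := by
        rw [← (j y.1.1).2, ← (j y'.1.1).2, ← e]
        exact rs_ext fun c hc => (h2 c hc).1
      refine ⟨h3, ?_⟩
      rw [← y.2, ← y'.2, ← hcol _ hy _ hy' e h3]
      refine rs_ext fun c1 hc1' => ?_
      obtain ⟨c, h4, h5⟩ := hc1 _ hy c1 hc1'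
      have := (h2 c h4).2
      simp only at this
      rw [← h3, h5, h.iγ.extend_apply, h.iγ.extend_apply] at this
      exact this
    · rintro ⟨h1, h2⟩
      rw [e, h1, h2]
  have mat : ∀ (N : Matrix ι ι ℝ) (N' : Matrix ι' ι' ℝ), (∀ a b, N a b ≠ 0 → M.col a = M.col b) →
      ∀ y ∈ (M'.cpy K').U, ∀ y' ∈ (M'.cpy K').U,
      N' y.1.1 y'.1.1 = cm M.col K N (j y.1.1) (j y'.1.1) →
      cm M'.col K' N' y y' = cm M.col K2 N
        (vx M.col (ff γ i (j y.1.1).1.2 y.1.2) (j y.1.1).1.1)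
        (vx M.col (ff γ i (j y'.1.1).1.2 y'.1.2) (j y'.1.1).1.1) := by
    intro N N' hN y hy y' hy' e
    simp only [cm, vx] at e ⊢
    rw [e]
    by_cases h0 : N (j y.1.1).1.1 (j y'.1.1).1.1 = 0
    · simp [h0]
    · have := key y hy y' hy' (hN _ _ h0)
      by_cases h1 : (j y.1.1).1.2 = (j y'.1.1).1.2 ∧ y.1.2 = y'.1.2
      · rw [if_pos h1.2, if_pos h1.1]
        exact (if_pos (this.2 h1)).symm
      · refine Eq.trans ?_ (if_neg (fun h2 => h1 (this.1 h2))).symm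
        split_ifs with a1 a2
        · exact absurd ⟨a2, a1⟩ h1
        · rfl
        · rfl
  have half : ∀ u v : CV M.col K2, u.1.2 = v.1.2 → M.col u.1.1 = M.col v.1.1 →
      (∀ x x' : CV M.col K, x.1.1 = u.1.1 → x'.1.1 = v.1.1 → x.1.2 = x'.1.2 →
        x ∈ M'.U.image j → x' ∈ M'.U.image j) →
      u ∈ (M'.cpy K').U.image (fun y : CV M'.col K' =>
        vx M.col (ff γ i (j y.1.1).1.2 y.1.2) (j y.1.1).1.1) →
      v ∈ (M'.cpy K').U.image (fun y : CV M'.col K' =>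
        vx M.col (ff γ i (j y.1.1).1.2 y.1.2) (j y.1.1).1.1) := by
    intro u v e1 e2 hb hu
    obtain ⟨y, hy, rfl⟩ := mem_image.1 hu
    rw [hU] at hy
    have e3 : (vx M.col (j y.1.1).1.2 v.1.1).1.2 = (j y.1.1).1.2 := Cpa.vx_snd_of _ e2
    obtain ⟨b1, hb1, e4⟩ := mem_image.1 (hb (j y.1.1) (vx M.col (j y.1.1).1.2 v.1.1) rfl rfl
      e3.symm (mem_image_of_mem j hy))
    have e5 : (j b1).1.1 = v.1.1 := by rw [e4]; rfl
    have e6 : (j b1).1.2 = (j y.1.1).1.2 := by rw [e4]; exact e3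
    have e7 : M'.col y.1.1 = M'.col b1 := hcol _ hy _ hb1 (by rw [e5]; exact e2) e6.symm
    refine mem_image.2 ⟨vx M'.col y.1.2 b1, (hU _).2 hb1, ?_⟩
    rw [Cpa.vx_snd_of _ e7, Cpa.vx_fst, e5, e6]
    refine Subtype.ext (Prod.ext rfl ?_)
    rw [← e1, Cpa.vx_snd, Cpa.vx_snd, ← e2]
    rfl
  refine ⟨fun y hy y' hy' e => ?_, fun p p' e => ?_, fun y hy => ?_, fun y hy => ?_,
    fun y hy y' hy' => ?_, fun u v huv => ?_, fun y hy => ?_, fun y hy => h.sg _ ((hU y).1 hy)⟩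
  · have e1 : (j y.1.1).1.1 = (j y'.1.1).1.1 := congrArg (fun x : CV M.col K2 => x.1.1) e
    have e2 := (key y hy y' hy' (by rw [e1])).1 (congrArg (fun x : CV M.col K2 => x.1.2) e)
    exact Subtype.ext (Prod.ext (h.ij ((hU y).1 hy) ((hU y').1 hy')
      (Subtype.ext (Prod.ext e1 e2.1))) e2.2)
  · have e1 := Prod.ext_iff.1 e
    have e2 := Prod.ext_iff.1 (hi e1.2)
    exact Prod.ext (h.iγ (Prod.ext e1.1 e2.1)) e2.2
  · exact mem_filter.2 ⟨mem_univ _, (mem_filter.1 (h.U _ ((hU y).1 hy))).2⟩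
  · rw [hU] at hy
    let φ : Γ × K → Γ × K2 := fun p =>
      (p.1, i (p.2, Function.extend γ y.1.2 (fun _ => default) p))
    have e := congrArg (image φ) (hc _ hy)
    rw [image_image, image_image] at e
    show (M.col (j y.1.1).1.1).image _ = ((M'.col y.1.1).image _).image _
    rw [image_image]
    refine (image_congr fun c hc => ?_).trans (e.trans (image_congr fun c1 _ => ?_))
    · simp only [vx, rs, if_pos (mem_coe.1 hc), Function.comp, φ, ff]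
    · simp only [Function.comp, φ, h.iγ.extend_apply]
  · have := h.A _ ((hU y).1 hy) _ ((hU y').1 hy')
    exact ⟨mat M.A M'.A (fun a b hab => (hM.blk a b (Or.inl hab)).2) y hy y' hy' this.1,
      mat M.B M'.B (fun a b hab => (hM.blk a b (Or.inr hab)).2) y hy y' hy' this.2⟩
  · have e1 : u.1.2 = v.1.2 := by
      by_contra hn
      simp [MT.G, MT.cpy, cm, hn] at huv
    have e2 : M.A u.1.1 v.1.1 ≠ 0 ∨ M.B u.1.1 v.1.1 ≠ 0 := by
      simpa [MT.G, MT.cpy, cm, e1] using huv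
    have e3 := (hM.blk _ _ e2).2
    have e4 : ∀ x x' : CV M.col K, x.1.1 = u.1.1 → x'.1.1 = v.1.1 → x.1.2 = x'.1.2 →
        (x ∈ M'.U.image j ↔ x' ∈ M'.U.image j) := fun x x' a1 a2 a3 =>
      h.bk x x' (by simpa [MT.G, MT.cpy, cm, a1, a2, a3] using e2)
    exact ⟨half u v e1 e3 fun x x' a1 a2 a3 => (e4 x x' a1 a2 a3).1,
      half v u e1.symm e3.symm fun x x' a1 a2 a3 => (e4 x' x a2 a1 a3.symm).2⟩
  · rw [hU] at hy
    have ha : (j y.1.1).1.1 ∈ M.U := (mem_filter.1 (h.U _ hy)).2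
    have p1 := ((hE.2 ι' Γ' M' h').2.2.2.2 K' y.1.2).p _ hy
    have p2 := ((hE.2 ι Γ M hM).2.2.2.2 K2 (ff γ i (j y.1.1).1.2 y.1.2)).p _ ha
    have p3 := ((hE.2 ι Γ M hM).2.2.2.2 K (j y.1.1).1.2).p _ ha
    have p4 := h.p _ hy
    rw [Cpa.vx_self] at p1 p3
    let ψ : CV M.col K → CV M.col K2 := fun x => vx M.col (ff γ i x.1.2 y.1.2) x.1.1
    have q1 : ψ ∘ vx M.col (j y.1.1).1.2 = vx M.col (ff γ i (j y.1.1).1.2 y.1.2) := by
      funext b
      refine Subtype.ext (Prod.ext rfl (rs_ext fun c hc => ?_))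
      have hc' : c ∈ M.col b := hc
      simp only [ff, vx, rs, if_pos hc']
    rw [← p1, ← p2, ← q1, ← rename_rename, p3, ← p4, rename_rename, rename_rename]
    refine Cpa.ren_congr fun b1 hb1 => ?_
    have hb : b1 ∈ M'.U := ((hO ι' Γ' M' h').1 univ).1.pv _ hy hb1
    refine Subtype.ext (Prod.ext rfl (rs_ext fun c hc => ?_))
    obtain ⟨c1, h1, h2⟩ := hc2 b1 hb c hc
    simp only [ff, vx]
    rw [← h2, h.iγ.extend_apply, h.iγ.extend_apply]
    simp only [rs, if_pos h1]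

end ThmP

open ThmP in
theorem thm (_ : TOK) (hO : OPS) (hE : EMB) (hC : CMP) : THM := by
  intro ι Γ ι' Γ' K _ _ _ _ _ _ _ _ _ _ _ M' M j γ k Λ' Λ d h' hM l0 h hT
  have oM := ((hO ι Γ M hM).2.2.2.2.2.2.2 (Fin (k + 1))).1
  refine ⟨fun hk hl => ?_, fun k' Λ'' hk l1 hl => ?_⟩
  · obtain ⟨i⟩ := Function.Embedding.nonempty_of_card_le (α := K × Unit) (β := Fin (k + 1))
      (by simpa using hk)
    have o1 := ((hO ι' Γ' M' h').2.2.2.2.2.2.2 Unit).1
    have e1 := hE.1 _ _ _ _ _ _ _ _ _ _ _ _ _ _ _ h' o1 oM zero_le_one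
      ((hE.2 ι' Γ' M' h').2.2.2.2 Unit default) (ce hO hE h' hM h i i.injective)
    exact hC _ _ _ _ _ _ _ _ Λ d h' oM (l0.trans_le hl)
      (emb_mono e1 oM (by rwa [one_mul])) hT
  · obtain ⟨i⟩ := Function.Embedding.nonempty_of_card_le (α := K × Fin (k' + 1))
      (β := Fin (k + 1)) (by simpa using hk)
    have o1 := ((hO ι' Γ' M' h').2.2.2.2.2.2.2 (Fin (k' + 1))).1
    have o2 := ((hO _ _ _ o1).1 univ).1
    have o3 := ((hO _ _ _ o2).2.1 (fun _ => Λ'') fun _ => l1).1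
    have e1 := hE.1 _ _ _ _ _ _ _ _ _ _ _ _ _ _ _ o2 o1 oM zero_le_one
      ((hE.2 _ _ _ o1).1 univ) (ce hO hE h' hM h i i.injective)
    have e2 := hE.1 _ _ _ _ _ _ _ _ _ _ _ _ _ _ _ o3 o2 oM l1.le
      ((hE.2 _ _ _ o2).2.2.1 (fun _ => Λ'') Λ'' fun _ _ => le_rfl) e1
    exact (hC _ _ _ _ _ _ _ _ Λ d o3 oM ((mul_pos l1 l0).trans_le hl)
      (emb_mono e2 oM (by rwa [one_mul])) hT).2.1

end

end Vale.Agent.P057T.Mt
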