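import Vale.Agent.P057T.Cp.All
import Vale.Agent.P057T.Mt.Tok
import Vale.Agent.P057T.Mt.Ops
import Vale.Agent.P057T.Mt.Fum
import Vale.Agent.P057T.Mt.Mx
import Vale.Agent.P057T.Mt.One
import Vale.Agent.P057T.Mt.Cmp
import Vale.Agent.P057T.Mt.Emb
import Vale.Agent.P057T.Mt.Thm
import Vale.Agent.P057T.Mt.Thc
import Vale.Agent.P057T.Mt.Fibt
import Vale.Agent.P057T.Mt.Old
import Vale.Agent.P057T.Mt.Pig

/-! Closed forms of the basic rows of `Mt.Defs`. -/

namespace Vale.Agent.P057T.Mt.All

open Vale.Agent.P057T.Eq Vale.Agent.P057T.Eq.All Vale.Agent.P057T.Cp Vale.Agent.P057T.Cp.All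

theorem tokc : TOK := tok detc
theorem opsc : OPS := ops0
theorem fumc : FUM := fum tokc opsc fubc
theorem mxc : MX := mx0 tokc opsc
theorem onec : ONE := one tokc opsc
theorem embc : EMB := emb tokc
theorem cmpc : CMP := cmp tokc opsc fumc onec embc
theorem thmc : THM := thm tokc opsc embc cmpc
theorem thcc : THC := thc tokc opsc embc cmpc
theorem fibtc : FIBT := fibt tokc opsc fumc embc cmpc thmc
theorem oldc : OLD := old mono rca rcrc cpa cprc msc
theorem pigc : PIG := pig tokc opsc cellc summ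

end Vale.Agent.P057T.Mt.All
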