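import Vale.Agent.P057T.Mt.Seq

/-! Signed sums over the four vertices. -/

set_option linter.all false

open MvPolynomial Finset

namespace Vale.Agent.P057T.Mt

open Vale.Agent.P057T.Eq Vale.Agent.P057T.Cp

noncomputable section

namespace AltP

variable {ι Γ : Type} [Fintype ι] [DecidableEq ι] [Fintype Γ] [DecidableEq Γ]

/-- dilation of the variables of colour `e` -/
def scl (col : ι → Finset Γ) (e : Γ) (t : ℝ) : MvPolynomial ι ℝ →ₐ[ℝ] MvPolynomial ι ℝ :=
  aeval fun a => if e ∈ col a then C t * X a else X a

theorem scl_mono (col : ι → Finset Γ) (e : Γ) (t : ℝ) (m : ι →₀ ℕ) (r : ℝ) :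
    scl col e t (monomial m r) = C (t ^ dg col e m) * monomial m r := by
  induction m using Finsupp.induction_linear generalizing r with
  | zero => simp [scl, dg]
  | add f g hf hg =>
    have : monomial (f + g) r = monomial f r * monomial g (1 : ℝ) := by rw [monomial_mul, mul_one]
    have e1 : dg col e (f + g) = dg col e f + dg col e g := by simp [dg]
    rw [this, map_mul, hf, hg, e1, pow_add, C_mul]
    ring
  | single a k =>
    have : monomial (Finsupp.single a k) r = C r * X a ^ k := by rw [C_mul_X_pow_eq_monomial]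
    rw [this, map_mul, map_pow]
    have e1 : scl col e t (C r) = C r := by simp [scl]
    have e2 : scl col e t (X a) = if e ∈ col a then C t * X a else X a := by simp [scl]
    rw [e1, e2]
    by_cases h : e ∈ col a
    · have e3 : dg col e (Finsupp.single a k) = k := by simp [dg, Finsupp.weight_apply, h]
      rw [if_pos h, e3, mul_pow, C_pow]; ring
    · have e3 : dg col e (Finsupp.single a k) = 0 := by simp [dg, Finsupp.weight_apply, h]
      rw [if_neg h, e3]; simp

theorem coeff_scl (col : ι → Finset Γ) (e : Γ) (t : ℝ) (F : MvPolynomial ι ℝ) (m : ι →₀ ℕ) :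
    coeff m (scl col e t F) = t ^ dg col e m * coeff m F := by
  induction F using MvPolynomial.induction_on' with
  | monomial u r =>
    rw [scl_mono, coeff_C_mul, coeff_monomial]
    split_ifs with h
    · rw [h]
    · simp
  | add p q hp hq => rw [map_add, coeff_add, coeff_add, hp, hq, mul_add]

theorem ko_eq (M : MT ι Γ) (e : Γ) (F : MvPolynomial ι ℝ) : M.ko e F = scl M.col e 0 F := by
  unfold MT.ko fz scl
  congr 2
  funext a
  by_cases h : e ∈ M.col a <;> simp [h]

theorem sub4 (M : MT ι Γ) (e : Γ) {s : ℝ} (hs : s ≠ 0) {b : Bool → Bool → MvPolynomial ι ℝ}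
    (h : M.alt e s b = 0) (α β : Bool → ℝ) (m : ι →₀ ℕ) :
    (α false + β false) ^ dg M.col e m * coeff m (b false false) -
      (α false + β true) ^ dg M.col e m * coeff m (b false true) -
      (α true + β false) ^ dg M.col e m * coeff m (b true false) +
      (α true + β true) ^ dg M.col e m * coeff m (b true true) = 0 := by
  let ρ : K4 × ι → MvPolynomial ι ℝ := fun x =>
    if e ∈ M.col x.2 then C (cond x.1.1 (β x.1.2 / s) (α x.1.2)) * X x.2 else X x.2
  have key : ∀ p q F, aeval ρ (aeval (M.sm e s p q) F) = scl M.col e (α p + β q) F := by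
    intro p q F
    rw [← AlgHom.comp_apply, comp_aeval]
    unfold scl
    congr 2
    funext a
    unfold MT.sm
    by_cases ha : e ∈ M.col a
    · rw [if_pos ha, if_pos ha, map_add, map_mul, aeval_X, aeval_X, aeval_C]
      simp only [ρ, if_pos ha, cond_false, cond_true, algebraMap_eq]
      rw [← mul_assoc, ← C_mul, mul_div_cancel₀ _ hs, C_add]; ring
    · rw [if_neg ha, if_neg ha, aeval_X]
      simp only [ρ, if_neg ha]
  have h1 := congrArg (fun F => coeff m (aeval ρ F)) h
  simp only [MT.alt, map_add, map_sub, key, coeff_add, coeff_sub, coeff_scl, map_zero,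
    coeff_zero] at h1
  exact h1

theorem dg_zero {col : ι → Finset Γ} {e : Γ} {m : ι →₀ ℕ} (h : dg col e m = 0) {a : ι}
    (ha : a ∈ m.support) : e ∉ col a := by
  intro he
  unfold dg at h
  rw [Finsupp.weight_apply, Finsupp.sum, Finset.sum_eq_zero_iff] at h
  have := h a ha
  rw [if_pos he, smul_eq_mul, mul_one] at this
  exact Finsupp.mem_support_iff.1 ha this

theorem aev_congr {κ : Type} {g g' : ι → MvPolynomial κ ℝ} {m : ι →₀ ℕ} (r : ℝ)
    (h : ∀ a ∈ m.support, g a = g' a) : aeval g (monomial m r) = aeval g' (monomial m r) := by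
  rw [aeval_monomial, aeval_monomial]
  congr 1
  exact Finsupp.prod_congr fun a ha => by rw [h a ha]

theorem four {κ : Type} (col : ι → Finset Γ) (e : Γ) (U : Finset ι)
    (g : Bool → Bool → ι → MvPolynomial κ ℝ)
    (h0 : ∀ a ∈ U, e ∉ col a → ∀ p q, g p q a = g false false a)
    (h1 : ∀ a, g false false a - g false true a - g true false a + g true true a = 0)
    (F : MvPolynomial ι ℝ) (hv : F.vars ⊆ U) (ht : Ty col univ F) :
    aeval (g false false) F - aeval (g false true) F - aeval (g true false) F +
      aeval (g true true) F = 0 := by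
  rw [F.as_sum]
  simp only [map_sum]
  rw [← sum_sub_distrib, ← sum_sub_distrib, ← sum_add_distrib]
  refine sum_eq_zero fun m hm => ?_
  have hU : ∀ a ∈ m.support, a ∈ U := fun a ha => hv ((mem_vars a).2 ⟨m, hm, ha⟩)
  have hd : dg col e m ≤ 1 := by simpa using ht m hm e
  have key : ∀ m' : ι →₀ ℕ, (∀ a ∈ m'.support, a ∈ U) → dg col e m' = 0 → ∀ p q r,
      aeval (g p q) (monomial m' r) = aeval (g false false) (monomial m' (r : ℝ)) :=
    fun m' hU' h p q r => aev_congr r fun a ha => h0 a (hU' a ha) (dg_zero h ha) p q
  by_cases hz : dg col e m = 0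
  · rw [key m hU hz false true, key m hU hz true false, key m hU hz true true]; ring
  · have : ∃ a ∈ m.support, e ∈ col a := by
      by_contra hn
      push Not at hn
      apply hz
      unfold dg
      rw [Finsupp.weight_apply, Finsupp.sum]
      exact sum_eq_zero fun a ha => by rw [if_neg (hn a ha)]; simp
    obtain ⟨a, ha, he⟩ := this
    have e1 : m - Finsupp.single a 1 + Finsupp.single a 1 = m :=
      Finsupp.sub_add_single_one_cancel (Finsupp.mem_support_iff.1 ha)
    have e2 : dg col e (m - Finsupp.single a 1) = 0 := by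
      have e3 : dg col e (m - Finsupp.single a 1 + Finsupp.single a 1) =
          dg col e (m - Finsupp.single a 1) + 1 := by
        unfold dg
        rw [map_add, Finsupp.weight_single, if_pos he]; rfl
      rw [e1] at e3
      omega
    have hU' : ∀ b ∈ (m - Finsupp.single a 1).support, b ∈ U := fun b hb =>
      hU b (Finsupp.support_tsub hb)
    have e4 : monomial m (coeff m F) = monomial (m - Finsupp.single a 1) (coeff m F) * X a := by
      rw [X, monomial_mul, e1, mul_one]
    rw [e4]
    simp only [map_mul, aeval_X]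
    rw [key _ hU' e2 false true, key _ hU' e2 true false, key _ hU' e2 true true]
    linear_combination (aeval (g false false) (monomial (m - Finsupp.single a 1) (coeff m F))) * h1 a

end AltP

open AltP

theorem addm : ADDM := by
  intro ι Γ _ _ _ _ M e s b hs h
  have h1 := fun m => sub4 M e hs h (fun p => cond p 0 1) (fun _ => 0) m
  have h2 := fun m => sub4 M e hs h (fun _ => 0) (fun q => cond q 0 1) m
  have h3 := fun m => sub4 M e hs h (fun p => cond p 0 1) (fun q => cond q 0 1) m
  simp only [cond_true, cond_false, add_zero, zero_add, one_pow, one_mul] at h1 h2 h3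
  constructor
  · ext m
    rw [ko_eq, ko_eq, coeff_sub, coeff_sub, coeff_scl, coeff_scl]
    by_cases hz : dg M.col e m = 0
    · rw [hz]; simp
    · have := h1 m
      rw [zero_pow hz] at this ⊢
      linarith
  · intro m hm
    rw [mem_support_iff, ko_eq, coeff_sub, coeff_scl] at hm
    by_cases hz : dg M.col e m = 0
    · rw [hz] at hm; simp at hm
    · have a1 := h1 m
      have a2 := h2 m
      have a3 := h3 m
      rw [zero_pow hz] at a1 a2 a3 hm
      have a4 : ((1 + 1 : ℝ) ^ dg M.col e m - 2) * coeff m (b false false) = 0 := by linarith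
      have a5 : coeff m (b false false) ≠ 0 := by simpa using hm
      have a6 : (2 : ℝ) ^ dg M.col e m = 2 ^ 1 := by
        have := (mul_eq_zero.1 a4).resolve_right a5
        norm_num at this ⊢
        linarith
      exact pow_right_injective₀ (by norm_num) (by norm_num) a6

theorem alt0 : ALT0 := by
  intro ι Γ _ _ _ _ M A e F x y hM hI heA hv ht
  have key : ∀ p q, aeval (M.sm e 1 p q) (fz (M.mv A) (x p + y q) F) =
      aeval (fun a => if a ∈ M.mv A then M.sm e 1 p q a else C (((x p + y q) a : ℤ) : ℝ)) F := by
    intro p q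
    unfold fz
    rw [← AlgHom.comp_apply, comp_aeval]
    congr 2
    funext a
    split_ifs <;> simp
  unfold MT.alt
  simp only [key]
  refine four M.col e M.U (fun p q a =>
    if a ∈ M.mv A then M.sm e 1 p q a else C (((x p + y q) a : ℤ) : ℝ)) ?_ ?_ F hv ht
  · intro a ha he p q
    have hm : a ∈ M.mv A := by
      obtain ⟨c, hc⟩ := hM.ne a ha
      refine mem_filter.2 ⟨ha, c, mem_inter.2 ⟨hc, ?_⟩⟩
      rcases mem_insert.1 (hI a ha hc) with h | h
      · exact absurd (h ▸ hc) he
      · exact h
    simp only [if_pos hm, MT.sm, if_neg he]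
  · intro a
    by_cases hm : a ∈ M.mv A
    · simp only [if_pos hm, MT.sm]
      split_ifs <;> ring
    · simp only [if_neg hm, Pi.add_apply, Int.cast_add, C_add]
      ring

end

end Vale.Agent.P057T.Mt
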