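import Mathlib

/-! Sharp counts in boxes from Gaussian masses at all centres. -/

set_option linter.all false

open MeasureTheory Set
open scoped Real BigOperators

namespace Vale.Agent.P057T.Mt.H15

noncomputable section

def g1 (Λ t : ℝ) : ℝ := Λ * Real.exp (-π * (Λ * t) ^ 2)

theorem g1_nn {Λ : ℝ} (h : 0 < Λ) (t : ℝ) : 0 ≤ g1 Λ t := by unfold g1; positivity

theorem g1_eq (Λ : ℝ) : g1 Λ = fun t => Λ * Real.exp (-(π * Λ ^ 2) * t ^ 2) := by
  funext t; unfold g1; congr 2; ring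

theorem g1_int {Λ : ℝ} (h : 0 < Λ) (t : ℝ) : Integrable fun x => g1 Λ (t - x) := by
  refine Integrable.comp_sub_left (f := g1 Λ) ?_ t
  rw [g1_eq]
  exact (integrable_exp_neg_mul_sq (by positivity)).const_mul Λ

theorem g1_tot {Λ : ℝ} (h : 0 < Λ) (t : ℝ) : ∫ x, g1 Λ (t - x) = 1 := by
  rw [integral_sub_left_eq_self (g1 Λ) volume t, g1_eq, integral_const_mul, integral_gaussian]
  have : π / (π * Λ ^ 2) = (Λ⁻¹) ^ 2 := by field_simp
  rw [this, Real.sqrt_sq (by positivity), mul_inv_cancel₀ h.ne']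

theorem g1_le {Λ : ℝ} (h : 0 < Λ) (t lo hi : ℝ) : ∫ x in Icc lo hi, g1 Λ (t - x) ≤ 1 :=
  (setIntegral_le_integral (g1_int h t) (ae_of_all _ fun x => g1_nn h _)).trans (g1_tot h t).le

theorem ex_tail {S Λ δ : ℝ} (h : (Λ * δ) ^ 2 ≤ S) :
    Real.exp (-π * S) ≤ Real.exp (-(2 * (Λ * δ) ^ 2)) * Real.exp (-π * (S / 4)) := by
  rw [← Real.exp_add]
  refine Real.exp_le_exp.2 ?_
  have := Real.pi_gt_three
  nlinarith [sq_nonneg (Λ * δ)]

theorem g1_ge {Λ δ : ℝ} (h : 0 < Λ) (hδ : 0 ≤ δ) {t lo hi : ℝ} (h1 : lo + δ ≤ t) (h2 : t ≤ hi - δ) :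
    1 - 2 * Real.exp (-(2 * (Λ * δ) ^ 2)) ≤ ∫ x in Icc lo hi, g1 Λ (t - x) := by
  have h' : 0 < Λ / 2 := by positivity
  have a := integral_add_compl (s := Icc lo hi) measurableSet_Icc (g1_int h t)
  rw [g1_tot h t] at a
  have b : ∫ x in (Icc lo hi)ᶜ, g1 Λ (t - x) ≤
      ∫ x in (Icc lo hi)ᶜ, 2 * Real.exp (-(2 * (Λ * δ) ^ 2)) * g1 (Λ / 2) (t - x) := by
    refine setIntegral_mono_on (g1_int h t).integrableOn
      ((g1_int h' t).const_mul _).integrableOn measurableSet_Icc.compl fun x hx => ?_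
    have hx' : δ ≤ |t - x| := by
      rw [mem_compl_iff, mem_Icc, not_and_or, not_le, not_le] at hx
      rcases hx with hx | hx
      · exact le_abs.2 (Or.inl (by linarith))
      · exact le_abs.2 (Or.inr (by linarith))
    have k : (Λ * δ) ^ 2 ≤ (Λ * (t - x)) ^ 2 := by
      rw [mul_pow, mul_pow, ← sq_abs (t - x)]
      exact mul_le_mul_of_nonneg_left (pow_le_pow_left₀ hδ hx' 2) (by positivity)
    have := mul_le_mul_of_nonneg_left (ex_tail k) h.le
    unfold g1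
    rw [show (Λ / 2 * (t - x)) ^ 2 = (Λ * (t - x)) ^ 2 / 4 by ring]
    linarith
  have c : ∫ x in (Icc lo hi)ᶜ, 2 * Real.exp (-(2 * (Λ * δ) ^ 2)) * g1 (Λ / 2) (t - x) ≤
      2 * Real.exp (-(2 * (Λ * δ) ^ 2)) := by
    refine (setIntegral_le_integral ((g1_int h' t).const_mul _)
      (ae_of_all _ fun x => mul_nonneg (by positivity) (g1_nn h' _))).trans ?_
    rw [integral_const_mul, g1_tot h', mul_one]
  linarith

variable {κ Z : Type} [Fintype κ]

/-- the normalised Gaussian of width `1 / Λ` -/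
def gN (Λ : ℝ) (y x : κ → ℝ) : ℝ :=
  Λ ^ Fintype.card κ * Real.exp (-π * ∑ a, (Λ * (y a - x a)) ^ 2)

theorem gN_eq (Λ : ℝ) (y x : κ → ℝ) : gN Λ y x = ∏ a, g1 Λ (y a - x a) := by
  simp only [gN, g1, Finset.prod_mul_distrib, Finset.prod_const, Finset.card_univ, Finset.mul_sum,
    Real.exp_sum]

theorem gN_nn {Λ : ℝ} (h : 0 < Λ) (y x : κ → ℝ) : 0 ≤ gN Λ y x := by unfold gN; positivity

theorem gN_box (Λ : ℝ) (y lo hi : κ → ℝ) :
    ∫ x in Icc lo hi, gN Λ y x = ∏ a, ∫ x in Icc (lo a) (hi a), g1 Λ (y a - x) := by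
  simp only [gN_eq]
  rw [← pi_univ_Icc, volume_pi, Measure.restrict_pi_pi]
  exact integral_fintype_prod_eq_prod fun a x => g1 Λ (y a - x)

theorem gN_io (Λ : ℝ) (y lo hi : κ → ℝ) : IntegrableOn (gN Λ y) (Icc lo hi) := by
  refine Continuous.integrableOn_Icc ?_
  unfold gN
  fun_prop

theorem vol_box {lo hi : κ → ℝ} (h : lo ≤ hi) (c : ℝ) :
    ∫ _ in Icc lo hi, c = (∏ a, (hi a - lo a)) * c := by
  rw [setIntegral_const, measureReal_def, Real.volume_Icc_pi_toReal h, smul_eq_mul]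

theorem upper (u : Z → κ → ℝ) (E : Finset Z) (c r : κ → ℝ) {Λ δ M : ℝ} (h : 0 < Λ) (hδ : 0 ≤ δ)
    (hr : ∀ a, 0 ≤ r a) (hτ : 0 ≤ 1 - 2 * Real.exp (-(2 * (Λ * δ) ^ 2)))
    (hE : ∀ z ∈ E, ∀ a, |u z a - c a| ≤ r a) (hM : ∀ x, ∑ z ∈ E, gN Λ (u z) x ≤ M) :
    E.card * (1 - 2 * Real.exp (-(2 * (Λ * δ) ^ 2))) ^ Fintype.card κ ≤
      (∏ a, 2 * (r a + δ)) * M := by
  have hb : (fun a => c a - (r a + δ)) ≤ fun a => c a + (r a + δ) := fun a => by
    have := hr a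
    show c a - (r a + δ) ≤ c a + (r a + δ)
    linarith
  have e := vol_box hb M
  rw [show (∏ a, 2 * (r a + δ)) = ∏ a, (c a + (r a + δ) - (c a - (r a + δ))) from
    Finset.prod_congr rfl fun a _ => by ring, ← e]
  refine le_trans ?_ (setIntegral_mono_on (integrable_finset_sum E fun z _ => gN_io Λ (u z) _ _)
    (continuous_const.integrableOn_Icc) measurableSet_Icc fun x _ => hM x)
  rw [integral_finset_sum E fun z _ => gN_io Λ (u z) _ _, ← nsmul_eq_mul, ← Finset.sum_const]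
  refine Finset.sum_le_sum fun z hz => ?_
  rw [gN_box, ← Finset.card_univ, ← Finset.prod_const]
  refine Finset.prod_le_prod (fun _ _ => hτ) fun a _ => ?_
  have := abs_le.1 (hE z hz a)
  exact g1_ge h hδ (by linarith) (by linarith)

theorem lower (u : Z → κ → ℝ) (E : Finset Z) (c r : κ → ℝ) {Λ δ m : ℝ} (h : 0 < Λ)
    (hr : ∀ a, δ ≤ r a) (hm : ∀ x, (∀ a, |x a - c a| ≤ r a - δ) → m ≤ ∑ z ∈ E, gN Λ (u z) x) :
    (∏ a, 2 * (r a - δ)) * m ≤ E.card := by
  have hb : (fun a => c a - (r a - δ)) ≤ fun a => c a + (r a - δ) := fun a => by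
    have := hr a
    show c a - (r a - δ) ≤ c a + (r a - δ)
    linarith
  have e := vol_box hb m
  rw [show (∏ a, 2 * (r a - δ)) = ∏ a, (c a + (r a - δ) - (c a - (r a - δ))) from
    Finset.prod_congr rfl fun a _ => by ring, ← e]
  refine le_trans (setIntegral_mono_on (continuous_const.integrableOn_Icc)
    (integrable_finset_sum E fun z _ => gN_io Λ (u z) _ _) measurableSet_Icc fun x hx =>
      hm x fun a => abs_le.2 ⟨by have := hx.1 a; simp only at this; linarith,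
        by have := hx.2 a; simp only at this; linarith⟩) ?_
  rw [integral_finset_sum E fun z _ => gN_io Λ (u z) _ _, Finset.card_eq_sum_ones, Nat.cast_sum]
  refine Finset.sum_le_sum fun z _ => ?_
  rw [gN_box, Nat.cast_one]
  exact Finset.prod_le_one (fun a _ => setIntegral_nonneg measurableSet_Icc fun x _ => g1_nn h _)
    fun a _ => g1_le h _ _ _

theorem gN_tail {Λ δ : ℝ} (h : 0 < Λ) (hδ : 0 ≤ δ) {y x : κ → ℝ} {a : κ} (ha : δ ≤ |y a - x a|) :
    gN Λ y x ≤ 2 ^ Fintype.card κ * Real.exp (-(2 * (Λ * δ) ^ 2)) * gN (Λ / 2) y x := by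
  have k : (Λ * δ) ^ 2 ≤ ∑ b, (Λ * (y b - x b)) ^ 2 := by
    refine le_trans ?_ (Finset.single_le_sum (f := fun b => (Λ * (y b - x b)) ^ 2)
      (fun _ _ => sq_nonneg _) (Finset.mem_univ a))
    simp only [mul_pow]
    rw [← sq_abs (y a - x a)]
    exact mul_le_mul_of_nonneg_left (pow_le_pow_left₀ hδ ha 2) (by positivity)
  have e : ∑ b, (Λ / 2 * (y b - x b)) ^ 2 = (∑ b, (Λ * (y b - x b)) ^ 2) / 4 := by
    rw [Finset.sum_div]
    exact Finset.sum_congr rfl fun b _ => by ring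
  have := mul_le_mul_of_nonneg_left (ex_tail k) (pow_nonneg h.le (Fintype.card κ))
  unfold gN
  rw [e, div_pow]
  refine this.trans (le_of_eq ?_)
  field_simp

theorem num_tau {N : ℕ} {x ε : ℝ} (e0 : 0 < ε) (e1 : ε ≤ 1) (x1 : 30 * ((N : ℝ) + 1) ≤ x * ε) :
    2 ^ N * Real.exp (-(2 * x ^ 2)) ≤ ε / 20 := by
  have N0 : (0 : ℝ) ≤ N := Nat.cast_nonneg N
  have x0 : 0 < x := by
    by_contra hn
    have := mul_nonpos_of_nonpos_of_nonneg (not_lt.1 hn) e0.le
    linarith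
  have x2 : 30 * ((N : ℝ) + 1) ≤ x := x1.trans (mul_le_of_le_one_right x0.le e1)
  have a1 : (2 : ℝ) ^ N ≤ Real.exp N := by
    rw [← Real.exp_one_pow]
    exact pow_le_pow_left₀ (by norm_num) (by have := Real.add_one_le_exp 1; linarith) N
  have a2 : Real.exp N * Real.exp (-(2 * x ^ 2)) ≤ Real.exp (-x) := by
    rw [← Real.exp_add]
    exact Real.exp_le_exp.2 (by nlinarith)
  have a3 : Real.exp (-x) * x ≤ 1 := by
    rw [Real.exp_neg, inv_mul_le_iff₀ (Real.exp_pos x)]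
    have := Real.add_one_le_exp x
    linarith
  have a4 : Real.exp (-x) ≤ ε / 20 := by
    have p := Real.exp_pos (-x)
    have b1 : Real.exp (-x) * 30 ≤ Real.exp (-x) * (x * ε) :=
      mul_le_mul_of_nonneg_left (by linarith) p.le
    have b2 : Real.exp (-x) * x * ε ≤ 1 * ε := mul_le_mul_of_nonneg_right a3 e0.le
    nlinarith
  exact (mul_le_mul_of_nonneg_right a1 (Real.exp_pos _).le).trans (a2.trans a4)

theorem num_fin {E Q V ε d A B t : ℝ} (e0 : 0 < ε) (e1 : ε ≤ 1) (hd : d ≤ ε / 10) (hV : 0 ≤ V)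
    (P0 : 0 ≤ Q) (E0 : 0 ≤ E) (M0 : 0 ≤ (1 + d) * V) (p1 : A ≤ (1 + ε / 5) * Q)
    (p2 : (1 - ε / 10) * Q ≤ B) (p3 : 1 - ε / 10 ≤ t) (U : E * t ≤ A * ((1 + d) * V))
    (L : B * ((1 - d) * V - ε / 20 * ((1 + d) * V)) ≤ E) : |E - V * Q| ≤ ε * (V * Q) := by
  have P1 : 0 ≤ V * Q := mul_nonneg hV P0
  have dV : d * V ≤ ε / 10 * V := mul_le_mul_of_nonneg_right hd hV
  have u1 : E * (1 - ε / 10) ≤ (1 + ε / 5) * Q * ((1 + ε / 10) * V) :=
    (mul_le_mul_of_nonneg_left p3 E0).trans (U.trans (mul_le_mul p1 (by linarith) M0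
      (by positivity)))
  have m1 : (1 - ε / 5) * V ≤ (1 - d) * V - ε / 20 * ((1 + d) * V) := by
    have : ε / 20 * ((1 + d) * V) ≤ ε / 20 * (2 * V) :=
      mul_le_mul_of_nonneg_left (mul_le_mul_of_nonneg_right (by linarith) hV) (by positivity)
    linarith
  have l1 : (1 - ε / 10) * Q * ((1 - ε / 5) * V) ≤ E :=
    le_trans (mul_le_mul p2 m1 (mul_nonneg (by linarith) hV)
      ((mul_nonneg (by linarith) P0).trans p2)) L
  rw [abs_le]
  constructor
  · have : (1 - ε) * (V * Q) ≤ (1 - ε / 10) * (1 - ε / 5) * (V * Q) :=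
      mul_le_mul_of_nonneg_right (by nlinarith) P1
    linarith
  · have a : (1 + ε / 5) * (1 + ε / 10) * (V * Q) ≤ (1 + ε) * (1 - ε / 10) * (V * Q) :=
      mul_le_mul_of_nonneg_right (by nlinarith) P1
    have b : E * (1 - ε / 10) ≤ (1 + ε) * (V * Q) * (1 - ε / 10) := by linarith
    have := le_of_mul_le_mul_right b (by linarith)
    linarith

theorem num_pow {N : ℕ} {θ ε : ℝ} (e0 : 0 < ε) (e1 : ε ≤ 1) (θ0 : 0 ≤ θ) (h : N * θ ≤ ε / 10)
    (θ1 : θ ≤ 1) : (1 + θ) ^ N ≤ 1 + ε / 5 ∧ 1 - ε / 10 ≤ (1 - θ) ^ N := by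
  constructor
  · have q2 : (1 + θ) ^ N ≤ Real.exp (N * θ) := by
      rw [Real.exp_nat_mul]
      exact pow_le_pow_left₀ (by linarith) (by have := Real.add_one_le_exp θ; linarith) N
    have q3 : Real.exp (N * θ) ≤ Real.exp (ε / 10) := Real.exp_le_exp.2 h
    have q4 := abs_le.1 (Real.abs_exp_sub_one_le (x := ε / 10) (by rw [abs_of_pos] <;> linarith))
    rw [abs_of_pos (by linarith : 0 < ε / 10)] at q4
    linarith [q4.2]
  · have := one_add_mul_le_pow (a := -θ) (by linarith) N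
    rw [← sub_eq_add_neg] at this
    linarith

/-- **sharp counts** -/
theorem box (u : Z → κ → ℝ) (E : Finset Z) (c r : κ → ℝ) {Λ σ ε d V : ℝ} (hσ : 0 < σ)
    (e0 : 0 < ε) (e1 : ε ≤ 1) (hd : d ≤ ε / 10) (hV : 0 ≤ V) (hr : ∀ a, σ ≤ r a)
    (hΛ : 300 * ((Fintype.card κ : ℝ) + 1) ^ 2 ≤ Λ * σ * ε ^ 2)
    (hE : ∀ z, z ∈ E ↔ ∀ a, |u z a - c a| ≤ r a)
    (h1 : ∀ x, Summable (fun z => gN Λ (u z) x) ∧ (1 - d) * V ≤ ∑' z, gN Λ (u z) x ∧
      ∑' z, gN Λ (u z) x ≤ (1 + d) * V)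
    (h2 : ∀ x, Summable (fun z => gN (Λ / 2) (u z) x) ∧
      ∑' z, gN (Λ / 2) (u z) x ≤ (1 + d) * V) :
    |(E.card : ℝ) - V * ∏ a, 2 * r a| ≤ ε * (V * ∏ a, 2 * r a) := by
  classical
  obtain ⟨N, hN⟩ : ∃ N : ℕ, N = Fintype.card κ := ⟨_, rfl⟩
  rw [← hN] at hΛ
  have N0 : (0 : ℝ) ≤ N := Nat.cast_nonneg N
  have hΛ0 : 0 < Λ := by
    by_contra hn
    have : Λ * σ * ε ^ 2 ≤ 0 :=
      mul_nonpos_of_nonpos_of_nonneg (mul_nonpos_of_nonpos_of_nonneg (not_lt.1 hn) hσ.le)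
        (by positivity)
    nlinarith
  obtain ⟨θ, hθ⟩ : ∃ θ : ℝ, θ = ε / (10 * (N + 1)) := ⟨_, rfl⟩
  have θ0 : 0 < θ := by rw [hθ]; positivity
  have θN : (N + 1) * θ = ε / 10 := by rw [hθ]; field_simp
  have θ1 : θ ≤ 1 / 10 := by nlinarith
  have pθ := num_pow (N := N) e0 e1 θ0.le (by linarith) (by linarith)
  have δ0 : 0 ≤ σ * θ := by positivity
  have x1 : 30 * ((N : ℝ) + 1) ≤ Λ * (σ * θ) * ε := by
    have : Λ * (σ * θ) * ε * (10 * (N + 1)) = Λ * σ * ε ^ 2 := by rw [hθ]; field_simp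
    have h3 : 30 * ((N : ℝ) + 1) * (10 * (N + 1)) ≤ Λ * (σ * θ) * ε * (10 * (N + 1)) := by
      rw [this]; nlinarith
    exact le_of_mul_le_mul_right h3 (by positivity)
  have hτ := num_tau e0 e1 x1
  obtain ⟨τ, eτ⟩ : ∃ τ, τ = Real.exp (-(2 * (Λ * (σ * θ)) ^ 2)) := ⟨_, rfl⟩
  have τ0 : 0 < τ := by rw [eτ]; exact Real.exp_pos _
  have N2 : (N : ℝ) ≤ 2 ^ N := by exact_mod_cast (Nat.lt_two_pow_self (n := N)).le
  have N3 : (1 : ℝ) ≤ 2 ^ N := one_le_pow₀ one_le_two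
  have r0 : ∀ a, 0 < r a := fun a => hσ.trans_le (hr a)
  have P0 : 0 ≤ ∏ a, 2 * r a := Finset.prod_nonneg fun a _ => by have := r0 a; linarith
  have L := lower u E c r (δ := σ * θ) (m := (1 - d) * V - ε / 20 * ((1 + d) * V)) hΛ0
    (fun a => (mul_le_of_le_one_right hσ.le (by linarith)).trans (hr a)) fun y hy => by
      have b : ∑' z, gN Λ (u z) y ≤ ∑ z ∈ E, gN Λ (u z) y + ε / 20 * ((1 + d) * V) := by
        refine (h1 y).1.tsum_le_of_sum_le fun s => ?_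
        rw [← Finset.sum_inter_add_sum_sdiff s E]
        refine add_le_add (Finset.sum_le_sum_of_subset_of_nonneg Finset.inter_subset_right
          fun z _ _ => gN_nn hΛ0 _ _) ?_
        have c1 : ∑ z ∈ s \ E, gN (Λ / 2) (u z) y ≤ (1 + d) * V :=
          ((h2 y).1.sum_le_tsum _ fun z _ => gN_nn (by positivity) _ _).trans (h2 y).2
        refine le_trans ?_ (mul_le_mul_of_nonneg_left c1 (by positivity))
        rw [Finset.mul_sum]
        refine Finset.sum_le_sum fun z hz => ?_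
        have hz' := mt (hE z).2 (Finset.mem_sdiff.1 hz).2
        rw [not_forall] at hz'
        obtain ⟨a, ha⟩ := hz'
        have t1 := abs_sub_le (u z a) (y a) (c a)
        have t2 := hy a
        refine (gN_tail hΛ0 δ0 (a := a) (by linarith [not_le.1 ha])).trans ?_
        rw [← hN]
        exact mul_le_mul_of_nonneg_right hτ (gN_nn (by positivity) _ _)
      linarith [(h1 y).2.1]
  rw [← eτ] at hτ
  have τ1 : τ ≤ 1 / 20 := by
    have := mul_le_mul_of_nonneg_right N3 τ0.le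
    linarith
  have U := upper u E c r hΛ0 δ0 (fun a => (r0 a).le) (by rw [← eτ]; linarith)
    (fun z hz => (hE z).1 hz) fun y =>
      ((h1 y).1.sum_le_tsum E fun z _ => gN_nn hΛ0 _ _).trans (h1 y).2.2
  rw [← eτ, ← hN] at U
  have p1 : ∏ a, 2 * (r a + σ * θ) ≤ (1 + ε / 5) * ∏ a, 2 * r a := by
    have q1 : ∏ a, 2 * (r a + σ * θ) ≤ ∏ a : κ, (1 + θ) * (2 * r a) :=
      Finset.prod_le_prod (fun a _ => by have := r0 a; positivity) fun a _ => by
        have := mul_le_mul_of_nonneg_right (hr a) θ0.le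
        linarith
    rw [Finset.prod_mul_distrib (f := fun _ => 1 + θ), Finset.prod_const, Finset.card_univ,
      ← hN] at q1
    exact q1.trans (mul_le_mul_of_nonneg_right pθ.1 P0)
  have p2 : (1 - ε / 10) * ∏ a, 2 * r a ≤ ∏ a, 2 * (r a - σ * θ) := by
    have q1 : ∏ a : κ, (1 - θ) * (2 * r a) ≤ ∏ a, 2 * (r a - σ * θ) :=
      Finset.prod_le_prod (fun a _ => mul_nonneg (by linarith) (by have := r0 a; linarith))
        fun a _ => by
          have := mul_le_mul_of_nonneg_right (hr a) θ0.le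
          linarith
    rw [Finset.prod_mul_distrib (f := fun _ => 1 - θ), Finset.prod_const, Finset.card_univ,
      ← hN] at q1
    exact le_trans (mul_le_mul_of_nonneg_right pθ.2 P0) q1
  have p3 : 1 - ε / 10 ≤ (1 - 2 * τ) ^ N := (num_pow e0 e1 (by linarith) (by
    have := mul_le_mul_of_nonneg_right N2 τ0.le
    linarith) (by linarith)).2
  exact num_fin e0 e1 hd hV P0 (Nat.cast_nonneg _)
    ((tsum_nonneg fun z => gN_nn hΛ0 (u z) 0).trans (h1 0).2.2) p1 p2 p3 U L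

end

end Vale.Agent.P057T.Mt.H15
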