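import Vale.Agent.P057T.Mt.Defs
import Vale.Agent.P057T.Eq.Summ
import Vale.Agent.P057T.Chart

/-! Tools for the comparison of masses. -/

set_option linter.all false

open MvPolynomial Finset
open scoped Real

namespace Vale.Agent.P057T.Mt.Cm

open Vale.Agent.P057T.Eq Vale.Agent.P057T.Eq.Br Vale.Agent.P057T.Cp

noncomputable section

variable {ι Γ ι' Γ' : Type} [Fintype ι] [DecidableEq ι] [Fintype Γ] [DecidableEq Γ]
  [Fintype ι'] [DecidableEq ι'] [Fintype Γ'] [DecidableEq Γ']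

theorem coeff_kp (col : ι → Finset Γ) (D : Finset Γ) (F : MvPolynomial ι ℝ) (m : ι →₀ ℕ) :
    coeff m (kp col D F) = if ∀ c ∈ D, dg col c m ≠ 0 then coeff m F else 0 := by
  rw [kp, coeff_sum]
  simp only [coeff_monomial]
  rw [sum_ite_eq']
  by_cases h : ∀ c ∈ D, dg col c m ≠ 0
  · rw [if_pos h]
    by_cases h2 : m ∈ F.support
    · rw [if_pos (mem_filter.2 ⟨h2, h⟩)]
    · rw [if_neg fun h3 => h2 (mem_filter.1 h3).1, notMem_support_iff.1 h2]
  · rw [if_neg h, if_neg fun h3 => h (mem_filter.1 h3).2]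

theorem kp_empty (col : ι → Finset Γ) (F : MvPolynomial ι ℝ) : kp col ∅ F = F := by
  ext m; simp [coeff_kp]

theorem kp_kp (col : ι → Finset Γ) (D D' : Finset Γ) (F : MvPolynomial ι ℝ) :
    kp col D (kp col D' F) = kp col (D ∪ D') F := by
  ext m
  simp only [coeff_kp, mem_union, or_imp, forall_and]
  by_cases h : ∀ c ∈ D, dg col c m ≠ 0
  · by_cases h' : ∀ c ∈ D', dg col c m ≠ 0
    · rw [if_pos h, if_pos h', if_pos ⟨h, h'⟩]
    · rw [if_pos h, if_neg h', if_neg fun x => h' x.2]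
  · rw [if_neg h, if_neg fun x => h x.1]

theorem kp_sum {α : Type} (col : ι → Finset Γ) (D : Finset Γ) (s : Finset α)
    (F : α → MvPolynomial ι ℝ) : kp col D (∑ i ∈ s, F i) = ∑ i ∈ s, kp col D (F i) := by
  ext m
  simp only [coeff_kp, coeff_sum]
  split_ifs <;> simp

theorem kp_hom (col : ι → Finset Γ) (c : Γ) {F : MvPolynomial ι ℝ} {n : ℕ}
    (h : IsWeightedHomogeneous (fun a => if c ∈ col a then 1 else 0) F n) :
    kp col {c} F = if n ≠ 0 then F else 0 := by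
  ext m
  rw [coeff_kp]
  by_cases hm : coeff m F = 0
  · split_ifs <;> simp [hm]
  · have : dg col c m = n := h hm
    simp only [mem_singleton, forall_eq, this]
    split_ifs <;> simp

theorem fz_kp (M : MT ι Γ) (c : Γ) (y : ι → ℤ) {F : MvPolynomial ι ℝ} (hF : F.vars ⊆ M.U) :
    fz (M.mv {c}) y (kp M.col {c} F) = kp (fun a => M.col a ∩ {c}) {c} (fz (M.mv {c}) y F) := by
  have key : ∀ m ∈ F.support, fz (M.mv {c}) y (kp M.col {c} (monomial m (coeff m F))) =
      kp (fun a => M.col a ∩ {c}) {c} (fz (M.mv {c}) y (monomial m (coeff m F))) := by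
    intro m hm
    have h1 : IsWeightedHomogeneous (fun a => if c ∈ M.col a then 1 else 0)
        (monomial m (coeff m F) : MvPolynomial ι ℝ) (dg M.col c m) :=
      isWeightedHomogeneous_monomial _ _ _ rfl
    have h2 : IsWeightedHomogeneous (fun a => if a ∈ M.mv {c} then 1 else 0)
        (monomial m (coeff m F) : MvPolynomial ι ℝ) (dg M.col c m) := by
      refine isWeightedHomogeneous_monomial _ _ _ ?_
      rw [dg, Finsupp.weight_apply, Finsupp.weight_apply]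
      refine Finsupp.sum_congr fun b hb => ?_
      have hbU : b ∈ M.U := hF ((mem_vars_iff_mem_support b).2 ⟨m, hm, hb⟩)
      simp [MT.mv, hbU, Finset.Nonempty]
    have h3 : IsWeightedHomogeneous (fun a => if c ∈ M.col a ∩ {c} then 1 else 0)
        (fz (M.mv {c}) y (monomial m (coeff m F))) (dg M.col c m) := by
      refine Chart.hom_aeval h2 fun b => ?_
      by_cases hb : b ∈ M.mv {c}
      · simp only [if_pos hb]
        have : c ∈ M.col b ∩ {c} := by
          obtain ⟨x, hx⟩ := (mem_filter.1 hb).2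
          have := mem_singleton.1 (mem_inter.1 hx).2
          rwa [this] at hx
        have h4 := isWeightedHomogeneous_X ℝ (fun a => if c ∈ M.col a ∩ {c} then 1 else 0) b
        simpa only [if_pos this] using h4
      · simp only [if_neg hb]
        exact isWeightedHomogeneous_C _ _
    rw [kp_hom _ _ h1, kp_hom _ _ h3]
    split_ifs
    · rfl
    · simp [fz]
  conv_lhs => rw [F.as_sum]
  conv_rhs => rw [F.as_sum]
  rw [kp_sum]
  simp only [fz, map_sum] at key ⊢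
  rw [kp_sum]
  exact sum_congr rfl key

theorem En_congr {E : Type} [NormedAddCommGroup E] [NormedSpace ℝ E] {M N : MT ι Γ}
    (hU : M.U = N.U) (hA : M.A = N.A) (hB : M.B = N.B) (hp : ∀ a ∈ M.U, M.p a = N.p a)
    (hs : ∀ a ∈ M.U, M.sg a = N.sg a) (h : (ι → ℤ) → E) : M.En h = N.En h := by
  obtain ⟨w, col, A, B, p, U, sg⟩ := M
  obtain ⟨w', col', A', B', p', U', sg'⟩ := N
  simp only at hU hA hB hp hs
  subst hU hA hB
  have e1 : MT.mn ⟨w, col, A, B, p, U, sg⟩ = MT.mn ⟨w', col', A, B, p', U, sg'⟩ := by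
    simp only [MT.mn, Mn, GT.mn, GT.dv, MT.G, MT.T]
    congr 1
    exact prod_congr rfl fun a ha => by rw [hs a ha]
  rw [MT.En, MT.En, e1]
  congr 1
  refine tsum_congr fun z : Lat U => ?_
  congr 1
  simp only [GT.nu, MT.G, MT.T, GT.ch, GT.th]
  congr 2
  exact sum_congr rfl fun a ha => by rw [hs a ha, hp a ha]

theorem sm (hT : TOK) {M : MT ι Γ} (hM : M.Ok) : Summable fun z : Lat M.U => M.G.nu M.T z.1 := by
  obtain ⟨⟨s, P, h0, h1, h2⟩, -⟩ := hT ι Γ M hM
  exact summ s ι M.G M.T P h1 h0 h2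

theorem smb (hT : TOK) {M : MT ι Γ} (hM : M.Ok) {h : (ι → ℤ) → ℝ} {B : ℝ} (hB : ∀ z, |h z| ≤ B) :
    Summable fun z : Lat M.U => M.G.nu M.T z.1 • h z.1 := by
  refine Summable.of_norm_bounded ((sm hT hM).mul_right B) fun z => ?_
  rw [norm_smul, Real.norm_of_nonneg (nu_pos _ _).le]
  exact mul_le_mul_of_nonneg_left (hB _) (nu_pos _ _).le

theorem En_mono (hT : TOK) {M : MT ι Γ} (hM : M.Ok) {h k : (ι → ℤ) → ℝ} {B B' : ℝ}
    (hB : ∀ z, |h z| ≤ B) (hB' : ∀ z, |k z| ≤ B') (hk : ∀ z, h z ≤ k z) : M.En h ≤ M.En k := by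
  have m0 : 0 < M.mn := (hT ι Γ M hM).2.2.2.1
  refine mul_le_mul_of_nonneg_left ?_ (inv_nonneg.2 m0.le)
  exact Summable.tsum_le_tsum (fun z => mul_le_mul_of_nonneg_left (hk _) (nu_pos _ _).le)
    (smb hT hM hB) (smb hT hM hB')

theorem En_sub (hT : TOK) {M : MT ι Γ} (hM : M.Ok) {h : (ι → ℤ) → ℝ} {B : ℝ}
    (hB : ∀ z, |h z| ≤ B) (a : ℝ) : M.En (fun z => a - h z) = a * M.nm - M.En h := by
  have h1 : Summable fun z : Lat M.U => a * (M.G.nu M.T z.1 • (1 : ℝ)) :=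
    (smb hT hM (h := fun _ => 1) (B := 1) fun _ => by simp).mul_left a
  have e : Ex M.G M.T (fun z => a - h z) = a * Ex M.G M.T (fun _ => (1 : ℝ)) - Ex M.G M.T h := by
    have := h1.tsum_sub (smb hT hM hB)
    rw [tsum_mul_left] at this
    refine Eq.trans (tsum_congr fun z : Lat M.U => ?_) this
    simp only [smul_eq_mul]
    ring
  simp only [MT.nm, MT.En, e, smul_eq_mul]
  ring

theorem nm_nonneg (hT : TOK) {M : MT ι Γ} (hM : M.Ok) : 0 ≤ M.nm := by
  have m0 : 0 < M.mn := (hT ι Γ M hM).2.2.2.1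
  exact mul_nonneg (inv_nonneg.2 m0.le)
    (tsum_nonneg fun z => mul_nonneg (nu_pos _ _).le zero_le_one)

theorem nm_empty {M : MT ι Γ} (h : M.U = ∅) : M.nm = 1 := by
  have n1 : ∀ z, M.G.nu M.T z = 1 := fun z => by
    show Real.exp (-π * ∑ a ∈ M.U, (M.sg a * eval (cz z) (M.ch a)) ^ 2) = 1
    rw [h]; simp
  have e : Ex M.G M.T (fun _ => (1 : ℝ)) = 1 := by
    show ∑' z : Lat M.U, M.G.nu M.T z.1 • (1 : ℝ) = 1
    rw [tsum_eq_single (0 : Lat M.U) fun z hz => absurd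
      (Subtype.ext (funext fun a => z.2 a (by rw [h]; exact notMem_empty a))) hz, n1]
    simp
  have e1 : M.mn = 1 := by
    show |(M.B.submatrix (Subtype.val : M.U → ι) Subtype.val).det| * ∏ a ∈ M.U, (M.sg a)⁻¹ = 1
    haveI : IsEmpty M.U := ⟨fun x => (eq_empty_iff_forall_notMem.1 h) x.1 x.2⟩
    rw [Matrix.det_isEmpty, h]
    simp
  rw [MT.nm, MT.En, e, e1]
  simp

/-- reindexing -/
theorem nm_re (hT : TOK) {M' : MT ι' Γ'} {M : MT ι Γ} (h' : M'.Ok) (h : M.Ok) (j : ι' → ι)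
    (ij : Set.InjOn j M'.U) (hU : M.U = M'.U.image j)
    (hA : ∀ a ∈ M'.U, ∀ b ∈ M'.U, M'.A a b = M.A (j a) (j b) ∧ M'.B a b = M.B (j a) (j b))
    (hp : ∀ a ∈ M'.U, rename j (M'.p a) = M.p (j a)) (hs : ∀ a ∈ M'.U, M'.sg a = M.sg (j a)) :
    M'.nm = M.nm := by
  have hj : ∀ a ∈ M'.U, j a ∈ M.U := fun a ha => hU ▸ mem_image_of_mem j ha
  let e : M'.U ≃ M.U := Equiv.ofBijective (fun a => ⟨j a, hj a a.2⟩)
    ⟨fun a b hab => Subtype.ext (ij a.2 b.2 (congrArg Subtype.val hab)), fun x => by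
      have hx2 : x.1 ∈ M'.U.image j := by rw [← hU]; exact x.2
      obtain ⟨a, ha, hx⟩ := mem_image.1 hx2
      exact ⟨⟨a, ha⟩, Subtype.ext hx⟩⟩
  have e1 : M'.mn = M.mn := by
    show |(M'.B.submatrix (Subtype.val : M'.U → ι') Subtype.val).det| * ∏ a ∈ M'.U, (M'.sg a)⁻¹ =
      |(M.B.submatrix (Subtype.val : M.U → ι) Subtype.val).det| * ∏ a ∈ M.U, (M.sg a)⁻¹
    rw [← Matrix.det_submatrix_equiv_self e (M.B.submatrix Subtype.val Subtype.val)]
    congr 1
    · congr 2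
      ext a b
      exact (hA a a.2 b b.2).2
    · rw [hU, prod_image ij]
      exact prod_congr rfl fun a ha => by rw [hs a ha]
  show M'.mn⁻¹ • Ex M'.G M'.T (fun _ => (1 : ℝ)) = M.mn⁻¹ • Ex M.G M.T (fun _ => (1 : ℝ))
  rw [e1]
  congr 1
  have si : ∀ f : ι → ℝ, ∑ a ∈ M.U, f a = ∑ a ∈ M'.U, f (j a) := fun f => by
    rw [hU, sum_image ij]
  have c' := (hT ι' Γ' M' h').2.2.2.2.1
  have c0 := (hT ι Γ M h).2.2.2.2.1
  let E : Lat M.U ≃ Lat M'.U :=
    (latE M.U).symm.trans ((Equiv.arrowCongr e.symm (Equiv.refl ℤ)).trans (latE M'.U))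
  have hE : ∀ (z : Lat M.U), ∀ a ∈ M'.U, (E z).1 a = z.1 (j a) := fun z a ha =>
    ex0_coe M'.U _ ⟨a, ha⟩
  refine ((E.tsum_eq fun z : Lat M'.U => M'.G.nu M'.T z.1 • (1 : ℝ)).symm).trans
    (tsum_congr fun z : Lat M.U => ?_)
  congr 1
  show Real.exp (-π * ∑ a ∈ M'.U, (M'.sg a * eval (cz (E z).1) (M'.ch a)) ^ 2) =
    Real.exp (-π * ∑ a ∈ M.U, (M.sg a * eval (cz z.1) (M.ch a)) ^ 2)
  congr 2
  rw [si]
  refine sum_congr rfl fun a ha => ?_
  rw [hs a ha, c' a, c0 (j a), ← hp a ha]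
  simp only [map_add, map_sum, map_mul, eval_C, eval_X, eval_rename]
  congr 3
  · rw [← sum_subset (subset_univ M'.U) fun b _ hb => by
        rw [show M'.A a b = 0 from A_zero (G := M'.G) h'.bk ha hb, zero_mul],
      ← sum_subset (subset_univ M.U) fun b _ hb => by
        rw [show M.A (j a) b = 0 from A_zero (G := M.G) h.bk (hj a ha) hb, zero_mul]]
    rw [si]
    exact sum_congr rfl fun b hb => by rw [(hA a ha b hb).1]; simp only [cz, hE z b hb]
  · exact eval_congr_vars fun b hb => by simp only [cz, Function.comp, hE z b (h'.pv a ha hb)]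

end

end Vale.Agent.P057T.Mt.Cm
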