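import Vale.Agent.P057T.Mt.One

/-! Comparison of a tower with its centred tower. -/

open MvPolynomial Finset
open scoped Real

namespace Vale.Agent.P057T.Mt.CmpA

open Vale.Agent.P057T.Eq Vale.Agent.P057T.Cp OneP

set_option linter.unusedSectionVars false

noncomputable section

variable {ι Γ Γ' : Type} [Fintype ι] [DecidableEq ι] [Fintype Γ] [DecidableEq Γ] [Fintype Γ']
  [DecidableEq Γ']

theorem kp_empty (col : ι → Finset Γ) (F : MvPolynomial ι ℝ) : kp col ∅ F = F := by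
  ext m
  simp [coeff_kp]

theorem kp_kp (col : ι → Finset Γ) (D D' : Finset Γ) (F : MvPolynomial ι ℝ) :
    kp col D (kp col D' F) = kp col (D ∪ D') F := by
  ext m
  simp only [coeff_kp, mem_union, or_imp, forall_and]
  by_cases h : ∀ c ∈ D, dg col c m ≠ 0 <;> by_cases h' : ∀ c ∈ D', dg col c m ≠ 0
  · rw [if_pos h, if_pos h', if_pos ⟨h, h'⟩]
  · rw [if_pos h, if_neg h', if_neg fun k => h' k.2]
  · rw [if_neg h, if_neg fun k => h k.1]
  · rw [if_neg h, if_neg fun k => h k.1]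

/-- kill the variables of colour `c` -/
def kl (col : ι → Finset Γ) (c : Γ) (b : ι) : MvPolynomial ι ℝ := if c ∈ col b then 0 else X b

theorem kl_mon (col : ι → Finset Γ) (c : Γ) (m : ι →₀ ℕ) (x : ℝ) :
    aeval (kl col c) (monomial m x) = if dg col c m ≠ 0 then 0 else monomial m x := by
  rw [aeval_monomial]
  by_cases h : ∃ b ∈ m.support, c ∈ col b
  · obtain ⟨b, hb, hc⟩ := h
    have h1 := Finsupp.le_weight (fun a => if c ∈ col a then 1 else 0) (s := b) (by simp [hc]) m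
    have h2 := Finsupp.mem_support_iff.1 hb
    rw [if_pos (by unfold dg; omega), Finsupp.prod, prod_eq_zero hb (by simp [kl, hc, h2]), mul_zero]
  · push Not at h
    have h1 : dg col c m = 0 := by
      rw [dg, Finsupp.weight_apply]
      exact sum_eq_zero fun b hb => by simp [h b hb]
    rw [if_neg (by simp [h1]), monomial_eq]
    congr 1
    exact Finsupp.prod_congr fun b hb => by rw [kl, if_neg (h b hb)]

theorem kp_one (col : ι → Finset Γ) (c : Γ) (F : MvPolynomial ι ℝ) :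
    kp col {c} F = F - aeval (kl col c) F := by
  conv_rhs => rw [F.as_sum, map_sum, ← sum_sub_distrib]
  rw [kp, sum_filter]
  refine sum_congr rfl fun m _ => ?_
  rw [kl_mon]
  by_cases h : dg col c m ≠ 0
  · rw [if_pos h, if_pos (by simpa using h), sub_zero]
  · rw [if_neg h, if_neg (by simpa using h), sub_self]

theorem aeval_congr {f g : ι → MvPolynomial ι ℝ} {F : MvPolynomial ι ℝ}
    (h : ∀ b ∈ F.vars, f b = g b) : aeval f F = aeval g F :=
  hom_congr_vars (f₁ := (aeval f : _ →ₐ[ℝ] _).toRingHom) (f₂ := (aeval g : _ →ₐ[ℝ] _).toRingHom)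
    (by ext; simp) (fun b hb _ => by simpa using h b hb) rfl

theorem fz_kp (col : ι → Finset Γ) (c : Γ) (V : Finset ι) (y : ι → ℤ) {F : MvPolynomial ι ℝ}
    (h : ∀ b ∈ F.vars, b ∈ V ↔ c ∈ col b) :
    fz V y (kp col {c} F) = kp (fun a => col a ∩ {c}) {c} (fz V y F) := by
  have e : fz V y (aeval (kl col c) F) = aeval (kl (fun a => col a ∩ {c}) c) (fz V y F) := by
    rw [fz, fz, comp_aeval_apply, comp_aeval_apply]
    refine aeval_congr fun b hb => ?_
    by_cases hc : c ∈ col b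
    · simp [kl, hc, (h b hb).2 hc]
    · simp [kl, hc, mt (h b hb).1 hc]
  rw [kp_one, kp_one, ← e]
  exact map_sub _ _ _

/-- weighted sums only see the active charts -/
theorem en_congr {M : MT ι Γ} {M' : MT ι Γ'} (hA : M'.A = M.A) (hB : M'.B = M.B) (hU : M'.U = M.U)
    (hs : ∀ a ∈ M.U, M'.sg a = M.sg a) (hp : ∀ a ∈ M.U, M'.p a = M.p a) {E : Type}
    [NormedAddCommGroup E] [NormedSpace ℝ E] (h : (ι → ℤ) → E) : M'.En h = M.En h := by
  obtain ⟨w, col, A, B, p, U, sg⟩ := M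
  obtain ⟨w', col', A', B', p', U', sg'⟩ := M'
  simp only at hA hB hU hs hp
  subst hA hB hU
  unfold MT.En MT.mn Mn Ex GT.mn
  congr 1
  · congr 2
    exact prod_congr rfl fun a ha => congrArg (fun x : ℝ => x⁻¹) (hs a ha)
  · refine tsum_congr fun z => ?_
    congr 1
    refine congrArg (fun t => Real.exp (-π * t)) (sum_congr rfl fun a ha => ?_)
    simp only [MT.T, GT.ch, hs a ha, hp a ha]
    rfl

variable {M : MT ι Γ}

theorem summ (hT : TOK) (hM : M.Ok) {h : (ι → ℤ) → ℝ} {B : ℝ} (hb : ∀ z, |h z| ≤ B) :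
    Summable fun z : Lat M.T.U => M.G.nu M.T z.1 • h z.1 := by
  obtain ⟨⟨s, P, hP, hG, hA⟩, -⟩ := hT ι Γ M hM
  refine Summable.of_norm_bounded ((Br.summ_le hG hP hA).1.mul_right B) fun z => ?_
  rw [norm_smul, Real.norm_eq_abs, Real.norm_eq_abs, abs_of_pos (Br.nu_pos _ _)]
  exact mul_le_mul_of_nonneg_left (hb _) (Br.nu_pos _ _).le

theorem en_mono (hT : TOK) (hM : M.Ok) {h h' : (ι → ℤ) → ℝ} {B B' : ℝ} (hb : ∀ z, |h z| ≤ B)
    (hb' : ∀ z, |h' z| ≤ B') (hle : ∀ z, h z ≤ h' z) : M.En h ≤ M.En h' :=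
  mul_le_mul_of_nonneg_left ((summ hT hM hb).tsum_le_tsum
    (fun _ => mul_le_mul_of_nonneg_left (hle _) (Br.nu_pos _ _).le) (summ hT hM hb'))
    (inv_nonneg.2 (hT ι Γ M hM).2.2.2.1.le)

theorem en_add (hT : TOK) (hM : M.Ok) {h h' : (ι → ℤ) → ℝ} {B B' : ℝ} (hb : ∀ z, |h z| ≤ B)
    (hb' : ∀ z, |h' z| ≤ B') : M.En (fun z => h z + h' z) = M.En h + M.En h' := by
  simp only [MT.En, Ex, smul_add]
  rw [(summ hT hM hb).tsum_add (summ hT hM hb'), smul_add]

theorem en_const (M : MT ι Γ) (x : ℝ) : M.En (fun _ => x) = x * M.nm := by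
  simp only [MT.nm, MT.En, Ex, smul_eq_mul, mul_one, tsum_mul_right]
  ring

theorem nm_nonneg (hT : TOK) (hM : M.Ok) : 0 ≤ M.nm :=
  mul_nonneg (inv_nonneg.2 (hT ι Γ M hM).2.2.2.1.le)
    (tsum_nonneg fun _ => mul_nonneg (Br.nu_pos _ _).le zero_le_one)

theorem nm_fub (hF : FUM) (hM : M.Ok) (F : Finset Γ) :
    M.nm = (M.bs F).En fun y => (M.fib F y).nm :=
  (hF ι Γ M F hM).2 ℝ (fun _ => 1) 1 fun _ => by simp

theorem fib_bd (hT : TOK) (hO : OPS) (hF : FUM) (hM : M.Ok) (F : Finset Γ) :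
    ∃ B : ℝ, ∀ y, |(M.fib F y).nm| ≤ B := by
  obtain ⟨B, hB⟩ := (hF ι Γ M F hM).1
  exact ⟨B, fun y => (abs_of_nonneg (nm_nonneg hT ((hO ι Γ M hM).2.2.2.2.2.1 F y).1)).trans_le (hB y)⟩

theorem mem_mv {c : Γ} {a : ι} : a ∈ M.mv {c} ↔ a ∈ M.U ∧ c ∈ M.col a := by
  simp [MT.mv, Finset.Nonempty]

theorem fib_col (c : Γ) (y : ι → ℤ) : ∀ a ∈ (M.fib {c} y).U, (M.fib {c} y).col a = {c} :=
  fun _ ha => inter_eq_right.2 (singleton_subset_iff.2 (mem_mv.1 ha).2)

theorem fib_dir (hM : M.Ok) (c : Γ) (y : ι → ℤ) :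
    ((M.dir {c}).fib {c} y).nm = ((M.fib {c} y).dir {c}).nm := by
  refine en_congr (M := (M.fib {c} y).dir {c}) (M' := (M.dir {c}).fib {c} y) rfl rfl rfl
    (fun _ _ => rfl) (fun a ha => ?_) fun _ => (1 : ℝ)
  obtain ⟨h1, h2⟩ := mem_mv.1 (show a ∈ M.mv {c} from ha)
  change fz (M.mv {c}) y (kp M.col ({c} ∩ M.col a) (M.p a)) =
    kp (fun a => M.col a ∩ {c}) ({c} ∩ (M.col a ∩ {c})) (fz (M.mv {c}) y (M.p a))
  rw [singleton_inter_of_mem h2, singleton_inter_of_mem (mem_inter.2 ⟨h2, mem_singleton_self c⟩)]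
  exact fz_kp _ _ _ _ fun b hb => mem_mv.trans (and_iff_right (hM.pv a h1 hb))

theorem bs_dir (c : Γ) (h : (ι → ℤ) → ℝ) : ((M.dir {c}).bs {c}).En h = (M.bs {c}).En h := by
  refine en_congr (M := M.bs {c}) (M' := (M.dir {c}).bs {c}) rfl rfl rfl (fun _ _ => rfl)
    (fun a ha => ?_) h
  obtain ⟨h1, h2⟩ := mem_sdiff.1 (show a ∈ M.U \ M.mv {c} from ha)
  change kp M.col ({c} ∩ M.col a) (M.p a) = M.p a
  rw [singleton_inter_of_notMem fun k => h2 (mem_mv.2 ⟨h1, k⟩), kp_empty]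

theorem dir_fub (hO : OPS) (hF : FUM) (hM : M.Ok) (c : Γ) :
    (M.dir {c}).nm = (M.bs {c}).En fun y => ((M.fib {c} y).dir {c}).nm := by
  rw [nm_fub hF ((hO ι Γ M hM).1 {c}).1 {c}, bs_dir]
  simp only [fib_dir hM]

theorem dir_dir (M : MT ι Γ) (D D' : Finset Γ) : ((M.dir D').dir D).nm = (M.dir (D ∪ D')).nm := by
  refine en_congr (M := M.dir (D ∪ D')) (M' := (M.dir D').dir D) rfl rfl rfl (fun _ _ => rfl)
    (fun a _ => ?_) fun _ => (1 : ℝ)
  change kp M.col (D ∩ M.col a) (kp M.col (D' ∩ M.col a) (M.p a)) =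
    kp M.col ((D ∪ D') ∩ M.col a) (M.p a)
  rw [kp_kp, union_inter_distrib_right]

theorem dir_empty (M : MT ι Γ) : (M.dir ∅).nm = M.nm := by
  refine en_congr (M := M) (M' := M.dir ∅) rfl rfl rfl (fun _ _ => rfl) (fun a _ => ?_)
    fun _ => (1 : ℝ)
  change kp M.col (∅ ∩ M.col a) (M.p a) = M.p a
  rw [empty_inter, kp_empty]

theorem nm_empty (h : M.U = ∅) : M.nm = 1 := by
  have key : ∀ (G : GT ι) (T : AT ι), T.U = ∅ → (Mn G T)⁻¹ • Ex G T (fun _ => (1 : ℝ)) = 1 := by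
    rintro G ⟨U, p, sg⟩ rfl
    have hu : ∀ z : Lat (∅ : Finset ι), z = 0 := fun z =>
      Subtype.ext (funext fun a => z.2 a (notMem_empty a))
    rw [Ex, tsum_eq_single (0 : Lat (∅ : Finset ι)) fun z hz => absurd (hu z) hz]
    simp [GT.nu, Mn, GT.mn, GT.dv]
  exact key M.G M.T h

section

variable (hT : TOK) (hO : OPS) (hF : FUM) (h1 : ONE)
include hT hO hF h1

/-- one colour: upper and lower bounds -/
theorem step (hM : M.Ok) (c : Γ) : M.nm ≤ (M.dir {c}).nm ∧ (M.bs {c}).nm ≤ (M.dir {c}).nm ∧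
    2 * (M.bs {c}).nm ≤ M.nm + (M.dir {c}).nm := by
  have hb := (hO ι Γ M hM).2.2.2.2.1 {c}
  obtain ⟨B, hB⟩ := fib_bd hT hO hF hM {c}
  obtain ⟨B', hB'⟩ := fib_bd hT hO hF ((hO ι Γ M hM).1 {c}).1 {c}
  simp only [fib_dir hM] at hB'
  have ho := fun y => h1 ι Γ (M.fib {c} y) c ((hO ι Γ M hM).2.2.2.2.2.1 {c} y).1 (fib_col c y)
  rw [dir_fub hO hF hM, nm_fub hF hM {c}]
  refine ⟨en_mono hT hb hB hB' fun y => ?_, en_mono hT hb (B := 1) (fun _ => by simp) hB' fun y => ?_,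
    ?_⟩
  · linarith [(abs_le.1 (ho y).2.1).2]
  · exact (ho y).1
  · rw [← en_add hT hb hB hB', ← en_const]
    refine en_mono hT hb (B := 2) (B' := B + B') (fun _ => by simp)
      (fun y => (abs_add_le _ _).trans (add_le_add (hB y) (hB' y))) fun y => ?_
    linarith [(abs_le.1 (ho y).2.1).1]

theorem le_dir (hM : M.Ok) (D : Finset Γ) : M.nm ≤ (M.dir D).nm := by
  induction D using Finset.induction_on with
  | empty => exact (dir_empty M).ge
  | insert c D _ ih =>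
    refine ih.trans ((step hT hO hF h1 ((hO ι Γ M hM).1 D).1 c).1.trans_eq ?_)
    rw [dir_dir, insert_eq]

/-- the base of a centred tower is lighter -/
theorem bs_le (hM : M.Ok) (c : Γ) : ((M.bs {c}).dir univ).nm ≤ (M.dir univ).nm := by
  have h := (step hT hO hF h1 ((hO ι Γ M hM).1 univ).1 c).2.1
  rw [dir_dir, eq_univ_of_forall (s := {c} ∪ univ) (by simp)] at h
  exact h

theorem low (S : Finset Γ) : ∀ M : MT ι Γ, M.Ok → (∀ a ∈ M.U, M.col a ⊆ S) →
    1 ≤ (M.dir univ).nm ∧ ∀ d : ℝ, (M.dir univ).nm ≤ 1 + d → 1 - (2 ^ S.card - 1) * d ≤ M.nm := by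
  induction S using Finset.induction_on with
  | empty =>
    intro M hM h
    have hU : M.U = ∅ := eq_empty_of_forall_notMem fun a ha =>
      (hM.ne a ha).ne_empty (subset_empty.1 (h a ha))
    exact ⟨(nm_empty (M := M.dir univ) hU).ge, fun d _ => by simp [nm_empty hU]⟩
  | insert c S hc ih =>
    intro M hM h
    obtain ⟨a1, a2⟩ := ih (M.bs {c}) ((hO ι Γ M hM).2.2.2.2.1 {c}) fun a ha b hb => by
      obtain ⟨k1, k2⟩ := mem_sdiff.1 (show a ∈ M.U \ M.mv {c} from ha)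
      refine (mem_insert.1 (h a k1 hb)).resolve_left fun k => k2 (mem_mv.2 ⟨k1, ?_⟩)
      exact k ▸ hb
    have a3 := bs_le hT hO hF h1 hM c
    refine ⟨a1.trans a3, fun d hd => ?_⟩
    have a4 := a2 d (a3.trans hd)
    have a5 := (step hT hO hF h1 hM c).2.2
    have a6 := le_dir hT hO hF h1 ((hO ι Γ M hM).1 {c}).1 univ
    rw [dir_dir, eq_univ_of_forall (s := univ ∪ {c}) (by simp)] at a6
    rw [card_insert_of_notMem hc, pow_succ]
    linarith

theorem one_le (hM : M.Ok) : 1 ≤ (M.dir univ).nm :=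
  (low hT hO hF h1 univ M hM fun _ _ => subset_univ _).1

/-- the three bounds from the centred mass -/
theorem cen (hM : M.Ok) {d : ℝ} (hd : (M.dir univ).nm ≤ 1 + d) :
    0 ≤ d ∧ M.nm ≤ 1 + d ∧ 1 - 2 ^ Fintype.card Γ * d ≤ M.nm := by
  obtain ⟨a1, a2⟩ := low hT hO hF h1 univ M hM fun _ _ => subset_univ _
  have a3 := a2 d hd
  rw [card_univ] at a3
  exact ⟨by linarith, (le_dir hT hO hF h1 hM univ).trans hd, by linarith⟩

end

end

end Vale.Agent.P057T.Mt.CmpA
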