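import Vale.Agent.P057T.Mt.Seq
import Vale.Agent.P057T.Mt.Ops

/-! Decomposition of a form along one colour. -/

set_option linter.all false

open MvPolynomial Finset

namespace Vale.Agent.P057T.Mt

open Vale.Agent.P057T.Eq Vale.Agent.P057T.Cp

namespace DecP

variable {ι Γ : Type} [Fintype ι] [DecidableEq ι] [Fintype Γ] [DecidableEq Γ]

theorem cg {f g : ι → MvPolynomial ι ℝ} {F : MvPolynomial ι ℝ} (h : ∀ i ∈ F.vars, f i = g i) :
    aeval f F = aeval g F :=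
  hom_congr_vars (f₁ := (aeval f : MvPolynomial ι ℝ →ₐ[ℝ] MvPolynomial ι ℝ).toRingHom)
    (f₂ := (aeval g : MvPolynomial ι ℝ →ₐ[ℝ] MvPolynomial ι ℝ).toRingHom) (by ext r; simp)
    (fun i hi _ => by simpa using h i hi) rfl

theorem fz_self {V : Finset ι} (y : ι → ℤ) {F : MvPolynomial ι ℝ} (h : F.vars ⊆ V) :
    fz V y F = F := by
  unfold fz
  rw [cg (g := X) fun i hi => if_pos (h hi), aeval_X_left_apply]

theorem dg_zero {col : ι → Finset Γ} {c : Γ} {m : ι →₀ ℕ} :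
    dg col c m = 0 ↔ ∀ a ∈ m.support, c ∉ col a := by
  unfold dg
  rw [Finsupp.weight_apply, Finsupp.sum, sum_eq_zero_iff]
  refine forall₂_congr fun a ha => ?_
  have := Finsupp.mem_support_iff.1 ha
  by_cases h : c ∈ col a <;> simp [h, this]

theorem dg_add (col : ι → Finset Γ) (c : Γ) (m m' : ι →₀ ℕ) :
    dg col c (m + m') = dg col c m + dg col c m' := map_add _ _ _

theorem dg_fib (col : ι → Finset Γ) {A : Finset Γ} {c : Γ} (hc : c ∈ A) (m : ι →₀ ℕ) :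
    dg (fun a => col a ∩ A) c m = dg col c m := by
  unfold dg
  simp only [mem_inter, hc, and_true]

theorem sum_le_dg {col : ι → Finset Γ} {c : Γ} {B : Finset ι} (h : ∀ v ∈ B, c ∈ col v)
    (m : ι →₀ ℕ) : ∑ v ∈ B, m v ≤ dg col c m := by
  unfold dg
  rw [Finsupp.weight_apply, Finsupp.sum_fintype _ _ (fun _ => by simp)]
  refine le_trans (le_of_eq (sum_congr rfl fun v hv => ?_)) (sum_le_sum_of_subset (subset_univ B))
  rw [if_pos (h v hv), smul_eq_mul, mul_one]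

variable {M : MT ι Γ} {c e : Γ}

theorem ko_mon (m : ι →₀ ℕ) (x : ℝ) :
    M.ko e (monomial m x) = if dg M.col e m = 0 then monomial m x else 0 := by
  unfold MT.ko fz
  rw [aeval_monomial]
  split_ifs with h
  · rw [monomial_eq, algebraMap_eq]
    refine congrArg _ (Finsupp.prod_congr fun a ha => ?_)
    rw [if_pos (mem_filter.2 ⟨mem_univ a, dg_zero.1 h a ha⟩)]
  · obtain ⟨a, ha, h1⟩ : ∃ a ∈ m.support, e ∈ M.col a := by
      by_contra h2
      exact h (dg_zero.2 fun a ha h3 => h2 ⟨a, ha, h3⟩)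
    rw [Finsupp.prod, prod_eq_zero ha, mul_zero]
    rw [if_neg (by simpa using h1)]
    simp [Finsupp.mem_support_iff.1 ha]

theorem ko_add (F G : MvPolynomial ι ℝ) : M.ko e (F + G) = M.ko e F + M.ko e G := map_add _ _ _

theorem ko_coeff (F : MvPolynomial ι ℝ) (m : ι →₀ ℕ) :
    coeff m (M.ko e F) = if dg M.col e m = 0 then coeff m F else 0 := by
  induction F using MvPolynomial.induction_on' with
  | monomial u x =>
    rw [ko_mon]
    by_cases h : u = m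
    · subst h
      split_ifs <;> simp
    · split_ifs <;> simp [coeff_monomial, h]
  | add p q hp hq =>
    rw [ko_add, coeff_add, hp, hq, coeff_add]
    split_ifs <;> simp

/-- some of the monomials -/
def Sb (G F : MvPolynomial ι ℝ) : Prop := ∀ m, coeff m G = 0 ∨ coeff m G = coeff m F

theorem Sb.supp {G F : MvPolynomial ι ℝ} (h : Sb G F) : G.support ⊆ F.support := fun m hm => by
  rw [mem_support_iff] at hm ⊢
  exact (h m).elim (fun h0 => absurd h0 hm) fun h1 => h1 ▸ hm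

theorem Sb.l1 {G F : MvPolynomial ι ℝ} (h : Sb G F) : l1 G ≤ l1 F :=
  le_trans (le_of_eq (sum_congr rfl fun m hm => by
    rw [(h m).resolve_left (mem_support_iff.1 hm)]))
    (sum_le_sum_of_subset_of_nonneg h.supp fun _ _ _ => abs_nonneg _)

theorem Sb.isZ {G F : MvPolynomial ι ℝ} (h : Sb G F) (hF : IsZ F) : IsZ G := fun m =>
  (h m).elim (fun h0 => ⟨0, by rw [h0, Int.cast_zero]⟩) fun h1 => h1 ▸ hF m

theorem sb_ko (F : MvPolynomial ι ℝ) : Sb (M.ko e F) F := fun m => by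
  rw [ko_coeff]
  split_ifs <;> simp

theorem sb_kp (F : MvPolynomial ι ℝ) : Sb (F - M.ko e F) F := fun m => by
  rw [coeff_sub, ko_coeff]
  split_ifs <;> simp

theorem tl_iff {F : MvPolynomial ι ℝ} : M.Tl c F ↔ ∀ m ∈ F.support,
    m.support ⊆ M.U ∧ (∀ c', dg M.col c' m ≤ 1) ∧ dg M.col c m = 1 :=
  ⟨fun h m hm => ⟨fun a ha => h.1 ((mem_vars a).2 ⟨m, hm, ha⟩),
      fun c' => by simpa using h.2.1 m hm c', h.2.2 m hm⟩,
    fun h => ⟨fun a ha => by
        obtain ⟨m, hm, ha'⟩ := (mem_vars a).1 ha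
        exact (h m hm).1 ha',
      fun m hm c' => by simpa using (h m hm).2.1 c', fun m hm => (h m hm).2.2⟩⟩

theorem Sb.tl {G F : MvPolynomial ι ℝ} (h : Sb G F) (hF : M.Tl c F) : M.Tl c G :=
  tl_iff.2 fun m hm => tl_iff.1 hF m (h.supp hm)

theorem tl_sub {F G : MvPolynomial ι ℝ} (hF : M.Tl c F) (hG : M.Tl c G) : M.Tl c (F - G) :=
  tl_iff.2 fun m hm => (mem_union.1 (support_sub ι F G hm)).elim (tl_iff.1 hF m) (tl_iff.1 hG m)

theorem mem_bs {a : ι} : a ∈ (M.bs {e}).U ↔ a ∈ M.U ∧ e ∉ M.col a := by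
  show a ∈ M.U \ M.mv {e} ↔ _
  simp only [MT.mv, mem_sdiff, mem_filter, not_and]
  refine and_congr_right fun h => ⟨fun h1 h2 => h1 h ⟨e, by simp [h2]⟩, fun h1 _ h2 => ?_⟩
  obtain ⟨x, hx⟩ := h2
  rw [mem_inter, mem_singleton] at hx
  exact h1 (hx.2 ▸ hx.1)

theorem tl_bs {F : MvPolynomial ι ℝ} : (M.bs {e}).Tl c F ↔
    M.Tl c F ∧ ∀ m ∈ F.support, dg M.col e m = 0 :=
  ⟨fun h => ⟨⟨fun a ha => (mem_bs.1 (h.1 ha)).1, h.2⟩, fun m hm => dg_zero.2 fun a ha =>
      (mem_bs.1 ((tl_iff.1 h m hm).1 ha)).2⟩,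
    fun h => ⟨fun a ha => mem_bs.2 ⟨h.1.1 ha, by
      obtain ⟨m, hm, ha'⟩ := (mem_vars a).1 ha
      exact dg_zero.1 (h.2 m hm) a ha'⟩, h.1.2⟩⟩

theorem tl_ko {F : MvPolynomial ι ℝ} (h : M.Tl c F) : (M.bs {e}).Tl c (M.ko e F) :=
  tl_bs.2 ⟨(sb_ko F).tl h, fun m hm => by
    by_contra h0
    rw [mem_support_iff, ko_coeff, if_neg h0] at hm
    exact hm rfl⟩

theorem ko_self {F : MvPolynomial ι ℝ} (h : (M.bs {e}).Tl c F) : M.ko e F = F :=
  fz_self _ fun a ha => mem_filter.2 ⟨mem_univ a, (mem_bs.1 (h.1 ha)).2⟩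

theorem tl_pd {F : MvPolynomial ι ℝ} (h : M.Tl c F) {v : ι} (hv : M.col v = {e}) (hc : c ≠ e) :
    (M.bs {e}).Tl c (pderiv v F) := by
  have key : ∀ m ∈ (pderiv v F).support, m + Finsupp.single v 1 ∈ F.support := fun m hm => by
    rw [mem_support_iff, coeff_pderiv] at hm
    exact mem_support_iff.2 (left_ne_zero_of_mul hm)
  refine tl_bs.2 ⟨tl_iff.2 fun m hm => ?_, fun m hm => ?_⟩
  · obtain ⟨h1, h2, h3⟩ := tl_iff.1 h _ (key m hm)
    refine ⟨fun a ha => h1 (Finsupp.support_mono le_self_add ha), fun c' => ?_, ?_⟩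
    · have := h2 c'
      rw [dg_add] at this
      omega
    · rw [dg_add, Op.dg_single, hv, if_neg (by simpa using hc)] at h3
      exact h3
  · have := (tl_iff.1 h _ (key m hm)).2.1 e
    rw [dg_add, Op.dg_single, hv, if_pos (mem_singleton_self e)] at this
    omega

theorem tl_X {G : MvPolynomial ι ℝ} (h : (M.bs {e}).Tl c G) {v : ι} (hU : v ∈ M.U)
    (hv : M.col v = {e}) (hc : c ≠ e) : M.Tl c (X v * G) := by
  refine tl_iff.2 fun m hm => ?_
  rw [support_X_mul] at hm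
  obtain ⟨m', hm', rfl⟩ := mem_map.1 hm
  obtain ⟨h0, h4⟩ := tl_bs.1 h
  obtain ⟨h1, h2, h3⟩ := tl_iff.1 h0 m' hm'
  rw [addLeftEmbedding_apply]
  refine ⟨fun a ha => ?_, fun c' => ?_, ?_⟩
  · rcases mem_union.1 (Finsupp.support_add ha) with h5 | h5
    · rw [mem_singleton.1 (Finsupp.support_single_subset h5)]
      exact hU
    · exact h1 h5
  · rw [dg_add, Op.dg_single, hv]
    split_ifs with h5
    · rw [mem_singleton.1 h5, h4 m' hm']
    · rw [zero_add]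
      exact h2 c'
  · rw [dg_add, Op.dg_single, hv, if_neg (by simpa using hc), zero_add, h3]

theorem coeff_eul (F : MvPolynomial ι ℝ) (v : ι) (m : ι →₀ ℕ) :
    coeff m (X v * pderiv v F) = m v * coeff m F := by
  rw [coeff_X_mul']
  split_ifs with h
  · have h1 : 1 ≤ m v := Nat.one_le_iff_ne_zero.2 (Finsupp.mem_support_iff.1 h)
    rw [coeff_pderiv, tsub_add_cancel_of_le (Finsupp.single_le_iff.2 h1), Finsupp.tsub_apply,
      Finsupp.single_eq_same, Nat.cast_sub h1]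
    push_cast
    ring
  · rw [Finsupp.notMem_support_iff.1 h]
    simp

theorem eul_vars {F : MvPolynomial ι ℝ} (h : M.Tl c F) {B : Finset ι} (hB : ∀ v ∈ B, e ∈ M.col v) :
    (F - ∑ v ∈ B, X v * pderiv v F).vars ⊆ M.U \ B := fun a ha => by
  obtain ⟨m, hm, ha'⟩ := (mem_vars a).1 ha
  rw [mem_support_iff, coeff_sub, coeff_sum] at hm
  simp only [coeff_eul] at hm
  rw [← sum_mul, ← Nat.cast_sum, ← one_sub_mul] at hm
  obtain ⟨h1, h2, -⟩ := tl_iff.1 h m (mem_support_iff.2 (right_ne_zero_of_mul hm))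
  refine mem_sdiff.2 ⟨h1 ha', fun h3 => left_ne_zero_of_mul hm ?_⟩
  have h4 := (sum_le_dg hB m).trans (h2 e)
  have h5 : m a ≤ ∑ v ∈ B, m v := single_le_sum (fun _ _ => Nat.zero_le _) h3
  have h6 := Finsupp.mem_support_iff.1 ha'
  rw [show ∑ v ∈ B, m v = 1 by omega]
  simp

end DecP

open DecP in
theorem dec (hT : TOK) (hO : OPS) (hZ : FRZ) : DEC := by
  intro ι Γ _ _ _ _ M A c e F be I b y hM hIn he hc hF hbe hI tI tb eq1 eq2
  have hce : c ≠ e := fun h => he (h ▸ hc)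
  obtain ⟨-, -, -, -, -, z6, -, -, z9, -⟩ := hZ ι Γ M A c y hM hc
  have w9 := (hZ ι Γ (M.bs {e}) A c y (Op.bs_ok hM {e}) hc).2.2.2.2.2.2.2.2.1
  have hV : M.mv A ⊆ M.U := filter_subset _ _
  have hB : ∀ v ∈ (M.bs A).U, v ∈ M.U ∧ M.col v = {e} := fun v hv => by
    obtain ⟨h1, h2⟩ := mem_sdiff.1 (show v ∈ M.U \ M.mv A from hv)
    have h3 : ∀ x ∈ M.col v, x = e := fun x hx => (mem_insert.1 (hIn v h1 hx)).elim id
      fun h => absurd (mem_filter.2 ⟨h1, x, mem_inter.2 ⟨hx, h⟩⟩) h2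
    exact ⟨h1, (M.col v).eq_singleton_iff_nonempty_unique_mem.2 ⟨hM.ne v h1, h3⟩⟩
  have hW : (M.bs {e}).U ⊆ M.mv A := fun a ha => by
    obtain ⟨h1, h2⟩ := mem_bs.1 ha
    obtain ⟨x, hx⟩ := hM.ne a h1
    exact mem_filter.2 ⟨h1, x, mem_inter.2 ⟨hx, (mem_insert.1 (hIn a h1 hx)).resolve_left
      fun h => h2 (h ▸ hx)⟩⟩
  have tb' : M.Tl c b := tl_iff.2 fun m hm => by
    obtain ⟨h1, h2, h3⟩ := tl_iff.1 tb m hm
    refine ⟨h1.trans hV, fun c' => ?_, (dg_fib M.col hc m).symm.trans h3⟩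
    by_cases h4 : c' ∈ A
    · exact (dg_fib M.col h4 m).symm.le.trans (h2 c')
    · by_cases h5 : dg M.col c' m = 0
      · omega
      · have h6 : c' = e := by
          by_contra h7
          exact h5 (dg_zero.2 fun a ha h8 =>
            (mem_insert.1 (hIn a (hV (h1 ha)) h8)).elim h7 h4)
        subst h6
        refine (hbe m ?_).le
        rw [← eq2, mem_support_iff, coeff_sub, ko_coeff, if_neg h5, sub_zero]
        exact mem_support_iff.1 hm
  have phf : ∀ G : MvPolynomial ι ℝ, G.vars ⊆ M.mv A →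
      (M.fib A y).ph c G = fz (M.mv A) y (M.ph c G) := fun G hG => by
    unfold MT.ph
    rw [cg fun a ha => z6 a (hG ha)]
    unfold fz
    rw [← AlgHom.comp_apply, comp_aeval]
  have tI' : M.Tl c I := by
    have e1 : I = fz (M.mv A) y (F - M.ph c b) := by
      rw [show fz (M.mv A) y (F - M.ph c b) = fz (M.mv A) y F - fz (M.mv A) y (M.ph c b) from
        map_sub _ _ _, eq1, phf b tb.1, add_sub_cancel_right]
    refine ⟨tI.1.trans hV, ?_, fun m hm => (dg_fib M.col hc m).symm.trans (tI.2.2 m hm)⟩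
    rw [e1]
    exact (Op.dv_fz _ _ _).ty (tl_sub hF (z9 b tb')).2.1
  have sbe : Sb be b := eq2 ▸ sb_kp b
  have tbe : M.Tl c be := sbe.tl tb'
  have tE : M.Tl c (F - M.ph c be) := tl_sub hF (z9 be tbe)
  generalize hE : F - M.ph c be = E at tE ⊢
  have tP : ∀ v ∈ (M.bs A).U, (M.bs {e}).Tl c (pderiv v E) := fun v hv => tl_pd tE (hB v hv).2 hce
  have tk := w9 _ (tl_ko (e := e) tb')
  obtain ⟨G0, hG0⟩ : ∃ G0, G0 = E - ∑ v ∈ (M.bs A).U, X v * pderiv v E := ⟨_, rfl⟩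
  have vG : G0.vars ⊆ M.mv A := by
    rw [hG0]
    refine (eul_vars (e := e) tE fun v hv => by simp [(hB v hv).2]).trans fun a ha => ?_
    obtain ⟨h1, h2⟩ := mem_sdiff.1 ha
    by_contra h3
    exact h2 (mem_sdiff.2 ⟨h1, h3⟩)
  have eE : E = G0 + ∑ v ∈ (M.bs A).U, X v * pderiv v E := by rw [hG0, sub_add_cancel]
  have f1 : fz (M.mv A) y E = G0 + ∑ v ∈ (M.bs A).U, C (y v : ℝ) * pderiv v E := by
    have h1 : fz (M.mv A) y (G0 + ∑ v ∈ (M.bs A).U, X v * pderiv v E) =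
        fz (M.mv A) y G0 + ∑ v ∈ (M.bs A).U, fz (M.mv A) y (X v) * fz (M.mv A) y (pderiv v E) := by
      unfold fz
      simp only [map_add, map_sum, map_mul]
    rw [← eE, fz_self y vG] at h1
    rw [h1]
    refine congrArg _ (sum_congr rfl fun v hv => ?_)
    rw [fz_self y ((tP v hv).1.trans hW), fz, aeval_X,
      if_neg (mem_sdiff.1 (show v ∈ M.U \ M.mv A from hv)).2]
  have f2 : fz (M.mv A) y E = I + (M.bs {e}).ph c (M.ko e b) := by
    have h1 : M.ph c be = M.ph c b - (M.bs {e}).ph c (M.ko e b) := by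
      rw [← eq2]
      exact map_sub _ _ _
    have h2 : fz (M.mv A) y (F - (M.ph c b - (M.bs {e}).ph c (M.ko e b))) = fz (M.mv A) y F -
        (fz (M.mv A) y (M.ph c b) - fz (M.mv A) y ((M.bs {e}).ph c (M.ko e b))) := by
      unfold fz
      simp only [map_sub]
    rw [← hE, h1, h2, eq1, phf b tb.1, fz_self y (tk.1.trans hW)]
    ring
  have k1 : M.ko e E = M.ko e G0 := by
    have h1 : M.ko e (G0 + ∑ v ∈ (M.bs A).U, X v * pderiv v E) =
        M.ko e G0 + ∑ v ∈ (M.bs A).U, M.ko e (X v) * M.ko e (pderiv v E) := by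
      unfold MT.ko fz
      simp only [map_add, map_sum, map_mul]
    rw [← eE] at h1
    rw [h1, sum_eq_zero, add_zero]
    intro v hv
    rw [MT.ko, fz, aeval_X, if_neg (by simp [(hB v hv).2])]
    simp
  have k2 : M.ko e G0 + ∑ v ∈ (M.bs A).U, C (y v : ℝ) * pderiv v E =
      M.ko e I + (M.bs {e}).ph c (M.ko e b) := by
    have h1 : M.ko e (G0 + ∑ v ∈ (M.bs A).U, C (y v : ℝ) * pderiv v E) =
        M.ko e G0 + ∑ v ∈ (M.bs A).U, C (y v : ℝ) * M.ko e (pderiv v E) := by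
      unfold MT.ko fz
      simp only [map_add, map_sum, map_mul, aeval_C, algebraMap_eq]
    rw [← f1, f2, ko_add, ko_self tk, sum_congr rfl fun v hv => by rw [ko_self (tP v hv)]] at h1
    exact h1.symm
  refine ⟨tbe, sbe.l1, (sb_ko b).l1, tl_ko tb', tl_ko tI', (sb_ko I).isZ hI, (sb_kp I).isZ hI,
    (sb_kp I).tl tI', tl_ko tE, tP, ?_, ?_, fun G hG => ⟨(tl_bs.1 hG).1, rfl,
      fun v hv => tl_X hG (hB v hv).1 (hB v hv).2 hce⟩⟩
  · rw [k1]
    linear_combination eE + f2 - f1 - k2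
  · rw [k1]
    linear_combination k2

end Vale.Agent.P057T.Mt
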