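import Vale.Agent.P057T.Cfg.Cp

/-!
Multi-affine typed towers. Regularity is one inequality for the mass of the centred tower of
copies (`TH`). Row statements are `Prop`s at the end of the file.
-/

open MvPolynomial Finset
open scoped Real

namespace Vale.Agent.P057T.Mt

open Vale.Agent.P057T.Eq Vale.Agent.P057T.Cp

noncomputable section

/-- typed tower: order weight, colours, block matrix and inverse, the rest of the chart,
active variables, scales -/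
structure MT (ι Γ : Type) where
  w : ι → ℕ
  col : ι → Finset Γ
  A : Matrix ι ι ℝ
  B : Matrix ι ι ℝ
  p : ι → MvPolynomial ι ℝ
  U : Finset ι
  sg : ι → ℝ

variable {ι Γ ι' Γ' : Type} [Fintype ι] [DecidableEq ι] [Fintype Γ] [DecidableEq Γ]
  [Fintype ι'] [DecidableEq ι'] [Fintype Γ'] [DecidableEq Γ']

/-- degree of a monomial in the variables of colour `c` -/
def dg (col : ι → Finset Γ) (c : Γ) (m : ι →₀ ℕ) : ℕ :=
  Finsupp.weight (fun a => if c ∈ col a then 1 else 0) m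

/-- multi-affine of type inside `e` -/
def Ty (col : ι → Finset Γ) (e : Finset Γ) (F : MvPolynomial ι ℝ) : Prop :=
  ∀ m ∈ F.support, ∀ c, dg col c m ≤ if c ∈ e then 1 else 0

/-- linear in the variables of colour `c` -/
def Li (col : ι → Finset Γ) (c : Γ) (F : MvPolynomial ι ℝ) : Prop := ∀ m ∈ F.support, dg col c m = 1

/-- the monomials that contain all colours of `D` -/
def kp (col : ι → Finset Γ) (D : Finset Γ) (F : MvPolynomial ι ℝ) : MvPolynomial ι ℝ :=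
  ∑ m ∈ F.support.filter (fun m => ∀ c ∈ D, dg col c m ≠ 0), monomial m (coeff m F)

/-- freeze the variables outside `V` at `y` -/
def fz (V : Finset ι) (y : ι → ℤ) (F : MvPolynomial ι ℝ) : MvPolynomial ι ℝ :=
  aeval (fun b => if b ∈ V then X b else C (y b : ℝ)) F

def ee (x : ℝ) : ℂ := Complex.exp (2 * π * Complex.I * x)

namespace MT

variable (M : MT ι Γ)

def G : GT ι := ⟨fun _ => 0, M.w, M.A, M.B, fun _ => 0, ∅⟩
def T : AT ι := ⟨M.U, M.p, M.sg⟩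
def ch (a : ι) : MvPolynomial ι ℝ := M.G.ch M.T a
def nu (z : ι → ℤ) : ℝ := M.G.nu M.T z
def mn : ℝ := Mn M.G M.T

/-- normalised weighted sum -/
def En {E : Type} [NormedAddCommGroup E] [NormedSpace ℝ E] (h : (ι → ℤ) → E) : E :=
  M.mn⁻¹ • Ex M.G M.T h

/-- normalised mass -/
def nm : ℝ := M.En fun _ => (1 : ℝ)

structure Ok : Prop where
  w1 : ∀ a, 1 ≤ M.w a
  AB : M.A * M.B = 1
  blk : ∀ a b, (M.A a b ≠ 0 ∨ M.B a b ≠ 0) → M.w a = M.w b ∧ M.col a = M.col b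
  bk : M.G.Bk M.U
  pv : ∀ a ∈ M.U, (M.p a).vars ⊆ M.U
  pd : ∀ a ∈ M.U, M.G.Dl (M.w a) (M.p a)
  ty : ∀ a ∈ M.U, Ty M.col (M.col a) (M.p a)
  ne : ∀ a ∈ M.U, (M.col a).Nonempty
  sg : ∀ a, 0 < M.sg a

/-- the colours of `D` become directions -/
def dir (D : Finset Γ) : MT ι Γ := { M with p := fun a => kp M.col (D ∩ M.col a) (M.p a) }
/-- narrowing -/
def wid (l : ι → ℝ) : MT ι Γ := { M with sg := fun a => l a * M.sg a }
/-- change of centre, in chart units -/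
def cen (c : ι → ℝ) : MT ι Γ := { M with p := fun a => M.p a - C (c a) }
def rs (V : Finset ι) : MT ι Γ := { M with U := V }
/-- active variables that meet `F` -/
def mv (F : Finset Γ) : Finset ι := M.U.filter fun a => (M.col a ∩ F).Nonempty
/-- the base: active variables that miss `F` -/
def bs (F : Finset Γ) : MT ι Γ := M.rs (M.U \ M.mv F)
/-- the fibre over `y`, colours in `F` -/
def fib (F : Finset Γ) (y : ι → ℤ) : MT ι Γ :=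
  { M with col := fun a => M.col a ∩ F, p := fun a => fz (M.mv F) y (M.p a), U := M.mv F }
/-- the class `z = r + n a * z'`; used with `n a = ∏ c ∈ col a, n' c` -/
def cls (n : Γ → ℕ) (r : ι → ℤ) : MT ι Γ :=
  { M with
    A := Matrix.of fun a b => M.A a b * ∏ c ∈ M.col b, (n c : ℝ)
    B := Matrix.of fun a b => (∏ c ∈ M.col a, (n c : ℝ))⁻¹ * M.B a b
    p := fun a => C (∑ b, M.A a b * r b) +
      aeval (fun b => C (r b : ℝ) + C (∏ c ∈ M.col b, (n c : ℝ)) * X b) (M.p a) }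
def clz (n : Γ → ℕ) (r z : ι → ℤ) : ι → ℤ := fun b => r b + (∏ c ∈ M.col b, (n c : ℤ)) * z b

/-- the tower of copies; its colours are the vertices -/
def cpy (K : Type) [Fintype K] [DecidableEq K] [Inhabited K] : MT (CV M.col K) (Γ × K) where
  w := fun x => M.w x.1.1
  col := fun x => (M.col x.1.1).image fun c => (c, x.1.2 c)
  A := cm M.col K M.A
  B := cm M.col K M.B
  p := fun x => rename (vx M.col x.1.2) (M.p x.1.1)
  U := fu M.T M.col K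
  sg := fun x => M.sg x.1.1

/-- the point with the coefficients `ε` of the vertices -/
def mx {K : Type} [Fintype K] [DecidableEq K] [Inhabited K] (ε : Γ → K → ℤ) (z : CV M.col K → ℤ) :
    ι → ℤ := fun a =>
  ∑ x ∈ univ.filter (fun x : CV M.col K => x.1.1 = a), (∏ c ∈ M.col a, ε c (x.1.2 c)) * z x

/-- regularity -/
def TH (k : ℕ) (Λ d : ℝ) : Prop :=
  (((M.cpy (Fin (k + 1))).dir univ).wid fun _ => Λ).nm ≤ 1 + d

/-- scaled chart -/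
def sc (a : ι) : MvPolynomial ι ℝ := C (M.sg a) * M.ch a

/-- `F` is integer plus bounded, both linear in the colour `c` and multi-affine -/
def IB (c : Γ) (F : MvPolynomial ι ℝ) (H : ℝ) : Prop :=
  ∃ I b : MvPolynomial ι ℝ, IsZ I ∧ I.vars ⊆ M.U ∧ b.vars ⊆ M.U ∧ Ty M.col univ I ∧
    Ty M.col univ b ∧ Li M.col c I ∧ Li M.col c b ∧ l1 b ≤ H ∧ F = I + aeval (M.dir {c}).sc b

end MT

/-- `M'` has the top structure of a closed part of `M`, narrowed by at most `Λ` -/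
structure Emb (M' : MT ι' Γ') (M : MT ι Γ) (j : ι' → ι) (γ : Γ' → Γ) (Λ : ℝ) : Prop where
  ij : Set.InjOn j M'.U
  iγ : Function.Injective γ
  U : ∀ a ∈ M'.U, j a ∈ M.U
  col : ∀ a ∈ M'.U, M.col (j a) = (M'.col a).image γ
  A : ∀ a ∈ M'.U, ∀ b ∈ M'.U, M'.A a b = M.A (j a) (j b) ∧ M'.B a b = M.B (j a) (j b)
  bk : M.G.Bk (M'.U.image j)
  p : ∀ a ∈ M'.U, rename j ((M'.dir univ).p a) = (M.dir univ).p (j a)
  sg : ∀ a ∈ M'.U, M'.sg a ≤ Λ * M.sg (j a)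

/-- a typed tower of `Eq.Defs` as a multi-affine tower -/
def ofG (G : GT ι) (T : AT ι) (col : ι → Finset Γ) : MT ι Γ where
  w := fun a => G.w a * 2 ^ G.g a
  col := col
  A := G.A
  B := G.B
  p := fun a => T.p a - ∑ b, C (G.A a b) * G.q b
  U := T.U
  sg := T.sg

/-! ### Rows -/

/-- bridge to the rows of `Cp` -/
def TOK : Prop := ∀ (ι Γ : Type) [Fintype ι] [DecidableEq ι] [Fintype Γ] [DecidableEq Γ]
  (M : MT ι Γ), M.Ok → (∃ (s : ℕ) (P : ℝ), 0 < P ∧ M.G.Ok s ∧ M.G.AOk M.T P) ∧ Col M.G M.col ∧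
    ColT M.T M.col ∧ 0 < M.mn ∧ (∀ a, M.ch a = ∑ b, C (M.A a b) * X b + M.p a) ∧
    (∀ a ∈ M.U, (M.ch a).vars ⊆ M.U ∧ Ty M.col (M.col a) (M.ch a)) ∧
    ∀ F y, Cls M.G M.T (M.U \ M.mv F) ∧ M.U \ (M.U \ M.mv F) = M.mv F ∧
      (M.fib F y).mn * (M.bs F).mn = M.mn

/-- the moves keep `Ok`, and their charts -/
def OPS : Prop := ∀ (ι Γ : Type) [Fintype ι] [DecidableEq ι] [Fintype Γ] [DecidableEq Γ]
  (M : MT ι Γ), M.Ok →
    (∀ D, (M.dir D).Ok ∧ ∀ a, (M.dir D).ch a = kp M.col (D ∩ M.col a) (M.ch a)) ∧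
    (∀ l, (∀ a, 0 < l a) → (M.wid l).Ok ∧ (M.wid l).mn * ∏ a ∈ M.U, l a = M.mn) ∧
    (∀ c, (M.cen c).Ok ∧ ∀ a, (M.cen c).ch a = M.ch a - C (c a)) ∧
    (∀ V, V ⊆ M.U → M.G.Bk V → (∀ a ∈ V, (M.p a).vars ⊆ V) → (M.rs V).Ok) ∧
    (∀ F, (M.bs F).Ok) ∧
    (∀ F y, (M.fib F y).Ok ∧ ∀ a ∈ M.mv F, (M.fib F y).ch a = fz (M.mv F) y (M.ch a)) ∧
    (∀ n : Γ → ℕ, (∀ c, 1 ≤ n c) → ∀ r, (M.cls n r).Ok ∧
      (M.cls n r).mn * ∏ a ∈ M.U, ∏ c ∈ M.col a, (n c : ℝ) = M.mn ∧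
      ∀ a z, eval (cz z) ((M.cls n r).ch a) = eval (cz (M.clz n r z)) (M.ch a)) ∧
    ∀ (K : Type) [Fintype K] [DecidableEq K] [Inhabited K], (M.cpy K).Ok ∧
      ∀ f, ∀ a ∈ M.U, (M.cpy K).ch (vx M.col f a) = rename (vx M.col f) (M.ch a)

/-- Fubini along the base -/
def FUM : Prop := ∀ (ι Γ : Type) [Fintype ι] [DecidableEq ι] [Fintype Γ] [DecidableEq Γ]
  (M : MT ι Γ) (F : Finset Γ), M.Ok → (∃ B : ℝ, ∀ y, (M.fib F y).nm ≤ B) ∧
    ∀ (E : Type) [NormedAddCommGroup E] [NormedSpace ℝ E] [CompleteSpace E] (h : (ι → ℤ) → E)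
      (B : ℝ), (∀ z, ‖h z‖ ≤ B) →
      M.En h = (M.bs F).En fun y => (M.fib F y).En fun x => h (y + x)

/-- charts of combined points; `D` is the set of direction vertices, `D0` of direction colours -/
def MX : Prop := ∀ (ι Γ K : Type) [Fintype ι] [DecidableEq ι] [Fintype Γ] [DecidableEq Γ]
  [Fintype K] [DecidableEq K] [Inhabited K] (M : MT ι Γ) (ε : Γ → K → ℤ) (D : Finset (Γ × K))
  (D0 : Finset Γ) (z : CV M.col K → ℤ),
    (∀ c, c ∉ D0 → ∑ k ∈ univ.filter (fun k => (c, k) ∉ D), ε c k = 1) →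
    (∀ (e : Finset Γ) (F : MvPolynomial ι ℝ), Ty M.col e F → kp M.col (D0 ∩ e) F = F →
      eval (cz (M.mx ε z)) F = ∑ f ∈ univ.filter (fun f : Γ → K => rs e f = f),
        (∏ c ∈ e, (ε c (f c) : ℝ)) * eval (cz z) (kp (M.cpy K).col
          (D ∩ e.image fun c => (c, f c)) (rename (vx M.col f) F))) ∧
    (M.Ok → ∀ a ∈ M.U, kp M.col (D0 ∩ M.col a) (M.ch a) = M.ch a →
      eval (cz (M.mx ε z)) (M.ch a) =
        ∑ x ∈ univ.filter (fun x : CV M.col K => x.1.1 = a),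
          (∏ c ∈ M.col a, (ε c (x.1.2 c) : ℝ)) * eval (cz z) (((M.cpy K).dir D).ch x))

/-- one lattice: the fibre of one colour. Shifted sums are at most the centred sum, the centred
sum is at least one and decreases under widening and deleting. -/
def ONE : Prop := ∀ (ι Γ : Type) [Fintype ι] [DecidableEq ι] [Fintype Γ] [DecidableEq Γ]
  (M : MT ι Γ) (c : Γ), M.Ok → (∀ a ∈ M.U, M.col a = {c}) →
    1 ≤ (M.dir {c}).nm ∧ |M.nm - 1| ≤ (M.dir {c}).nm - 1 ∧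
    (∀ l : ι → ℝ, (∀ a, 1 ≤ l a) → (M.dir {c}).nm ≤ ((M.dir {c}).wid l).nm) ∧
    ∀ V, V ⊆ M.U → M.G.Bk V → (∀ a ∈ V, (M.p a).vars ⊆ V) → ((M.rs V).dir {c}).nm ≤ (M.dir {c}).nm

/-- comparison of masses -/
def CMP : Prop := ∀ (ι Γ ι' Γ' : Type) [Fintype ι] [DecidableEq ι] [Fintype Γ] [DecidableEq Γ]
  [Fintype ι'] [DecidableEq ι'] [Fintype Γ'] [DecidableEq Γ'] (M' : MT ι' Γ') (M : MT ι Γ)
  (j : ι' → ι) (γ : Γ' → Γ) (Λ d : ℝ), M'.Ok → M.Ok → 0 < Λ → Emb M' M j γ Λ →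
    ((M.dir univ).wid fun _ => Λ).nm ≤ 1 + d →
    0 ≤ d ∧ M'.nm ≤ 1 + d ∧ 1 - 2 ^ Fintype.card Γ' * d ≤ M'.nm

/-- embeddings: composition, copies, the moves -/
def EMB : Prop :=
  (∀ (ι Γ ι' Γ' ι'' Γ'' : Type) [Fintype ι] [DecidableEq ι] [Fintype Γ] [DecidableEq Γ]
    [Fintype ι'] [DecidableEq ι'] [Fintype Γ'] [DecidableEq Γ'] [Fintype ι''] [DecidableEq ι'']
    [Fintype Γ''] [DecidableEq Γ''] (M'' : MT ι'' Γ'') (M' : MT ι' Γ') (M : MT ι Γ) j' γ' j γ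
    (Λ' Λ : ℝ), M''.Ok → M'.Ok → M.Ok → 0 ≤ Λ' → Emb M'' M' j' γ' Λ' → Emb M' M j γ Λ →
      Emb M'' M (j ∘ j') (γ ∘ γ') (Λ' * Λ)) ∧
  ∀ (ι Γ : Type) [Fintype ι] [DecidableEq ι] [Fintype Γ] [DecidableEq Γ] (M : MT ι Γ), M.Ok →
    (∀ D, Emb (M.dir D) M id id 1) ∧ (∀ c, Emb (M.cen c) M id id 1) ∧
    (∀ (l : ι → ℝ) (Λ : ℝ), (∀ a ∈ M.U, l a ≤ Λ) → Emb (M.wid l) M id id Λ) ∧
    (∀ V, V ⊆ M.U → M.G.Bk V → Emb (M.rs V) M id id 1) ∧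
    ∀ (K : Type) [Fintype K] [DecidableEq K] [Inhabited K] (f : Γ → K),
      Emb M (M.cpy K) (vx M.col f) (fun c => (c, f c)) 1

/-- masses of all towers over a regular tower; regularity is inherited -/
def THM : Prop := ∀ (ι Γ ι' Γ' K : Type) [Fintype ι] [DecidableEq ι] [Fintype Γ] [DecidableEq Γ]
  [Fintype ι'] [DecidableEq ι'] [Fintype Γ'] [DecidableEq Γ'] [Fintype K] [DecidableEq K]
  [Inhabited K] (M' : MT ι' Γ') (M : MT ι Γ) (j : ι' → CV M.col K) (γ : Γ' → Γ × K) (k : ℕ)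
  (Λ' Λ d : ℝ), M'.Ok → M.Ok → 0 < Λ' → Emb M' (M.cpy K) j γ Λ' → M.TH k Λ d →
    (Fintype.card K ≤ k + 1 → Λ' ≤ Λ →
      0 ≤ d ∧ M'.nm ≤ 1 + d ∧ 1 - 2 ^ Fintype.card Γ' * d ≤ M'.nm) ∧
    ∀ (k' : ℕ) (Λ'' : ℝ), Fintype.card K * (k' + 1) ≤ k + 1 → 0 < Λ'' → Λ'' * Λ' ≤ Λ →
      M'.TH k' Λ'' d

/-- classes are regular -/
def THC : Prop := ∀ (ι Γ : Type) [Fintype ι] [DecidableEq ι] [Fintype Γ] [DecidableEq Γ]
  (M : MT ι Γ) (n : Γ → ℕ) (r : ι → ℤ) (k : ℕ) (Λ Λ' d : ℝ), M.Ok → (∀ c, 1 ≤ n c) → 0 < Λ' →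
    Λ' * ∏ c, (n c : ℝ) ≤ Λ → M.TH k Λ d → (M.cls n r).TH k Λ' d

/-- typical fibres are regular -/
def FIBT : Prop := ∀ (ι Γ : Type) [Fintype ι] [DecidableEq ι] [Fintype Γ] [DecidableEq Γ]
  (M : MT ι Γ) (F : Finset Γ) (k : ℕ) (Λ d t : ℝ), M.Ok → 1 ≤ Λ → 0 < t → M.TH k Λ d →
    (M.bs F).En (fun y => by classical exact if (M.fib F y).TH k Λ t then (0 : ℝ) else 1) ≤
      (2 ^ Fintype.card Γ + 1) * d / t

/-- old towers -/
def OLD : Prop := ∀ s r k : ℕ, ∃ c : ℕ, ∀ (ι Γ : Type) [Fintype ι] [DecidableEq ι] [Fintype Γ]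
  [DecidableEq Γ] (G : GT ι) (T : AT ι) (col : ι → Finset Γ) (WW : ℕ → ℝ) (P Y L : ℝ),
    Fintype.card Γ ≤ r → Sz ι P Y → 0 ≤ L → G.AOk T P → Col G col → (∀ a ∈ T.U, (col a).Nonempty) →
    (∀ a ∈ T.U, Ty col (col a) (G.q a) ∧ Ty col (col a) (T.p a)) →
    Rr G s WW (P ^ c) (Y + L) →
    (ofG G T col).Ok ∧ (∀ a, (ofG G T col).ch a = G.ch T a) ∧
      (ofG G T col).TH k (Real.exp L) (Real.exp (-Y))

/-- some cell and some class keep a normalised sum -/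
def PIG : Prop := ∀ (ι Γ : Type) [Fintype ι] [DecidableEq ι] [Fintype Γ] [DecidableEq Γ]
  (M : MT ι Γ) (h : (ι → ℤ) → ℝ) (B a : ℝ), M.Ok → (∀ z, |h z| ≤ B) → a < M.En h →
    (∀ l : ι → ℝ, (∀ b, 1 ≤ l b) → ∃ c : ι → ℝ, (∀ b, l b = 1 → c b = 0) ∧
      a < ((M.cen c).wid l).En h) ∧
    ∀ n : Γ → ℕ, (∀ c, 1 ≤ n c) → ∃ r ∈ Lat M.U, a < (M.cls n r).En fun z => h (M.clz n r z)

/-- uniqueness -/
def ZR : Prop := ∀ r : ℕ, ∃ C : ℕ, ∀ (ι Γ : Type) [Fintype ι] [DecidableEq ι] [Fintype Γ]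
  [DecidableEq Γ] (M : MT ι Γ) (c : Γ) (N H Λ d : ℝ) (I b : MvPolynomial ι ℝ), M.Ok →
    Fintype.card Γ ≤ r → (Fintype.card ι : ℝ) ≤ N → 2 ≤ N → 1 ≤ H → N ^ C * H ≤ Λ → N ^ C * d ≤ 1 →
    M.TH 0 Λ d → IsZ I → I.vars ⊆ M.U → b.vars ⊆ M.U → Ty M.col univ I → Ty M.col univ b →
    Li M.col c I → Li M.col c b → l1 b ≤ H → I = aeval (M.dir {c}).sc b → I = 0 ∧ b = 0

/-- strong equidistribution -/
def SEQ : Prop := ∀ r : ℕ, ∃ k C : ℕ, ∀ (ι Γ : Type) [Fintype ι] [DecidableEq ι] [Fintype Γ]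
  [DecidableEq Γ] (M : MT ι Γ) (c : Γ) (N R Λ d : ℝ) (Q : MvPolynomial ι ℝ), M.Ok →
    Fintype.card Γ ≤ r → (Fintype.card ι : ℝ) ≤ N → 2 ≤ N → 2 ≤ R → (N * R) ^ C ≤ Λ →
    (N * R) ^ C * d ≤ 1 → M.TH k Λ d → Q.vars ⊆ M.U → Ty M.col univ Q →
    R⁻¹ ≤ ‖M.En fun z => ee (eval (cz z) Q)‖ →
    ∃ n : ℕ, 1 ≤ n ∧ (n : ℝ) ≤ R ^ C ∧
      M.IB c (MvPolynomial.C (n : ℝ) * kp M.col {c} Q) ((N * R) ^ C)

end

end Vale.Agent.P057T.Mt
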