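import Vale.Agent.P057T.Mt.Seq

/-! Row ENM: the normalised sums are monotone, additive and homogeneous. -/

set_option linter.all false

open MvPolynomial Finset

namespace Vale.Agent.P057T.Mt

open Vale.Agent.P057T.Eq Vale.Agent.P057T.Cp

lemma ind_nn (p : Prop) : 0 ≤ ind p := by
  unfold ind
  split_ifs <;> norm_num

lemma ind_le (p : Prop) : ind p ≤ 1 := by
  unfold ind
  split_ifs <;> norm_num

lemma abs_ind (p : Prop) : |ind p| ≤ 1 := by
  rw [abs_of_nonneg (ind_nn p)]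
  exact ind_le p

theorem enm (hT : TOK) (hS : SUMM) : ENM := by
  intro ι Γ _ _ _ _ M hM
  obtain ⟨⟨s, P, hP, hG, hA⟩, -, -, hm, -⟩ := hT ι Γ M hM
  have hs := hS s ι M.G M.T P hG hP hA
  have h0 : ∀ z, 0 ≤ M.G.nu M.T z := fun z => (Real.exp_pos _).le
  have hi : 0 ≤ M.mn⁻¹ := (inv_pos.2 hm).le
  have eR : ∀ h : (ι → ℤ) → ℝ,
      M.En h = M.mn⁻¹ * ∑' z : Lat M.T.U, M.G.nu M.T z.1 * h z.1 := fun h => rfl
  have sE : ∀ (E : Type) [NormedAddCommGroup E] [NormedSpace ℝ E] (h : (ι → ℤ) → E) (B : ℝ),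
      (∀ z, ‖h z‖ ≤ B) → Summable fun z : Lat M.T.U => ‖M.G.nu M.T z.1 • h z.1‖ := by
    intro E _ _ h B hB
    refine (hs.mul_right B).of_nonneg_of_le (fun z => norm_nonneg _) fun z => ?_
    rw [norm_smul, Real.norm_of_nonneg (h0 _)]
    exact mul_le_mul_of_nonneg_left (hB _) (h0 _)
  have sR : ∀ (h : (ι → ℤ) → ℝ) (B : ℝ), (∀ z, |h z| ≤ B) →
      Summable fun z : Lat M.T.U => M.G.nu M.T z.1 * h z.1 := fun h B hB => (sE ℝ h B hB).of_norm
  have mono : ∀ (h h' : (ι → ℤ) → ℝ) (B B' : ℝ), (∀ z, |h z| ≤ B) → (∀ z, |h' z| ≤ B') →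
      (∀ z ∈ Lat M.U, h z ≤ h' z) → M.En h ≤ M.En h' := by
    intro h h' B B' hB hB' hle
    rw [eR, eR]
    exact mul_le_mul_of_nonneg_left ((sR h B hB).tsum_le_tsum
      (fun z => mul_le_mul_of_nonneg_left (hle z.1 z.2) (h0 _)) (sR h' B' hB')) hi
  have hom : ∀ (h : (ι → ℤ) → ℝ) (t : ℝ), M.En (fun z => t * h z) = t * M.En h := by
    intro h t
    rw [eR, eR, mul_left_comm, ← tsum_mul_left (a := t)]
    congr 1
    exact tsum_congr fun z => by ring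
  have cst : ∀ t : ℝ, M.En (fun _ => t) = t * M.nm := fun t => by
    simpa [MT.nm] using hom (fun _ => 1) t
  refine ⟨fun h h' B hB hB' => ⟨mono h h' B B hB hB', ?_, abs_le.2 ⟨?_, ?_⟩⟩, hom, ?_, ?_⟩
  · rw [eR, eR, eR, ← mul_add, ← (sR h B hB).tsum_add (sR h' B hB')]
    congr 1
    exact tsum_congr fun z => by ring
  · rw [← neg_mul, ← cst]
    exact mono _ _ |-B| B (fun _ => le_rfl) hB fun z _ => (abs_le.1 (hB z)).1
  · rw [← cst]
    exact mono _ _ B |B| hB (fun _ => le_rfl) fun z _ => (abs_le.1 (hB z)).2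
  · intro h B hB
    rw [eR]
    show ‖M.mn⁻¹ • ∑' z : Lat M.T.U, M.G.nu M.T z.1 • h z.1‖ ≤ _
    rw [norm_smul, Real.norm_of_nonneg hi]
    refine mul_le_mul_of_nonneg_left ((norm_tsum_le_tsum_norm (sE ℂ h B hB)).trans (le_of_eq ?_)) hi
    exact tsum_congr fun z => by rw [norm_smul, Real.norm_of_nonneg (h0 _)]
  · intro n p t hn ht
    have hn0 : (0 : ℝ) < n := by exact_mod_cast hn
    have h1 : M.En (fun z => ∑ i ∈ Icc 1 n, ind (p i z)) =
        ∑ i ∈ Icc 1 n, M.En fun z => ind (p i z) := by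
      simp only [eR]
      rw [← mul_sum, ← Summable.tsum_finsetSum fun i _ => sR _ 1 fun z => abs_ind (p i z)]
      congr 1
      exact tsum_congr fun z => mul_sum _ _ _
    have h2 : M.En (fun z => ind (∃ i, 1 ≤ i ∧ i ≤ n ∧ p i z)) ≤
        M.En (fun z => ∑ i ∈ Icc 1 n, ind (p i z)) := by
      refine mono _ _ 1 (∑ _i ∈ Icc 1 n, (1 : ℝ)) (fun z => abs_ind _)
        (fun z => (abs_sum_le_sum_abs _ _).trans (sum_le_sum fun i _ => abs_ind _)) fun z _ => ?_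
      by_cases h : ∃ i, 1 ≤ i ∧ i ≤ n ∧ p i z
      · obtain ⟨i, h1, h2, h3⟩ := h
        refine (ind_le _).trans (le_trans ?_
          (single_le_sum (fun j _ => ind_nn (p j z)) (mem_Icc.2 ⟨h1, h2⟩)))
        unfold ind
        rw [if_pos h3]
      · refine le_trans (le_of_eq ?_) (sum_nonneg fun j _ => ind_nn (p j z))
        unfold ind
        rw [if_neg h]
    have h3 : ∑ _i ∈ Icc 1 n, t / n ≤ ∑ i ∈ Icc 1 n, M.En fun z => ind (p i z) := by
      rw [sum_const, Nat.card_Icc, Nat.add_sub_cancel, nsmul_eq_mul, mul_div_cancel₀ _ hn0.ne', ← h1]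
      exact ht.trans h2
    obtain ⟨i, hi1, hi2⟩ := exists_le_of_sum_le (nonempty_Icc.2 hn) h3
    exact ⟨i, (mem_Icc.1 hi1).1, (mem_Icc.1 hi1).2, hi2⟩

end Vale.Agent.P057T.Mt
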