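import Vale.Agent.P057T.Mt.Seq
import Vale.Agent.P057T.Mt.Ops

/-! Freezing, monomial by monomial. -/

set_option linter.all false

open MvPolynomial Finset

namespace Vale.Agent.P057T.Mt

open Vale.Agent.P057T.Eq Vale.Agent.P057T.Cp

namespace Fz

open Op

variable {ι Γ : Type} [Fintype ι] [DecidableEq ι] [Fintype Γ] [DecidableEq Γ]

theorem fz_mon1 (V : Finset ι) (y : ι → ℤ) (m : ι →₀ ℕ) :
    ∃ n : ℤ, fz V y (monomial m 1) = monomial (m.filter (· ∈ V)) (n : ℝ) := by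
  unfold fz
  induction m using Finsupp.induction_linear with
  | zero => exact ⟨1, by simp [Finsupp.filter_zero]⟩
  | add m1 m2 h1 h2 =>
    obtain ⟨n1, h1⟩ := h1
    obtain ⟨n2, h2⟩ := h2
    refine ⟨n1 * n2, ?_⟩
    rw [← one_mul (1 : ℝ), ← monomial_mul, map_mul, h1, h2, monomial_mul, Finsupp.filter_add]
    push_cast
    rfl
  | single b k =>
    rw [← X_pow_eq_monomial, map_pow, aeval_X]
    by_cases hb : b ∈ V
    · refine ⟨1, ?_⟩
      rw [if_pos hb, Finsupp.filter_single_of_pos _ hb, X_pow_eq_monomial, Int.cast_one]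
    · refine ⟨y b ^ k, ?_⟩
      rw [if_neg hb, Finsupp.filter_single_of_neg _ hb, monomial_zero', ← map_pow, Int.cast_pow]

theorem fz_mon (V : Finset ι) (y : ι → ℤ) : ∃ n : (ι →₀ ℕ) → ℤ, ∀ (m : ι →₀ ℕ) (a : ℝ),
    fz V y (monomial m a) = monomial (m.filter (· ∈ V)) (a * n m) := by
  choose n hn using fz_mon1 V y
  refine ⟨n, fun m a => ?_⟩
  rw [← C_mul_monomial, ← hn m]
  conv_lhs => rw [← mul_one a, ← C_mul_monomial]
  unfold fz
  rw [map_mul, aeval_C]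
  rfl

theorem fz_sum {α : Type} (V : Finset ι) (y : ι → ℤ) (s : Finset α) (F : α → MvPolynomial ι ℝ) :
    fz V y (∑ i ∈ s, F i) = ∑ i ∈ s, fz V y (F i) := map_sum (aeval _) _ _

theorem fz_C_mul (V : Finset ι) (y : ι → ℤ) (a : ℝ) (F : MvPolynomial ι ℝ) :
    fz V y (C a * F) = C a * fz V y F := by
  unfold fz
  rw [map_mul, aeval_C]
  rfl

theorem isZ_fz (V : Finset ι) (y : ι → ℤ) {F : MvPolynomial ι ℝ} (h : IsZ F) : IsZ (fz V y F) := by
  classical
  obtain ⟨n, hn⟩ := fz_mon V y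
  choose k hk using h
  intro m'
  refine ⟨∑ m ∈ F.support, if m.filter (· ∈ V) = m' then k m * n m else 0, ?_⟩
  conv_lhs => rw [F.as_sum, fz_sum, coeff_sum]
  push_cast
  refine Finset.sum_congr rfl fun m _ => ?_
  rw [hn, coeff_monomial, hk]

theorem supp_fz (V : Finset ι) (y : ι → ℤ) (F : MvPolynomial ι ℝ) :
    ∀ m' ∈ (fz V y F).support, ∃ m ∈ F.support, m' = m.filter (· ∈ V) := fun m' h => by
  classical
  obtain ⟨n, hn⟩ := fz_mon V y
  rw [F.as_sum, fz_sum] at h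
  obtain ⟨m, hm, h1⟩ := mem_biUnion.1 (support_sum h)
  rw [hn] at h1
  exact ⟨m, hm, mem_singleton.1 (support_monomial_subset h1)⟩

theorem kp_mon (col : ι → Finset Γ) (D : Finset Γ) (m : ι →₀ ℕ) (a : ℝ) :
    kp col D (monomial m a) = if ∀ c ∈ D, dg col c m ≠ 0 then monomial m a else 0 := by
  classical
  ext m'
  rw [coeff_kp]
  by_cases h : m = m'
  · subst h
    split_ifs <;> simp
  · split_ifs <;> simp [coeff_monomial, h]

theorem kp_empty (col : ι → Finset Γ) (F : MvPolynomial ι ℝ) : kp col ∅ F = F := by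
  ext m
  simp [coeff_kp]

theorem dg_add (col : ι → Finset Γ) (c : Γ) (m m' : ι →₀ ℕ) :
    dg col c (m + m') = dg col c m + dg col c m' := map_add _ _ _

theorem dg_zero (col : ι → Finset Γ) (c : Γ) : dg col c 0 = 0 := map_zero _

theorem in_U {F : MvPolynomial ι ℝ} {U : Finset ι} (h : F.vars ⊆ U) {m : ι →₀ ℕ}
    (hm : m ∈ F.support) : ∀ b, m b ≠ 0 → b ∈ U := fun b hb =>
  h ((mem_vars b).2 ⟨m, hm, Finsupp.mem_support_iff.2 hb⟩)

variable {M : MT ι Γ} {A : Finset Γ} {c : Γ}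

theorem dg_fm (hc : c ∈ A) {m : ι →₀ ℕ} (hm : ∀ b, m b ≠ 0 → b ∈ M.U) :
    dg (fun a => M.col a ∩ A) c (m.filter (· ∈ M.mv A)) = dg M.col c m := by
  unfold dg
  rw [Finsupp.weight_apply, Finsupp.weight_apply, Finsupp.sum_fintype _ _ (by simp),
    Finsupp.sum_fintype _ _ (by simp)]
  refine Finset.sum_congr rfl fun b _ => ?_
  rw [Finsupp.filter_apply]
  by_cases h0 : m b = 0
  · simp [h0]
  by_cases h1 : c ∈ M.col b
  · have h2 : b ∈ M.mv A := mem_filter.2 ⟨hm b h0, c, mem_inter.2 ⟨h1, hc⟩⟩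
    simp [h1, h2, hc]
  · simp [h1]

theorem ty_fz (y : ι → ℤ) {F : MvPolynomial ι ℝ} (h : Ty M.col univ F) :
    Ty (M.fib A y).col univ (fz (M.mv A) y F) := fun m hm e => by
  refine (ty_int ((dv_fz _ _ _).ty h) A m hm e).trans ?_
  rw [if_pos (mem_univ e)]
  split_ifs <;> simp

theorem kp_fz (hc : c ∈ A) (y : ι → ℤ) {F : MvPolynomial ι ℝ} (h : F.vars ⊆ M.U) :
    kp (M.fib A y).col {c} (fz (M.mv A) y F) = fz (M.mv A) y (kp M.col {c} F) := by
  obtain ⟨n, hn⟩ := fz_mon (M.mv A) y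
  conv_lhs => rw [F.as_sum, fz_sum, kp_sum]
  conv_rhs => rw [F.as_sum, kp_sum, fz_sum]
  refine Finset.sum_congr rfl fun m hm => ?_
  rw [hn, kp_mon, kp_mon]
  have e : dg (M.fib A y).col c (m.filter (· ∈ M.mv A)) = dg M.col c m := dg_fm hc (in_U h hm)
  simp only [mem_singleton, forall_eq, e]
  split_ifs
  · rw [hn]
  · exact (map_zero (aeval _)).symm

theorem tl_fz (hc : c ∈ A) (y : ι → ℤ) {F : MvPolynomial ι ℝ} (h : M.Tl c F) :
    (M.fib A y).Tl c (fz (M.mv A) y F) :=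
  ⟨vars_fz _ _ _, ty_fz y h.2.1, fun m' hm' => by
    obtain ⟨m, hm, rfl⟩ := supp_fz _ _ _ m' hm'
    exact (dg_fm hc (in_U h.1 hm)).trans (h.2.2 m hm)⟩

theorem supp_kp' {col : ι → Finset Γ} {D : Finset Γ} {F : MvPolynomial ι ℝ} {m : ι →₀ ℕ}
    (hm : m ∈ (kp col D F).support) : ∀ e ∈ D, dg col e m ≠ 0 := by
  rw [mem_support_iff, coeff_kp] at hm
  by_contra h
  exact hm (if_neg h)

theorem tl_kp {F : MvPolynomial ι ℝ} (h : F.vars ⊆ M.U) (ht : Ty M.col univ F) :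
    M.Tl c (kp M.col {c} F) :=
  ⟨(dv_kp _ _ _).vars.trans h, (dv_kp _ _ _).ty ht, fun m hm => by
    have h1 := supp_kp' hm c (mem_singleton_self c)
    have h2 := ht m (supp_kp _ _ _ hm) c
    rw [if_pos (mem_univ c)] at h2
    omega⟩

/-- the monomials are active, of degrees at most those of `m`, with equality in the colour `c` -/
def Qm (M : MT ι Γ) (c : Γ) (m : ι →₀ ℕ) (F : MvPolynomial ι ℝ) : Prop :=
  ∀ m' ∈ F.support, (∀ b, m' b ≠ 0 → b ∈ M.U) ∧ (∀ e, dg M.col e m' ≤ dg M.col e m) ∧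
    dg M.col c m' = dg M.col c m

theorem qm_C (x : ℝ) : Qm M c 0 (C x) := fun m' h => by
  rw [supp_C h]
  exact ⟨fun b hb => absurd rfl hb, fun _ => le_rfl, rfl⟩

theorem Qm.mul {m1 m2 : ι →₀ ℕ} {F1 F2 : MvPolynomial ι ℝ} (h1 : Qm M c m1 F1)
    (h2 : Qm M c m2 F2) : Qm M c (m1 + m2) (F1 * F2) := fun m' h => by
  classical
  obtain ⟨a, ha, b, hb, rfl⟩ := Finset.mem_add.1 (support_mul _ _ h)
  refine ⟨fun i hi => ?_, fun e => ?_, ?_⟩
  · by_cases h0 : a i = 0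
    · refine (h2 b hb).1 i fun h3 => hi ?_
      rw [Finsupp.add_apply, h0, h3]
    · exact (h1 a ha).1 i h0
  · rw [dg_add, dg_add]
    exact add_le_add ((h1 a ha).2.1 e) ((h2 b hb).2.1 e)
  · rw [dg_add, dg_add, (h1 a ha).2.2, (h2 b hb).2.2]

theorem qm_sc (h : M.Ok) (hc : ∀ a ∈ M.U, (M.ch a).vars ⊆ M.U ∧ Ty M.col (M.col a) (M.ch a))
    {b : ι} (hb : b ∈ M.U) : Qm M c (Finsupp.single b 1) ((M.dir {c}).sc b) := by
  have h1 : Qm M c (Finsupp.single b 1) ((M.dir {c}).ch b) := by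
    rw [dir_ch h]
    intro m hm
    have h2 := supp_kp _ _ _ hm
    have h3 := (hc b hb).2 m h2
    refine ⟨in_U (hc b hb).1 h2, fun e => by rw [dg_single]; exact h3 e, ?_⟩
    rw [dg_single]
    have h4 := h3 c
    split_ifs at h4 ⊢ with h5
    · have := supp_kp' hm c (mem_inter.2 ⟨mem_singleton_self c, h5⟩)
      omega
    · omega
  have := (qm_C (M := M) (c := c) ((M.dir {c}).sg b)).mul h1
  rwa [zero_add] at this

theorem qm_mon (h : M.Ok) (hc : ∀ a ∈ M.U, (M.ch a).vars ⊆ M.U ∧ Ty M.col (M.col a) (M.ch a))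
    (m : ι →₀ ℕ) (hm : ∀ b, m b ≠ 0 → b ∈ M.U) : Qm M c m (M.ph c (monomial m 1)) := by
  unfold MT.ph
  induction m using Finsupp.induction_linear with
  | zero => rw [monomial_zero', aeval_C]; exact qm_C _
  | add m1 m2 h1 h2 =>
    rw [← one_mul (1 : ℝ), ← monomial_mul, map_mul]
    exact (h1 fun b hb => hm b (by rw [Finsupp.add_apply]; omega)).mul
      (h2 fun b hb => hm b (by rw [Finsupp.add_apply]; omega))
  | single b k =>
    rw [← X_pow_eq_monomial, map_pow, aeval_X]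
    rcases Nat.eq_zero_or_pos k with rfl | hk
    · rw [pow_zero, ← C_1, Finsupp.single_zero]; exact qm_C _
    have hb : b ∈ M.U := hm b (by rw [Finsupp.single_eq_same]; omega)
    clear hm hk
    induction k with
    | zero => rw [pow_zero, ← C_1, Finsupp.single_zero]; exact qm_C _
    | succ k ih =>
      rw [pow_succ, Finsupp.single_add]
      exact ih.mul (qm_sc h hc hb)

theorem tl_ph (h : M.Ok) (hc : ∀ a ∈ M.U, (M.ch a).vars ⊆ M.U ∧ Ty M.col (M.col a) (M.ch a))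
    {F : MvPolynomial ι ℝ} (hF : M.Tl c F) : M.Tl c (M.ph c F) := by
  classical
  have key : ∀ m' ∈ (M.ph c F).support, ∃ m ∈ F.support, (∀ b, m' b ≠ 0 → b ∈ M.U) ∧
      (∀ e, dg M.col e m' ≤ dg M.col e m) ∧ dg M.col c m' = dg M.col c m := fun m' h' => by
    rw [F.as_sum, map_sum] at h'
    obtain ⟨m, hm, h1⟩ := mem_biUnion.1 (support_sum h')
    refine ⟨m, hm, ?_⟩
    have h2 := (qm_C (coeff m F)).mul (qm_mon (c := c) h hc m (in_U hF.1 hm))
    rw [zero_add] at h2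
    refine h2 m' ?_
    rw [← mul_one (coeff m F), ← C_mul_monomial, map_mul] at h1
    unfold MT.ph at h1
    rwa [aeval_C] at h1
  refine ⟨fun b hb => ?_, fun m' h' e => ?_, fun m' h' => ?_⟩
  · obtain ⟨m', h1, h2⟩ := (mem_vars b).1 hb
    obtain ⟨m, _, h3, _⟩ := key m' h1
    exact h3 b (Finsupp.mem_support_iff.1 h2)
  · obtain ⟨m, hm, _, h3, _⟩ := key m' h'
    exact (h3 e).trans (hF.2.1 m hm e)
  · obtain ⟨m, hm, _, _, h3⟩ := key m' h'
    exact h3.trans (hF.2.2 m hm)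

end Fz

open Op Fz in
theorem frz (hT : TOK) (_ : OPS) : FRZ := by
  intro ι Γ _ _ _ _ M A c y h hc
  have hch := (hT ι Γ M h).2.2.2.2.2.1
  refine ⟨fun F => isZ_fz _ _, fun F hF => ⟨ty_fz y hF, vars_fz _ _ _⟩, fun F => kp_fz hc y,
    fun F => tl_fz hc y, fun F => tl_kp, fun a ha => ?_, fun a ha => ⟨?_, ?_⟩,
    fun F _ x hx hy => ?_, fun F => tl_ph h hch, fun B hB => ⟨fun a ha => ?_, fun a ha e he => ?_⟩⟩
  · unfold MT.sc
    rw [fz_C_mul, dir_ch (fib_ok h A y), dir_ch h, fib_ch h A y a ha]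
    congr 1
    by_cases h1 : c ∈ M.col a
    · have h2 : c ∈ (M.fib A y).col a := mem_inter.2 ⟨h1, hc⟩
      rw [singleton_inter_of_mem h1, singleton_inter_of_mem h2]
      exact kp_fz hc y (hch a (mem_filter.1 ha).1).1
    · have h2 : c ∉ (M.fib A y).col a := fun h2 => h1 (mem_inter.1 h2).1
      rw [singleton_inter_of_notMem h1, singleton_inter_of_notMem h2, kp_empty, kp_empty]
  · obtain ⟨h1, h2⟩ := mem_sdiff.1 ha
    unfold MT.sc
    rw [dir_ch h, singleton_inter_of_notMem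
      fun h3 => h2 (mem_filter.2 ⟨h1, c, mem_inter.2 ⟨h3, hc⟩⟩), kp_empty]
    rfl
  · refine (vars_mul _ _).trans ?_
    rw [vars_C, empty_union]
    exact ((hT ι Γ _ (bs_ok h A)).2.2.2.2.2.1 a ha).1
  · unfold fz
    rw [ev_aeval]
    congr 2
    funext b
    split_ifs with h1
    · have : y b = 0 := hy b fun h2 => (mem_sdiff.1 h2).2 h1
      simp [cz, this]
    · have : x b = 0 := hx b h1
      simp [cz, this]
  · exact inter_subset_inter_right (hB a (mem_filter.1 ha).1)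
  · obtain ⟨h1, h2⟩ := mem_sdiff.1 ha
    exact mem_sdiff.2 ⟨hB a h1 he, fun h3 => h2 (mem_filter.2 ⟨h1, e, mem_inter.2 ⟨he, h3⟩⟩)⟩

end Vale.Agent.P057T.Mt
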