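import Vale.Agent.P057T.Mt.Seq
import Vale.Agent.P057T.Mt.Ops

/-! The chart substitution is onto the typed forms. -/

set_option linter.all false

open MvPolynomial Finset

namespace Vale.Agent.P057T.Mt

open Vale.Agent.P057T.Eq Vale.Agent.P057T.Cp

namespace InvP

variable {ι Γ : Type} [Fintype ι] [DecidableEq ι] [Fintype Γ] [DecidableEq Γ]

theorem tl_sub {M : MT ι Γ} {c : Γ} {F F' : MvPolynomial ι ℝ} (h : M.Tl c F)
    (hs : F'.support ⊆ F.support) : M.Tl c F' :=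
  ⟨fun b hb => by
    obtain ⟨m, h1, h2⟩ := (mem_vars b).1 hb
    exact h.1 ((mem_vars b).2 ⟨m, hs h1, h2⟩), fun m hm => h.2.1 m (hs hm),
    fun m hm => h.2.2 m (hs hm)⟩

/-- the typed forms as a subspace -/
def V (M : MT ι Γ) (c : Γ) : Submodule ℝ (MvPolynomial ι ℝ) where
  carrier := {F | M.Tl c F}
  zero_mem' := ⟨by simp, fun m hm => by simp at hm, fun m hm => by simp at hm⟩
  add_mem' := fun {F F'} h h' =>
    ⟨(vars_add_subset F F').trans (union_subset h.1 h'.1),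
      fun m hm => (mem_union.1 (support_add hm)).elim (h.2.1 m) (h'.2.1 m),
      fun m hm => (mem_union.1 (support_add hm)).elim (h.2.2 m) (h'.2.2 m)⟩
  smul_mem' := fun t F h => tl_sub h support_smul

theorem mem_V {M : MT ι Γ} {c : Γ} {F : MvPolynomial ι ℝ} : F ∈ V M c ↔ M.Tl c F := Iff.rfl

theorem V_le {M : MT ι Γ} (h : M.Ok) (c : Γ) : V M c ≤ restrictDegree ι ℝ 1 := fun F hF => by
  rw [mem_restrictDegree]
  intro m hm a
  by_cases h0 : m a = 0
  · omega
  · have h1 : a ∈ M.U := hF.1 ((mem_vars a).2 ⟨m, hm, Finsupp.mem_support_iff.2 h0⟩)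
    obtain ⟨e, he⟩ := h.ne a h1
    have h2 : dg M.col e (Finsupp.single a (m a)) ≤ dg M.col e m :=
      Op.wt_mono _ (Finsupp.single_le_iff.2 le_rfl)
    rw [Op.dg_single, if_pos he] at h2
    have h3 := hF.2.1 m hm e
    rw [if_pos (mem_univ e)] at h3
    omega

theorem fin_V {M : MT ι Γ} (h : M.Ok) (c : Γ) : FiniteDimensional ℝ (V M c) :=
  Submodule.finiteDimensional_of_le (V_le h c)

theorem l1_nn (F : MvPolynomial ι ℝ) : 0 ≤ l1 F := sum_nonneg fun _ _ => abs_nonneg _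

theorem l1_smul (t : ℝ) (F : MvPolynomial ι ℝ) : l1 (t • F) ≤ |t| * l1 F := by
  unfold l1
  rw [mul_sum]
  refine (sum_le_sum_of_subset_of_nonneg support_smul fun _ _ _ => abs_nonneg _).trans_eq ?_
  exact sum_congr rfl fun m _ => by rw [coeff_smul, smul_eq_mul, abs_mul]

theorem inj {M : MT ι Γ} {c : Γ} (hU : M.Uq c 1) {b : MvPolynomial ι ℝ} (hb : M.Tl c b)
    (h0 : M.ph c b = 0) : b = 0 := by
  have h1 := l1_nn b
  have h2 : (0 : ℝ) < (l1 b + 1)⁻¹ := by positivity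
  have h3 := (hU 0 ((l1 b + 1)⁻¹ • b) (fun m => ⟨0, by simp⟩) (V M c).zero_mem
    ((V M c).smul_mem _ hb) ((l1_smul _ _).trans (by
      rw [abs_of_pos h2, inv_mul_le_iff₀ (by positivity)]; linarith))
    (by rw [map_smul, h0, smul_zero])).2
  exact (smul_eq_zero.1 h3).resolve_left h2.ne'

end InvP

theorem invm (_ : TOK) (hF : FRZ) : INVM := by
  intro ι Γ _ _ _ _ M c h hU F hT
  have h1 := (hF ι Γ M {c} c 0 h (mem_singleton_self c)).2.2.2.2.2.2.2.2.1
  have := InvP.fin_V h c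
  let φ : InvP.V M c →ₗ[ℝ] InvP.V M c :=
    (M.ph c).toLinearMap.restrict (p := InvP.V M c) (q := InvP.V M c) h1
  have h2 : Function.Injective φ := by
    rw [injective_iff_map_eq_zero]
    exact fun b hb => Subtype.ext (InvP.inj hU b.2 (congrArg Subtype.val hb))
  obtain ⟨b, hb⟩ := LinearMap.injective_iff_surjective.1 h2 ⟨F, hT⟩
  exact ⟨b.1, b.2, congrArg Subtype.val hb⟩

end Vale.Agent.P057T.Mt
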