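import Vale.Agent.P057T.Mt.Seq
import Vale.Agent.P057T.Mt.Fibt
import Vale.Agent.P057T.L1

/-! Uniqueness on the joint fibre gives uniqueness for the quadruple. -/

open MvPolynomial Finset
open scoped Real

namespace Vale.Agent.P057T.Mt

open Vale.Agent.P057T.Eq Vale.Agent.P057T.Cp

noncomputable section

set_option linter.unusedSectionVars false

namespace JaP

open Fb

variable {ι Γ ι' Γ' : Type} [Fintype ι] [DecidableEq ι] [Fintype Γ] [DecidableEq Γ]
  [Fintype ι'] [DecidableEq ι'] [Fintype Γ'] [DecidableEq Γ']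

theorem ae_cg (u v : ι → MvPolynomial ι' ℝ) (Q : MvPolynomial ι ℝ) (h : ∀ b ∈ Q.vars, u b = v b) :
    aeval u Q = aeval v Q := by
  rw [aeval_def, aeval_def]
  exact eval₂_congr _ u v fun hi hc => h _ ((mem_vars_iff_mem_support _).2 ⟨_, mem_support_iff.2 hc, hi⟩)

theorem hom_ae {κ : Type} (φ : MvPolynomial ι' ℝ →ₐ[ℝ] MvPolynomial κ ℝ) (f : ι → MvPolynomial ι' ℝ)
    (Q : MvPolynomial ι ℝ) : φ (aeval f Q) = aeval (fun i => φ (f i)) Q :=
  DFunLike.congr_fun (comp_aeval f φ) Q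

theorem dg_eq (col : ι → Finset Γ) (c : Γ) (m : ι →₀ ℕ) :
    dg col c m = ∑ b ∈ m.support, m b * if c ∈ col b then 1 else 0 := by
  unfold dg
  rw [Finsupp.weight_apply, Finsupp.sum]
  rfl

theorem aff_mono (col : ι → Finset Γ) (e : Γ) (ψ φ0 φ1 : ι → MvPolynomial ι' ℝ) (m : ι →₀ ℕ) (r : ℝ)
    (hm : dg col e m ≤ 1) (h1 : ∀ b ∈ m.support, e ∈ col b → ψ b = φ0 b + φ1 b)
    (h0 : ∀ b ∈ m.support, e ∉ col b → ψ b = φ0 b ∧ φ1 b = φ0 b) :
    aeval ψ (monomial m r) = aeval φ0 (monomial m r) + aeval φ1 (kp col {e} (monomial m r)) := by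
  rw [kp_mono]
  by_cases hd : ∃ b ∈ m.support, e ∈ col b
  · rw [if_pos fun c hc => by rw [mem_singleton.1 hc, dg_ne]; exact hd]
    obtain ⟨b0, hb0, he⟩ := hd
    rw [dg_eq, ← add_sum_erase _ _ hb0, if_pos he] at hm
    have hp : m b0 ≠ 0 := Finsupp.mem_support_iff.1 hb0
    have hm1 : m b0 = 1 := by omega
    have hz : ∑ b ∈ m.support.erase b0, m b * (if e ∈ col b then 1 else 0) = 0 := by omega
    have hn : ∀ b ∈ m.support.erase b0, e ∉ col b := by
      intro b hb he'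
      have := (sum_eq_zero_iff.1 hz) b hb
      rw [if_pos he', mul_one] at this
      exact Finsupp.mem_support_iff.1 (mem_of_mem_erase hb) this
    simp only [aeval_monomial, Finsupp.prod]
    rw [← mul_prod_erase _ _ hb0, ← mul_prod_erase _ _ hb0, ← mul_prod_erase _ _ hb0, hm1,
      h1 b0 hb0 he,
      prod_congr rfl fun b hb => (by rw [(h0 b (mem_of_mem_erase hb) (hn b hb)).1] :
        ψ b ^ m b = φ0 b ^ m b),
      prod_congr rfl fun b hb => (by rw [(h0 b (mem_of_mem_erase hb) (hn b hb)).2] :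
        φ1 b ^ m b = φ0 b ^ m b)]
    ring
  · rw [if_neg fun h => hd ((dg_ne col e m).1 (h e (mem_singleton_self e))), map_zero, add_zero]
    simp only [aeval_monomial, Finsupp.prod]
    congr 1
    exact prod_congr rfl fun b hb => by rw [(h0 b hb fun he => hd ⟨b, hb, he⟩).1]

theorem aff (col : ι → Finset Γ) (e : Γ) (ψ φ0 φ1 : ι → MvPolynomial ι' ℝ) (Q : MvPolynomial ι ℝ)
    (hm : ∀ m ∈ Q.support, dg col e m ≤ 1) (h1 : ∀ b ∈ Q.vars, e ∈ col b → ψ b = φ0 b + φ1 b)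
    (h0 : ∀ b ∈ Q.vars, e ∉ col b → ψ b = φ0 b ∧ φ1 b = φ0 b) :
    aeval ψ Q = aeval φ0 Q + aeval φ1 (kp col {e} Q) := by
  have key : ∑ m ∈ Q.support, aeval ψ (monomial m (coeff m Q)) =
      ∑ m ∈ Q.support, (aeval φ0 (monomial m (coeff m Q)) +
        aeval φ1 (kp col {e} (monomial m (coeff m Q)))) :=
    sum_congr rfl fun m hm' => aff_mono col e ψ φ0 φ1 m _ (hm m hm')
      (fun b hb => h1 b ((mem_vars_iff_mem_support _).2 ⟨m, hm', hb⟩))
      (fun b hb => h0 b ((mem_vars_iff_mem_support _).2 ⟨m, hm', hb⟩))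
  rw [sum_add_distrib, ← map_sum, ← map_sum, ← map_sum, ← kp_sum, ← Q.as_sum] at key
  exact key

theorem kp_comm (col : ι → Finset Γ) (D D' : Finset Γ) (F : MvPolynomial ι ℝ) :
    kp col D (kp col D' F) = kp col D' (kp col D F) := by
  ext m
  simp only [kp_coeff]
  split_ifs <;> rfl

theorem kp_supp (col : ι → Finset Γ) (D : Finset Γ) (F : MvPolynomial ι ℝ) :
    (kp col D F).support ⊆ F.support := by
  intro m hm
  rw [mem_support_iff, kp_coeff] at hm
  rw [mem_support_iff]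
  intro h0
  apply hm
  split_ifs
  · exact h0
  · rfl

theorem tl_add (M : MT ι Γ) (c : Γ) {F G : MvPolynomial ι ℝ} (hF : M.Tl c F) (hG : M.Tl c G) :
    M.Tl c (F + G) := by
  refine ⟨(vars_add_subset F G).trans (union_subset hF.1 hG.1), fun m hm => ?_, fun m hm => ?_⟩
  · rcases mem_union.1 (support_add hm) with h | h
    · exact hF.2.1 m h
    · exact hG.2.1 m h
  · rcases mem_union.1 (support_add hm) with h | h
    · exact hF.2.2 m h
    · exact hG.2.2 m h

theorem tl_neg (M : MT ι Γ) (c : Γ) {F : MvPolynomial ι ℝ} (hF : M.Tl c F) : M.Tl c (-F) := by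
  refine ⟨by rw [vars_neg]; exact hF.1, fun m hm => ?_, fun m hm => ?_⟩
  · exact hF.2.1 m (by rwa [support_neg] at hm)
  · exact hF.2.2 m (by rwa [support_neg] at hm)

theorem tl_sub (M : MT ι Γ) (c : Γ) {F G : MvPolynomial ι ℝ} (hF : M.Tl c F) (hG : M.Tl c G) :
    M.Tl c (F - G) := by
  rw [sub_eq_add_neg]
  exact tl_add M c hF (tl_neg M c hG)

theorem wh_ae (w : ι → ℕ) (w' : ι' → ℕ) (f : ι → MvPolynomial ι' ℝ)
    (hf : ∀ b, IsWeightedHomogeneous w' (f b) (w b)) (F : MvPolynomial ι ℝ) (m' : ι' →₀ ℕ)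
    (hm : m' ∈ (aeval f F).support) :
    ∃ m ∈ F.support, Finsupp.weight w' m' = Finsupp.weight w m := by
  rw [F.as_sum, map_sum] at hm
  obtain ⟨m, h1, h2⟩ := mem_biUnion.1 (support_sum hm)
  refine ⟨m, h1, ?_⟩
  have : IsWeightedHomogeneous w' (aeval f (monomial m (coeff m F))) (Finsupp.weight w m) := by
    rw [aeval_monomial, algebraMap_eq, Finsupp.weight_apply, Finsupp.prod, Finsupp.sum]
    exact (IsWeightedHomogeneous.prod _ _ _ fun b _ => (hf b).pow (m b)).C_mul _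
  exact this (mem_support_iff.1 h2)

theorem deg_le (col : ι → Finset Γ) (F : MvPolynomial ι ℝ) (h1 : ∀ b ∈ F.vars, (col b).Nonempty)
    (h2 : Ty col univ F) : F.totalDegree ≤ Fintype.card Γ := by
  refine Finset.sup_le fun m hm => ?_
  calc m.sum (fun _ k => k) ≤ ∑ b ∈ m.support, ∑ c : Γ, m b * (if c ∈ col b then 1 else 0) := by
        refine sum_le_sum fun b hb => ?_
        obtain ⟨c, hc⟩ := h1 b ((mem_vars_iff_mem_support _).2 ⟨m, hm, hb⟩)
        have := single_le_sum (f := fun c : Γ => m b * (if c ∈ col b then 1 else 0))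
          (fun _ _ => Nat.zero_le _) (mem_univ c)
        simpa [hc] using this
    _ = ∑ c : Γ, dg col c m := by
        rw [sum_comm]
        exact sum_congr rfl fun c _ => (dg_eq col c m).symm
    _ ≤ ∑ _c : Γ, 1 := sum_le_sum fun c _ => by simpa using h2 m hm c
    _ = Fintype.card Γ := by simp

variable (M : MT ι Γ) (A : Finset Γ) (c e : Γ) (l : ℝ)

theorem mem_jc (z : K4 × ι) (γ : Γ × K4) : γ ∈ (M.jt e l).col z ↔
    γ.1 ∈ M.col z.2 ∧ (if γ.1 = e then z.1 else default) = γ.2 := by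
  show γ ∈ (M.col z.2).image (fun c => (c, if c = e then z.1 else default)) ↔ _
  rw [mem_image]
  constructor
  · rintro ⟨c, hc, rfl⟩
    exact ⟨hc, rfl⟩
  · rintro ⟨h1, h2⟩
    exact ⟨γ.1, h1, Prod.ext rfl h2⟩

theorem mem_A0 (γ : Γ × K4) : γ ∈ A0 A ↔ γ.1 ∈ A ∧ γ.2 = default := by
  unfold A0
  rw [mem_image]
  constructor
  · rintro ⟨c, hc, rfl⟩
    exact ⟨hc, rfl⟩
  · rintro ⟨h1, h2⟩
    exact ⟨γ.1, h1, Prod.ext rfl h2.symm⟩

theorem mem_fc (he : e ∉ A) (z : K4 × ι) (γ : Γ × K4) : γ ∈ (M.jt e l).col z ∩ A0 A ↔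
    γ.1 ∈ M.col z.2 ∩ A ∧ γ.2 = default := by
  rw [mem_inter, mem_inter, mem_jc, mem_A0]
  constructor
  · rintro ⟨⟨h1, -⟩, h2, h3⟩
    exact ⟨⟨h1, h2⟩, h3⟩
  · rintro ⟨⟨h1, h2⟩, h3⟩
    exact ⟨⟨h1, by rw [if_neg fun h : γ.1 = e => he (h ▸ h2), h3]⟩, h2, h3⟩

theorem mem_jm (he : e ∉ A) (z : K4 × ι) : z ∈ (M.jt e l).mv (A0 A) ↔
    z.2 ∈ M.mv A ∧ (e ∈ M.col z.2 ∨ z.1 = default) := by
  unfold MT.mv
  rw [mem_filter, mem_filter]
  have hU : z ∈ (M.jt e l).U ↔ z.2 ∈ M.U ∧ (e ∈ M.col z.2 ∨ z.1 = default) := by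
    show z ∈ univ.filter _ ↔ _
    rw [mem_filter]
    exact and_iff_right (mem_univ _)
  rw [hU]
  constructor
  · rintro ⟨⟨h1, h2⟩, γ, hγ⟩
    exact ⟨⟨h1, γ.1, ((mem_fc M A e l he z γ).1 hγ).1⟩, h2⟩
  · rintro ⟨⟨h1, c, hc⟩, h2⟩
    exact ⟨⟨h1, h2⟩, (c, default), (mem_fc M A e l he z _).2 ⟨hc, rfl⟩⟩

theorem tl_sm (he : e ∉ A) (s : ℝ) (p q : Bool) (y : ι → ℤ) (y' : K4 × ι → ℤ)
    (F : MvPolynomial ι ℝ) (hF : (M.fib A y).Tl c F) :
    ((M.jt e l).fib (A0 A) y').Tl (c, default) (aeval (M.sm e s p q) F) := by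
  have hw : ∀ γ : Γ × K4, ∀ m' ∈ (aeval (M.sm e s p q) F).support, ∃ m ∈ F.support,
      dg ((M.jt e l).fib (A0 A) y').col γ m' =
        if γ.2 = default then dg (M.fib A y).col γ.1 m else 0 := by
    intro γ m' hm'
    have hx : ∀ (k : K4) (b : ι), IsWeightedHomogeneous
        (fun z => if γ ∈ (M.jt e l).col z ∩ A0 A then 1 else 0) (X (k, b) : MvPolynomial (K4 × ι) ℝ)
        (if γ.1 ∈ M.col b ∩ A ∧ γ.2 = default then 1 else 0) := by
      intro k b
      have := isWeightedHomogeneous_X ℝ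
        (fun z : K4 × ι => if γ ∈ (M.jt e l).col z ∩ A0 A then (1 : ℕ) else 0) (k, b)
      simp only [mem_fc M A e l he] at this ⊢
      exact this
    obtain ⟨m, h1, h2⟩ := wh_ae (fun b => if γ.1 ∈ M.col b ∩ A ∧ γ.2 = default then 1 else 0)
      (fun z => if γ ∈ (M.jt e l).col z ∩ A0 A then 1 else 0) (M.sm e s p q) (fun b => by
        unfold MT.sm
        split_ifs with h0 h3 h3
        · have h4 := hx (false, p) b
          have h5 := hx (true, q) b
          rw [if_pos h3] at h4 h5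
          exact h4.add (h5.C_mul s)
        · have h4 := hx (false, p) b
          have h5 := hx (true, q) b
          rw [if_neg h3] at h4 h5
          exact h4.add (h5.C_mul s)
        · have h4 := hx default b
          rwa [if_pos h3] at h4
        · have h4 := hx default b
          rwa [if_neg h3] at h4) F m' hm'
    refine ⟨m, h1, h2.trans ?_⟩
    split_ifs with h3
    · simp only [h3, and_true]
      rfl
    · simp only [h3, and_false, if_false]
      rw [Finsupp.weight_apply, Finsupp.sum]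
      simp
  refine ⟨fun z hz => ?_, fun m' hm' γ => ?_, fun m' hm' => ?_⟩
  · have hz' : z ∈ (bind₁ (M.sm e s p q) F).vars := hz
    obtain ⟨b, hb, hzb⟩ := mem_biUnion.1 (vars_bind₁ _ _ hz')
    have hbm : b ∈ M.mv A := hF.1 hb
    show z ∈ (M.jt e l).mv (A0 A)
    unfold MT.sm at hzb
    split_ifs at hzb with h0
    · rcases mem_union.1 (vars_add_subset _ _ hzb) with h | h
      · rw [vars_X, mem_singleton] at h
        subst h
        exact (mem_jm M A e l he _).2 ⟨hbm, Or.inl h0⟩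
      · rcases mem_union.1 (vars_mul _ _ h) with h | h
        · simp [vars_C] at h
        · rw [vars_X, mem_singleton] at h
          subst h
          exact (mem_jm M A e l he _).2 ⟨hbm, Or.inl h0⟩
    · rw [vars_X, mem_singleton] at hzb
      subst hzb
      exact (mem_jm M A e l he _).2 ⟨hbm, Or.inr rfl⟩
  · obtain ⟨m, h1, h2⟩ := hw γ m' hm'
    rw [h2, if_pos (mem_univ γ)]
    have := hF.2.1 m h1 γ.1
    rw [if_pos (mem_univ _)] at this
    split_ifs
    · exact this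
    · exact Nat.zero_le _
  · obtain ⟨m, h1, h2⟩ := hw (c, default) m' hm'
    rw [h2, if_pos rfl]
    exact hF.2.2 m h1

theorem ch_jt (hT : TOK) (hO : OPS) (hM : M.Ok) (hJ : (M.jt e l).Ok) (k : K4) (a : ι)
    (hk : e ∈ M.col a ∨ k = default) : (M.jt e l).ch (k, a) = rename (M.vk e k)
      (if k.1 = true then kp M.col ({e} ∩ M.col a) (M.ch a) else M.ch a) := by
  have h1 := (hT _ _ _ hJ).2.2.2.2.1 (k, a)
  obtain ⟨hD, hD2⟩ := (hO ι Γ M hM).1 {e}
  have h2 := (hT _ _ _ hM).2.2.2.2.1 a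
  have h3 : (M.dir {e}).ch a = ∑ b, C (M.A a b) * X b + kp M.col ({e} ∩ M.col a) (M.p a) :=
    (hT _ _ _ hD).2.2.2.2.1 a
  have h4 : ∑ z, C ((M.jt e l).A (k, a) z) * (X z : MvPolynomial (K4 × ι) ℝ) =
      rename (M.vk e k) (∑ b, C (M.A a b) * X b) := by
    rw [Fintype.sum_prod_type, sum_eq_single k, map_sum]
    · refine sum_congr rfl fun b _ => ?_
      show C (if k = k then M.A a b else 0) * _ = _
      rw [if_pos rfl, map_mul, rename_C, rename_X]
      by_cases h0 : M.A a b = 0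
      · rw [h0, C_0, zero_mul, zero_mul]
      · congr 2
        have hc := (hM.blk a b (Or.inl h0)).2
        unfold MT.vk
        rcases hk with hk | hk
        · rw [if_pos (hc ▸ hk)]
        · rw [hk, ite_self]
    · intro k' _ hk'
      refine sum_eq_zero fun b _ => ?_
      show C (if k = k' then M.A a b else 0) * _ = _
      rw [if_neg (Ne.symm hk'), C_0, zero_mul]
    · intro h
      exact absurd (mem_univ _) h
  rw [h1, h4]
  show _ + rename (M.vk e k)
    (if k.1 = true then kp M.col ({e} ∩ M.col a) (M.p a) else M.p a) = _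
  rw [← map_add]
  congr 1
  split_ifs
  · rw [← hD2 a, h3]
  · rw [h2]

theorem sc_j (hT : TOK) (hO : OPS) (hZ : FRZ) (hM : M.Ok) (hJ : (M.jt e l).Ok) (he : e ∉ A)
    (hc : c ∈ A) (y' : K4 × ι → ℤ) (k : K4) (a : ι) (ha : a ∈ M.mv A)
    (hk : e ∈ M.col a ∨ k = default) :
    ((M.jt e l).fib (A0 A) y').ph (c, default) (X (k, a)) =
      C ((if k.1 = true then l else 1) * M.sg a) *
        aeval (fun b => fz ((M.jt e l).mv (A0 A)) y' (X (M.vk e k b)))
          (if k.1 = true then kp M.col ({e} ∩ M.col a) (kp M.col ({c} ∩ M.col a) (M.ch a))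
            else kp M.col ({c} ∩ M.col a) (M.ch a)) := by
  have hce : c ≠ e := fun h => he (h ▸ hc)
  have h1 := (hZ _ _ (M.jt e l) (A0 A) (c, default) y' hJ
    ((mem_A0 A _).2 ⟨hc, rfl⟩)).2.2.2.2.2.1 (k, a) ((mem_jm M A e l he _).2 ⟨ha, hk⟩)
  have h2 := ((hO _ _ _ hJ).1 {(c, default)}).2 (k, a)
  have h3 : ∀ Q : MvPolynomial ι ℝ, kp (M.jt e l).col ({(c, default)} ∩ (M.jt e l).col (k, a))
      (rename (M.vk e k) Q) = rename (M.vk e k) (kp M.col ({c} ∩ M.col a) Q) := by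
    intro Q
    rw [ren_eq, ren_eq]
    refine kp_aeval M.col _ _ _ _ _ _ _ fun m _ => ⟨fun h γ hγ => ?_, fun h c' hc' => ?_⟩
    · obtain ⟨h4, h5⟩ := mem_inter.1 hγ
      rw [mem_singleton] at h4
      subst h4
      obtain ⟨b, hb, hcb⟩ := h c (mem_inter.2 ⟨mem_singleton_self c, ((mem_jc M e l _ _).1 h5).1⟩)
      exact ⟨b, hb, mem_univ _, (mem_jc M e l _ _).2 ⟨hcb, if_neg hce⟩⟩
    · obtain ⟨h4, h5⟩ := mem_inter.1 hc'
      rw [mem_singleton] at h4
      subst h4
      obtain ⟨b, hb, -, hcb⟩ := h (c', default)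
        (mem_inter.2 ⟨mem_singleton_self _, (mem_jc M e l _ _).2 ⟨h5, if_neg hce⟩⟩)
      exact ⟨b, hb, ((mem_jc M e l _ _).1 hcb).1⟩
  unfold MT.ph
  rw [aeval_X, h1]
  show fz _ _ (C ((if k.1 = true then l else 1) * M.sg a) *
    ((M.jt e l).dir {(c, default)}).ch (k, a)) = _
  rw [h2, ch_jt M e l hT hO hM hJ k a hk, h3]
  unfold fz
  rw [map_mul, aeval_C, algebraMap_eq, aeval_rename]
  congr 1
  simp only [aeval_X]
  split_ifs
  · rw [kp_comm]
    rfl
  · rfl

theorem key (hT : TOK) (hO : OPS) (hZ : FRZ) (hM : M.Ok) (hJ : (M.jt e l).Ok) (hl : 1 ≤ l)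
    (hI : M.In (insert e A)) (he : e ∉ A) (hc : c ∈ A) (x y : Bool → ι → ℤ) (p q : Bool) (a : ι)
    (ha : a ∈ M.mv A) :
    aeval (M.sm e 1 p q) (((M.fib A (x p + y q)).dir {c}).sc a) =
      ((M.jt e l).fib (A0 A) (gl x y)).ph (c, default) (M.sm e l⁻¹ p q a) := by
  have haU := ((mem_mv M A a).1 ha).1
  obtain ⟨hv, hty⟩ := (hT _ _ _ hM).2.2.2.2.2.1 a haU
  have h1 := (hZ _ _ M A c (x p + y q) hM hc).2.2.2.2.2.1 a ha
  have h2 := ((hO _ _ _ hM).1 {c}).2 a
  have h3 : (M.dir {c}).sc a = C (M.sg a) * kp M.col ({c} ∩ M.col a) (M.ch a) := by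
    rw [← h2]
    rfl
  have hQv : ∀ b ∈ (kp M.col ({c} ∩ M.col a) (M.ch a)).vars, b ∈ M.U :=
    fun b hb => hv (kp_vars _ _ _ hb)
  have hQt : ∀ m ∈ (kp M.col ({c} ∩ M.col a) (M.ch a)).support,
      dg M.col e m ≤ if e ∈ M.col a then 1 else 0 := fun m hm => hty m (kp_supp _ _ _ hm) e
  have hnm : ∀ b ∈ M.U, e ∉ M.col b → b ∈ M.mv A := by
    intro b hb heb
    obtain ⟨c', hc'⟩ := hM.ne b hb
    refine (mem_mv M A b).2 ⟨hb, c', hc', ?_⟩
    rcases mem_insert.1 (hI b hb hc') with h | h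
    · exact absurd (h ▸ hc') heb
    · exact h
  have hf0 : ∀ (k : K4), ∀ b ∈ M.U, e ∉ M.col b →
      fz ((M.jt e l).mv (A0 A)) (gl x y) (X (M.vk e k b)) = X (default, b) := by
    intro k b hb heb
    unfold fz MT.vk
    rw [aeval_X, if_neg heb, if_pos ((mem_jm M A e l he _).2 ⟨hnm b hb heb, Or.inr rfl⟩)]
  have hs0 : ∀ b ∈ M.U, e ∉ M.col b → aeval (M.sm e 1 p q)
      (if b ∈ M.mv A then (X b : MvPolynomial ι ℝ) else C (((x p + y q) b : ℤ) : ℝ)) =
        X (default, b) := by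
    intro b hb heb
    rw [if_pos (hnm b hb heb), aeval_X]
    unfold MT.sm
    rw [if_neg heb]
  rw [h1, h3]
  unfold fz
  rw [map_mul, map_mul, aeval_C, algebraMap_eq, aeval_C, algebraMap_eq, hom_ae]
  by_cases hea : e ∈ M.col a
  · have hs : M.sm e l⁻¹ p q a = X ((false, p), a) + C l⁻¹ * X ((true, q), a) := if_pos hea
    have hl0 : l ≠ 0 := by linarith
    have hie : ({e} : Finset Γ) ∩ M.col a = {e} := singleton_inter_of_mem hea
    have hC : ((M.jt e l).fib (A0 A) (gl x y)).ph (c, default) (C l⁻¹) = C l⁻¹ := by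
      unfold MT.ph
      rw [aeval_C, algebraMap_eq]
    rw [hs, map_add, map_mul, hC, sc_j M A c e l hT hO hZ hM hJ he hc _ _ a ha (Or.inl hea),
      sc_j M A c e l hT hO hZ hM hJ he hc _ _ a ha (Or.inl hea)]
    simp only [Bool.false_eq_true, if_false, if_true, one_mul]
    rw [hie, ← mul_assoc, ← C_mul, ← mul_assoc, inv_mul_cancel₀ hl0, one_mul, ← mul_add]
    congr 1
    refine aff M.col e _ _ _ _ (fun m hm => by simpa [hea] using hQt m hm) (fun b hb heb => ?_)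
      fun b hb heb => ⟨?_, ?_⟩
    · unfold fz MT.vk
      simp only [aeval_X, if_pos heb]
      by_cases hbm : b ∈ M.mv A
      · rw [if_pos hbm, if_pos ((mem_jm M A e l he _).2 ⟨hbm, Or.inl heb⟩),
          if_pos ((mem_jm M A e l he _).2 ⟨hbm, Or.inl heb⟩), aeval_X]
        unfold MT.sm
        rw [if_pos heb, C_1, one_mul]
      · rw [if_neg hbm, if_neg fun h => hbm ((mem_jm M A e l he _).1 h).1,
          if_neg fun h => hbm ((mem_jm M A e l he _).1 h).1, aeval_C, algebraMap_eq, ← C_add]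
        congr 1
        simp [gl]
    · rw [hs0 b (hQv b hb) heb, hf0 _ b (hQv b hb) heb]
    · rw [hf0 _ b (hQv b hb) heb, hf0 _ b (hQv b hb) heb]
  · have hs : M.sm e l⁻¹ p q a = X (default, a) := if_neg hea
    rw [hs, sc_j M A c e l hT hO hZ hM hJ he hc _ _ a ha (Or.inr rfl)]
    have hd : ¬ ((default : K4).1 = true) := by decide
    rw [if_neg hd, if_neg hd, one_mul]
    congr 1
    refine ae_cg _ _ _ fun b hb => ?_
    have heb : e ∉ M.col b := by
      intro heb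
      obtain ⟨m, hm, hbm⟩ := (mem_vars_iff_mem_support _).1 hb
      have := hQt m hm
      rw [if_neg hea] at this
      exact (dg_ne M.col e m).2 ⟨b, hbm, heb⟩ (Nat.le_zero.1 this)
    rw [hs0 b (hQv b hb) heb, hf0 _ b (hQv b hb) heb]

theorem isz_sm (p q : Bool) (F : MvPolynomial ι ℝ) (hF : IsZ F) :
    L1.IsInt (aeval (M.sm e 1 p q) F) := by
  refine L1.IsInt.aeval hF fun b => ?_
  unfold MT.sm
  split_ifs
  · rw [C_1, one_mul]
    exact (L1.isInt_X _).add (L1.isInt_X _)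
  · exact L1.isInt_X _

theorem nrm_sm (s H : ℝ) (hs : |s| ≤ 1) (p q : Bool) (y : ι → ℤ) (F : MvPolynomial ι ℝ)
    (hF : (M.fib A y).Tl c F) (hH : l1 F ≤ H) :
    L1.nrm (aeval (M.sm e s p q) F) ≤ 2 ^ Fintype.card Γ * H := by
  have hd := deg_le (M.fib A y).col F (fun b hb => (mem_filter.1 (hF.1 hb)).2) hF.2.1
  have := L1.nrm_aeval_le (f := M.sm e s p q) (M := 2) one_le_two (fun b => by
    unfold MT.sm
    split_ifs
    · refine (L1.nrm_add_le _ _).trans ?_
      rw [L1.nrm_C_mul, L1.nrm_X, L1.nrm_X]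
      linarith
    · rw [L1.nrm_X]
      exact one_le_two) hd
  refine this.trans ?_
  rw [mul_comm]
  exact mul_le_mul_of_nonneg_left hH (by positivity)

end JaP

open JaP in
theorem ja (hT : TOK) (hO : OPS) (hZ : FRZ) (hK : JOK) : JA := by
  intro ι Γ _ _ _ _ M A c e l H x y hM hl hI he hc hU I b hb h0
  have hJ := (hK ι Γ M e l hM hl).1
  have hp : ∀ p q, aeval (M.sm e 1 p q) ((M.fib A (x p + y q)).ph c (b p q)) =
      ((M.jt e l).fib (A0 A) (gl x y)).ph (c, default) (aeval (M.sm e l⁻¹ p q) (b p q)) := by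
    intro p q
    rw [hom_ae (((M.jt e l).fib (A0 A) (gl x y)).ph (c, default))]
    unfold MT.ph
    rw [hom_ae]
    exact ae_cg _ _ _ fun a ha => key M A c e l hT hO hZ hM hJ hl hI he hc x y p q a
      ((hb p q).2.2.1.1 ha)
  have hs : |l⁻¹| ≤ 1 := by
    rw [abs_of_nonneg (inv_nonneg.2 (by linarith))]
    exact inv_le_one_of_one_le₀ hl
  have tI := fun p q => tl_sm M A c e l he 1 p q _ (gl x y) _ (hb p q).2.1
  have tb := fun p q => tl_sm M A c e l he l⁻¹ p q _ (gl x y) _ (hb p q).2.2.1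
  have zI := fun p q => isz_sm M e p q _ (hb p q).1
  have nb := fun p q => nrm_sm M A c e l⁻¹ H hs p q _ _ (hb p q).2.2.1 (hb p q).2.2.2
  have := hU (M.alt e 1 I) (-M.alt e l⁻¹ b)
    ((((zI _ _).sub (zI _ _)).sub (zI _ _)).add (zI _ _))
    (tl_add _ _ (tl_sub _ _ (tl_sub _ _ (tI _ _) (tI _ _)) (tI _ _)) (tI _ _))
    (tl_neg _ _ (tl_add _ _ (tl_sub _ _ (tl_sub _ _ (tb _ _) (tb _ _)) (tb _ _)) (tb _ _)))
    (by
      show L1.nrm _ ≤ _
      rw [L1.nrm_neg]
      unfold MT.alt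
      refine (L1.nrm_add_le _ _).trans ?_
      have h1 := L1.nrm_sub_le (aeval (M.sm e l⁻¹ false false) (b false false) -
        aeval (M.sm e l⁻¹ false true) (b false true)) (aeval (M.sm e l⁻¹ true false) (b true false))
      have h2 := L1.nrm_sub_le (aeval (M.sm e l⁻¹ false false) (b false false))
        (aeval (M.sm e l⁻¹ false true) (b false true))
      linarith [nb false false, nb false true, nb true false, nb true true])
    (by
      unfold MT.alt at h0 ⊢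
      simp only [map_add, hp] at h0
      simp only [map_neg, map_add, map_sub]
      linear_combination h0)
  exact neg_eq_zero.1 this.2

end

end Vale.Agent.P057T.Mt
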