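import Vale.Agent.P057T.Mt.Seq
import Vale.Agent.P057T.Mt.Ops
import Vale.Agent.P057T.Mt.Emb

/-! Row JOK: the joint tower is a tower and embeds in the tower of four copies. -/

set_option linter.all false

open MvPolynomial Finset

namespace Vale.Agent.P057T.Mt

open Vale.Agent.P057T.Eq Vale.Agent.P057T.Cp

namespace Jk

variable {ι Γ : Type} [Fintype ι] [DecidableEq ι] [Fintype Γ] [DecidableEq Γ]

/-- the copy `k` of the colour `e`, the default copy of the others -/
def fk (e : Γ) (k : K4) : Γ → K4 := fun c => if c = e then k else default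

variable (M : MT ι Γ) (e : Γ) (l : ℝ)

theorem fk_vk (k : K4) {a : ι} {c : Γ} (hc : c ∈ M.col a) : fk e (M.vk e k a).1 c = fk e k c := by
  unfold fk MT.vk
  by_cases h : c = e
  · rw [if_pos h, if_pos h, if_pos (h ▸ hc)]
  · rw [if_neg h, if_neg h]

theorem vk_inj (k : K4) : Function.Injective (M.vk e k) := fun _ _ h => congrArg Prod.snd h

theorem col_vk (k : K4) (a : ι) :
    (M.jt e l).col (M.vk e k a) = (M.col a).image fun c => (c, fk e k c) :=
  Finset.image_congr fun c hc => congrArg (Prod.mk c) (fk_vk M e k (mem_coe.1 hc))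

theorem vx_vk (k : K4) (a : ι) : vx M.col (fk e (M.vk e k a).1) a = vx M.col (fk e k) a := by
  refine Subtype.ext (Prod.ext rfl (funext fun c => ?_))
  show rs (M.col a) _ c = rs (M.col a) _ c
  unfold rs
  by_cases hc : c ∈ M.col a
  · rw [if_pos hc, if_pos hc, fk_vk M e k hc]
  · rw [if_neg hc, if_neg hc]

theorem mem_U (x : K4 × ι) : x ∈ (M.jt e l).U ↔ x.2 ∈ M.U ∧ (e ∈ M.col x.2 ∨ x.1 = default) :=
  ⟨fun h => (mem_filter.1 h).2, fun h => mem_filter.2 ⟨mem_univ _, h⟩⟩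

theorem vk_mem (k : K4) {a : ι} (ha : a ∈ M.U) : M.vk e k a ∈ (M.jt e l).U :=
  (mem_U M e l _).2 ⟨ha, (em _).imp id fun h => if_neg h⟩

theorem mem_col (k : K4) (a : ι) (c : Γ) (k' : K4) :
    (c, k') ∈ (M.jt e l).col (M.vk e k a) ↔ c ∈ M.col a ∧ fk e k c = k' := by
  rw [col_vk, mem_image]
  constructor
  · rintro ⟨c', h1, h2⟩
    obtain rfl : c' = c := congrArg Prod.fst h2
    exact ⟨h1, congrArg Prod.snd h2⟩
  · rintro ⟨h1, h2⟩
    exact ⟨c, h1, congrArg (Prod.mk c) h2⟩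

/-- degrees of a renamed monomial -/
theorem dg_vk (k : K4) (c : Γ) (k' : K4) (m : ι →₀ ℕ) :
    dg (M.jt e l).col (c, k') (m.mapDomain (M.vk e k)) =
      if fk e k c = k' then dg M.col c m else 0 := by
  unfold dg
  rw [Cpa.wt_map]
  simp only [mem_col]
  split_ifs with h
  · simp only [h, and_true]
  · simp only [h, and_false, if_false]
    rw [Finsupp.weight_apply]
    simp

theorem ty_vk (k : K4) {D : Finset Γ} {Q : MvPolynomial ι ℝ} (h : Ty M.col D Q) :
    Ty (M.jt e l).col (D.image fun c => (c, fk e k c)) (rename (M.vk e k) Q) := fun m hm ck => by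
  obtain ⟨c, k'⟩ := ck
  obtain ⟨m', rfl, h1⟩ := coeff_rename_ne_zero _ _ m (mem_support_iff.1 hm)
  rw [dg_vk]
  split_ifs with h2 h3 h3
  · exact (h m' (mem_support_iff.2 h1) c).trans (by split_ifs <;> simp)
  · have h4 : c ∉ D := fun h4 => h3 (mem_image.2 ⟨c, h4, by rw [h2]⟩)
    have h5 := h m' (mem_support_iff.2 h1) c
    rwa [if_neg h4] at h5
  · exact Nat.zero_le _
  · exact le_rfl

theorem kp_vk (k : K4) (D : Finset Γ) (F : MvPolynomial ι ℝ) :
    kp (M.jt e l).col (D.image fun c => (c, fk e k c)) (rename (M.vk e k) F) =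
      rename (M.vk e k) (kp M.col D F) := by
  refine (EmbP.kp_rename (vk_inj M e k) (fun m => ?_) F).symm
  rw [Finset.forall_mem_image]
  have d : ∀ c, dg (M.jt e l).col (c, fk e k c) (m.mapDomain (M.vk e k)) = dg M.col c m :=
    fun c => (dg_vk M e l k c _ m).trans (if_pos rfl)
  exact ⟨fun h c hc => d c ▸ h hc, fun h c hc => (d c).symm ▸ h c hc⟩

/-- the polynomial before renaming -/
noncomputable def pp (x : K4 × ι) : MvPolynomial ι ℝ :=
  if x.1.1 = true then kp M.col ({e} ∩ M.col x.2) (M.p x.2) else M.p x.2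

theorem dv_pp (x : K4 × ι) : Op.Dv (M.p x.2) (pp M e x) := by
  unfold pp
  split_ifs
  · exact Op.dv_kp _ _ _
  · exact Op.dv_refl _

theorem kp_pp (x : K4 × ι) : kp M.col (M.col x.2) (pp M e x) = kp M.col (M.col x.2) (M.p x.2) := by
  unfold pp
  split_ifs
  · exact EmbP.kp_kp M.col inter_subset_right _
  · rfl

theorem jt_ne {x y : K4 × ι} (h : (M.jt e l).A x y ≠ 0 ∨ (M.jt e l).B x y ≠ 0) :
    x.1 = y.1 ∧ (M.A x.2 y.2 ≠ 0 ∨ M.B x.2 y.2 ≠ 0) := by
  by_cases h1 : x.1 = y.1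
  · exact ⟨h1, h.imp (fun h k => h ((if_pos h1).trans k)) fun h k => h ((if_pos h1).trans k)⟩
  · exact absurd h (not_or.2 ⟨fun h => h (if_neg h1), fun h => h (if_neg h1)⟩)

variable {M}

theorem jt_ok (h : M.Ok) (hl : 1 ≤ l) : (M.jt e l).Ok where
  w1 := fun x => h.w1 _
  AB := by
    ext x z
    have e1 : ∀ y : K4 × ι, (M.jt e l).A x y * (M.jt e l).B y z =
        if x.1 = y.1 then (if x.1 = z.1 then M.A x.2 y.2 * M.B y.2 z.2 else 0) else 0 := fun y => by
      show (if x.1 = y.1 then M.A x.2 y.2 else 0) * (if y.1 = z.1 then M.B y.2 z.2 else 0) = _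
      by_cases h1 : x.1 = y.1
      · rw [if_pos h1, if_pos h1, ← h1, mul_ite, mul_zero]
      · rw [if_neg h1, if_neg h1, zero_mul]
    rw [Matrix.mul_apply, Fintype.sum_prod_type, Finset.sum_comm]
    simp only [e1, Finset.sum_ite_eq, mem_univ, if_true]
    by_cases h1 : x.1 = z.1
    · simp only [if_pos h1]
      rw [← Matrix.mul_apply, h.AB, Matrix.one_apply, Matrix.one_apply]
      exact if_congr ⟨fun k => Prod.ext h1 k, fun k => congrArg Prod.snd k⟩ rfl rfl
    · simp only [if_neg h1, Finset.sum_const_zero]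
      exact (Matrix.one_apply_ne fun k => h1 (congrArg Prod.fst k)).symm
  blk := fun x y hxy => by
    obtain ⟨h1, h2⟩ := jt_ne M e l hxy
    refine ⟨(h.blk _ _ h2).1, ?_⟩
    show (M.col x.2).image (fun c => (c, fk e x.1 c)) = (M.col y.2).image fun c => (c, fk e y.1 c)
    rw [h1, (h.blk _ _ h2).2]
  bk := fun x y hxy => by
    obtain ⟨h1, h2⟩ := jt_ne M e l hxy
    rw [mem_U, mem_U, h.bk _ _ h2, (h.blk _ _ h2).2, h1]
  pv := fun x hx y hy => by
    obtain ⟨b, hb, rfl⟩ := mem_vars_rename _ _ hy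
    exact vk_mem M e l _ (h.pv _ ((mem_U M e l x).1 hx).1 ((dv_pp M e x).vars hb))
  pd := fun x hx m hm => Cpa.wt_ren (M.vk e x.1) (M.jt e l).w (pp M e x)
    (fun n => n < M.w x.2)
    (fun m' h' => (dv_pp M e x).dl (G := M.G) (h.w1 _) (h.pd _ ((mem_U M e l x).1 hx).1) m'
      (mem_support_iff.2 h')) m (mem_support_iff.1 hm)
  ty := fun x hx => ty_vk M e l x.1 ((dv_pp M e x).ty (h.ty _ ((mem_U M e l x).1 hx).1))
  ne := fun x hx => (h.ne _ ((mem_U M e l x).1 hx).1).image _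
  sg := fun x => mul_pos (by split_ifs <;> linarith) (h.sg _)

theorem fst_eq {x y : K4 × ι} (hx : x ∈ (M.jt e l).U) (hy : y ∈ (M.jt e l).U)
    (hc : M.col x.2 = M.col y.2) (k : rs (M.col x.2) (fk e x.1) = rs (M.col y.2) (fk e y.1)) :
    x.1 = y.1 := by
  by_cases he : e ∈ M.col x.2
  · have := congrFun k e
    have he' : e ∈ M.col y.2 := hc ▸ he
    simpa only [rs, fk, if_pos he, if_pos he', if_true] using this
  · exact (((mem_U M e l x).1 hx).2.resolve_left he).trans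
      (((mem_U M e l y).1 hy).2.resolve_left (hc ▸ he)).symm

theorem ent {x y : K4 × ι} (hx : x ∈ (M.jt e l).U) (hy : y ∈ (M.jt e l).U) {A : Matrix ι ι ℝ}
    (hA : A x.2 y.2 ≠ 0 → M.col x.2 = M.col y.2) :
    (if x.1 = y.1 then A x.2 y.2 else 0) =
      cm M.col K4 A (vx M.col (fk e x.1) x.2) (vx M.col (fk e y.1) y.2) := by
  show _ = if rs (M.col x.2) (fk e x.1) = rs (M.col y.2) (fk e y.1) then A x.2 y.2 else 0
  by_cases h0 : A x.2 y.2 = 0
  · rw [h0, ite_self, ite_self]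
  · exact if_congr ⟨fun k => by rw [hA h0, k], fst_eq e l hx hy (hA h0)⟩ rfl rfl

theorem mem_img (u : CV M.col K4) :
    u ∈ (M.jt e l).U.image (fun x => vx M.col (fk e x.1) x.2) ↔
      u.1.1 ∈ M.U ∧ ∃ k, u.1.2 = rs (M.col u.1.1) (fk e k) := by
  rw [mem_image]
  constructor
  · rintro ⟨x, hx, rfl⟩
    exact ⟨((mem_U M e l x).1 hx).1, x.1, rfl⟩
  · rintro ⟨h1, k, h2⟩
    exact ⟨M.vk e k u.1.1, vk_mem M e l k h1,
      (vx_vk M e k u.1.1).trans (Subtype.ext (Prod.ext rfl h2.symm))⟩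

theorem jt_emb (h : M.Ok) (hl : 1 ≤ l) :
    Emb (M.jt e l) (M.cpy K4) (fun x => vx M.col (fk e x.1) x.2) id l where
  ij := fun x hx y hy k => by
    have h2 : x.2 = y.2 := congrArg (fun u : CV M.col K4 => u.1.1) k
    exact Prod.ext (fst_eq e l hx hy (congrArg M.col h2)
      (congrArg (fun u : CV M.col K4 => u.1.2) k)) h2
  iγ := Function.injective_id
  U := fun x hx => (Op.mem_U M _).2 ((mem_U M e l x).1 hx).1
  col := fun x _ => (EmbP.col_vx M _ _).trans image_id.symm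
  A := fun x hx y hy => ⟨ent e l hx hy fun k => (h.blk _ _ (Or.inl k)).2,
    ent e l hx hy fun k => (h.blk _ _ (Or.inr k)).2⟩
  bk := fun u v huv => by
    obtain ⟨h1, h2⟩ := Op.cpy_ne M huv
    rw [mem_img, mem_img, h.bk _ _ h2, (h.blk _ _ h2).2, h1]
  p := fun x hx => by
    refine Eq.trans ?_ ((EmbP.cpy h (Op.colT h) (fk e x.1)).p x.2 ((mem_U M e l x).1 hx).1)
    show rename (fun x : K4 × ι => vx M.col (fk e x.1) x.2) (kp (M.jt e l).col
        (univ ∩ (M.col x.2).image fun c => (c, fk e x.1 c)) (rename (M.vk e x.1) (pp M e x))) =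
      rename (vx M.col (fk e x.1)) (kp M.col (univ ∩ M.col x.2) (M.p x.2))
    rw [univ_inter, univ_inter, kp_vk, kp_pp, rename_rename]
    exact Cpa.ren_congr fun a _ => vx_vk M e x.1 a
  sg := fun x _ => mul_le_mul_of_nonneg_right (by split_ifs <;> linarith) (h.sg _).le

end Jk

theorem jok0 : JOK := fun _ _ _ _ _ _ _ e l h hl => ⟨Jk.jt_ok e l h hl, Jk.jt_emb e l h hl⟩

theorem jok (_ : TOK) : JOK := jok0

end Vale.Agent.P057T.Mt
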