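import Vale.Agent.P057T.Mt.Seq
import Vale.Agent.P057T.Eq.Summ

/-! Row `JP`: the base of the joint tower is a product. -/

set_option linter.all false

open MvPolynomial Finset Matrix
open scoped Real

namespace Vale.Agent.P057T.Mt

open Vale.Agent.P057T.Eq Vale.Agent.P057T.Cp

noncomputable section

namespace JpP

theorem fub2 {α β : Type} {ν : α → ℝ} {μ : β → ℝ} (hν : Summable ν) (hμ : Summable μ)
    (ν0 : ∀ a, 0 ≤ ν a) (μ0 : ∀ b, 0 ≤ μ b) (h : α × β → ℝ) (B : ℝ) (hB : ∀ p, |h p| ≤ B) :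
    ∑' p : α × β, ν p.1 * μ p.2 * h p = ∑' a, ν a * ∑' b, μ b * h (a, b) := by
  have h1 : Summable fun p : α × β => ν p.1 * μ p.2 := Summable.mul_of_nonneg hν hμ ν0 μ0
  have h2 : Summable fun p : α × β => ν p.1 * μ p.2 * h p :=
    Summable.of_norm_bounded (h1.mul_right B) fun p => by
      rw [norm_mul, Real.norm_of_nonneg (mul_nonneg (ν0 _) (μ0 _))]
      exact mul_le_mul_of_nonneg_left (hB p) (mul_nonneg (ν0 _) (μ0 _))
  rw [h2.tsum_prod]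
  refine tsum_congr fun a => ?_
  rw [← tsum_mul_left]
  exact tsum_congr fun b => mul_assoc _ _ _

theorem fub4 {α : Type} {ν μ : α → ℝ} (hν : Summable ν) (hμ : Summable μ)
    (ν0 : ∀ a, 0 ≤ ν a) (μ0 : ∀ b, 0 ≤ μ b) (h : α × α × α × α → ℝ) (B : ℝ) (hB : ∀ p, |h p| ≤ B)
    (c d : ℝ) :
    (c * c * d * d)⁻¹ * ∑' p : α × α × α × α, ν p.1 * (ν p.2.1 * (μ p.2.2.1 * μ p.2.2.2)) * h p =
      c⁻¹ * ∑' a0, ν a0 * (c⁻¹ * ∑' a1, ν a1 * (d⁻¹ * ∑' b0, μ b0 *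
        (d⁻¹ * ∑' b1, μ b1 * h (a0, a1, b0, b1)))) := by
  have s2 : Summable fun p : α × α => μ p.1 * μ p.2 := Summable.mul_of_nonneg hμ hμ μ0 μ0
  have p2 : ∀ p : α × α, 0 ≤ μ p.1 * μ p.2 := fun p => mul_nonneg (μ0 _) (μ0 _)
  have s3 : Summable fun p : α × α × α => ν p.1 * (μ p.2.1 * μ p.2.2) :=
    Summable.mul_of_nonneg (f := ν) (g := fun p : α × α => μ p.1 * μ p.2) hν s2 ν0 p2
  have e4 : ∀ (c : ℝ) (f g : α → ℝ), ∑' z, f z * (c * g z) = c * ∑' z, f z * g z :=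
    fun c f g => by
      rw [← tsum_mul_left]
      exact tsum_congr fun z => by ring
  have e1 := fub2 (μ := fun p : α × α × α => ν p.1 * (μ p.2.1 * μ p.2.2)) hν s3 ν0
    (fun p => mul_nonneg (ν0 _) (p2 _)) h B hB
  have e2 := fun a0 => fub2 (μ := fun p : α × α => μ p.1 * μ p.2) hν s2 ν0 p2
    (fun p => h (a0, p)) B fun p => hB _
  have e3 := fun a0 a1 => fub2 hμ hμ μ0 μ0 (fun p => h (a0, a1, p)) B fun p => hB _
  rw [e1]
  simp only [e2, e3, e4]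
  rw [mul_inv, mul_inv, mul_inv]
  ring

theorem ev_congr {σ : Type} [DecidableEq σ] {f g : σ → ℝ} {F : MvPolynomial σ ℝ}
    (h : ∀ a ∈ F.vars, f a = g a) : eval f F = eval g F :=
  hom_congr_vars (f₁ := eval f) (f₂ := eval g) (by ext; simp) (fun i hi _ => by simp [h i hi]) rfl

variable {ι Γ : Type} [Fintype ι] [DecidableEq ι] [Fintype Γ] [DecidableEq Γ]

theorem sm_nu (hT : TOK) {M : MT ι Γ} (h : M.Ok) : Summable fun z : Lat M.U => M.nu z.1 := by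
  obtain ⟨⟨s, P, hP, h1, h2⟩, -⟩ := hT ι Γ M h
  exact summ s ι M.G M.T P h1 hP h2

theorem en_eq (M : MT ι Γ) (h : (ι → ℤ) → ℝ) :
    M.En h = M.mn⁻¹ * ∑' z : Lat M.U, M.nu z.1 * h z.1 := rfl

def Mk (M : MT ι Γ) (A : Finset Γ) (e : Γ) (l : ℝ) (k : K4) : MT ι Γ :=
  cond k.1 ((M.bs A).nw e l) (M.bs A)

variable {M : MT ι Γ} {A : Finset Γ} {e : Γ} {l : ℝ}

theorem mem_bs {a : ι} : a ∈ (M.bs A).U ↔ a ∈ M.U ∧ ¬ (M.col a ∩ A).Nonempty := by
  show a ∈ M.U \ M.mv A ↔ _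
  rw [mem_sdiff, MT.mv, mem_filter]
  tauto

theorem col_e (hM : M.Ok) (hI : M.In (insert e A)) {a : ι} (ha : a ∈ (M.bs A).U) : e ∈ M.col a := by
  obtain ⟨h1, h2⟩ := mem_bs.1 ha
  obtain ⟨c, hc⟩ := hM.ne a h1
  rcases mem_insert.1 (hI a h1 hc) with h | h
  · exact h ▸ hc
  · exact absurd ⟨c, mem_inter.2 ⟨hc, h⟩⟩ h2

theorem hU (hM : M.Ok) (hI : M.In (insert e A)) (he : e ∉ A) :
    ((M.jt e l).bs (A0 A)).U = univ ×ˢ (M.bs A).U := by
  ext x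
  rw [mem_bs, mem_product]
  have h1 : ((M.jt e l).col x ∩ A0 A).Nonempty ↔ (M.col x.2 ∩ A).Nonempty := by
    constructor
    · rintro ⟨v, hv⟩
      obtain ⟨h1, h2⟩ := mem_inter.1 hv
      obtain ⟨c, hc, rfl⟩ := mem_image.1 h1
      obtain ⟨c', hc', h3⟩ := mem_image.1 h2
      exact ⟨c, mem_inter.2 ⟨hc, (show c' = c from (Prod.ext_iff.1 h3).1) ▸ hc'⟩⟩
    · rintro ⟨c, hc⟩
      obtain ⟨h1, h2⟩ := mem_inter.1 hc
      refine ⟨(c, default), mem_inter.2 ⟨mem_image.2 ⟨c, h1, ?_⟩, mem_image.2 ⟨c, h2, rfl⟩⟩⟩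
      rw [if_neg fun h : c = e => he (h ▸ h2)]
  rw [h1]
  constructor
  · rintro ⟨h2, h3⟩
    exact ⟨mem_univ _, mem_bs.2 ⟨(mem_filter.1 h2).2.1, h3⟩⟩
  · rintro ⟨-, h2⟩
    exact ⟨mem_filter.2 ⟨mem_univ _, (mem_bs.1 h2).1, Or.inl (col_e hM hI h2)⟩, (mem_bs.1 h2).2⟩

theorem mk_U (k : K4) : (Mk M A e l k).U = (M.bs A).U := by
  obtain ⟨k1, k2⟩ := k
  cases k1 <;> rfl

theorem nu_eq (hM : M.Ok) (hI : M.In (insert e A)) (he : e ∉ A) (hk : ∀ k, (Mk M A e l k).Ok)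
    (z : K4 × ι → ℤ) :
    ((M.jt e l).bs (A0 A)).nu z = ∏ k : K4, (Mk M A e l k).nu fun a => z (k, a) := by
  unfold MT.nu GT.nu
  rw [← Real.exp_sum, ← mul_sum]
  congr 2
  show ∑ x ∈ ((M.jt e l).bs (A0 A)).U, _ = _
  rw [hU hM hI he, sum_product]
  refine sum_congr rfl fun k _ => ?_
  show _ = ∑ a ∈ (Mk M A e l k).U, _
  rw [mk_U]
  refine sum_congr rfl fun a ha => ?_
  have h1 : ((M.jt e l).bs (A0 A)).T.sg (k, a) = (Mk M A e l k).T.sg a := by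
    obtain ⟨k1, k2⟩ := k
    cases k1
    · exact one_mul _
    · rfl
  have h2 : ((M.jt e l).bs (A0 A)).T.p (k, a) = rename (M.vk e k) ((Mk M A e l k).T.p a) := by
    obtain ⟨k1, k2⟩ := k
    cases k1 <;> rfl
  have h3 : ∀ b, (Mk M A e l k).G.A a b = M.A a b := by
    obtain ⟨k1, k2⟩ := k
    cases k1 <;> exact fun _ => rfl
  have h4 : ∀ b, (Mk M A e l k).G.q b = 0 := fun _ => rfl
  have h5 : ∀ y, ((M.jt e l).bs (A0 A)).G.q y = 0 := fun _ => rfl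
  have h6 : ∀ y, ((M.jt e l).bs (A0 A)).G.A (k, a) y = if k = y.1 then M.A a y.2 else 0 :=
    fun _ => rfl
  rw [h1]
  congr 2
  unfold GT.ch GT.th
  rw [map_add, map_add, h2, eval_rename]
  congr 1
  · simp only [map_sum, h3, h4, h5, h6, map_mul, eval_C, sub_zero, eval_X]
    rw [Fintype.sum_prod_type, sum_eq_single k
      (fun k' _ h => sum_eq_zero fun b _ => by rw [if_neg (Ne.symm h), zero_mul])
      (fun h => absurd (mem_univ _) h)]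
    exact sum_congr rfl fun b _ => by rw [if_pos rfl]; rfl
  · refine ev_congr fun b hb => ?_
    have h7 := (hk k).pv a (by rw [mk_U]; exact ha) hb
    rw [mk_U] at h7
    simp only [Function.comp, cz, MT.vk, if_pos (col_e hM hI h7)]

def phi (V : Finset ι) : V × K4 ≃ (univ ×ˢ V : Finset (K4 × ι)) where
  toFun p := ⟨(p.2, p.1.1), mem_product.2 ⟨mem_univ _, p.1.2⟩⟩
  invFun x := (⟨x.1.2, (mem_product.1 x.2).2⟩, x.1.1)
  left_inv _ := rfl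
  right_inv _ := rfl

theorem mn_eq (hM : M.Ok) (hI : M.In (insert e A)) (he : e ∉ A) :
    ((M.jt e l).bs (A0 A)).mn = ∏ k : K4, (Mk M A e l k).mn := by
  show ((M.jt e l).bs (A0 A)).G.mn _ ((M.jt e l).bs (A0 A)).U = _
  rw [hU hM hI he]
  unfold MT.mn Mn GT.mn GT.dv
  rw [prod_mul_distrib, prod_product, ← det_submatrix_equiv_self (phi (M.bs A).U)]
  congr 1
  · have e1 : ((((M.jt e l).bs (A0 A)).G.B.submatrix
        (Subtype.val : (univ ×ˢ (M.bs A).U : Finset (K4 × ι)) → K4 × ι) Subtype.val).submatrix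
        (phi (M.bs A).U) (phi (M.bs A).U)) = blockDiagonal fun _ : K4 =>
        M.B.submatrix (Subtype.val : (M.bs A).U → ι) Subtype.val := by
      ext ⟨v, k⟩ ⟨v', k'⟩
      rw [blockDiagonal_apply]
      rfl
    rw [e1, det_blockDiagonal, abs_prod]
    refine prod_congr rfl fun k _ => ?_
    obtain ⟨k1, k2⟩ := k
    cases k1 <;> rfl
  · refine prod_congr rfl fun k _ => ?_
    obtain ⟨k1, k2⟩ := k
    cases k1
    · exact prod_congr rfl fun a _ => congrArg _ (one_mul _)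
    · rfl

def eq4 (V : Finset ι) : Lat V × Lat V × Lat V × Lat V ≃ Lat (univ ×ˢ V : Finset (K4 × ι)) where
  toFun p := ⟨gl (fun b => cond b p.2.1.1 p.1.1) (fun b => cond b p.2.2.2.1 p.2.2.1.1), by
    rintro ⟨⟨k1, k2⟩, a⟩ h
    have h1 : a ∉ V := fun h1 => h (mem_product.2 ⟨mem_univ _, h1⟩)
    cases k1 <;> cases k2
    · exact p.1.2 a h1
    · exact p.2.1.2 a h1
    · exact p.2.2.1.2 a h1
    · exact p.2.2.2.2 a h1⟩
  invFun z :=
    (⟨fun a => z.1 ((false, false), a), fun a h => z.2 _ fun h1 => h (mem_product.1 h1).2⟩,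
     ⟨fun a => z.1 ((false, true), a), fun a h => z.2 _ fun h1 => h (mem_product.1 h1).2⟩,
     ⟨fun a => z.1 ((true, false), a), fun a h => z.2 _ fun h1 => h (mem_product.1 h1).2⟩,
     ⟨fun a => z.1 ((true, true), a), fun a h => z.2 _ fun h1 => h (mem_product.1 h1).2⟩)
  left_inv _ := rfl
  right_inv z := by
    ext ⟨⟨k1, k2⟩, a⟩
    cases k1 <;> cases k2 <;> rfl

theorem ex_eq (hM : M.Ok) (hI : M.In (insert e A)) (he : e ∉ A) (hk : ∀ k, (Mk M A e l k).Ok)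
    (h : (K4 × ι → ℤ) → ℝ) :
    ∑' z : Lat ((M.jt e l).bs (A0 A)).U, ((M.jt e l).bs (A0 A)).nu z.1 * h z.1 =
      ∑' p : Lat (M.bs A).U × Lat (M.bs A).U × Lat (M.bs A).U × Lat (M.bs A).U,
        (M.bs A).nu p.1.1 * ((M.bs A).nu p.2.1.1 *
          (((M.bs A).nw e l).nu p.2.2.1.1 * ((M.bs A).nw e l).nu p.2.2.2.1)) * h (eq4 _ p).1 := by
  rw [hU hM hI he, ← (eq4 (M.bs A).U).tsum_eq]
  refine tsum_congr fun p => ?_
  rw [nu_eq hM hI he hk, Fintype.prod_prod_type, Fintype.prod_bool, Fintype.prod_bool,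
    Fintype.prod_bool]
  have a1 : (Mk M A e l (true, true)).nu (fun a => (eq4 _ p).1 ((true, true), a)) =
    ((M.bs A).nw e l).nu p.2.2.2.1 := rfl
  have a2 : (Mk M A e l (true, false)).nu (fun a => (eq4 _ p).1 ((true, false), a)) =
    ((M.bs A).nw e l).nu p.2.2.1.1 := rfl
  have a3 : (Mk M A e l (false, true)).nu (fun a => (eq4 _ p).1 ((false, true), a)) =
    (M.bs A).nu p.2.1.1 := rfl
  have a4 : (Mk M A e l (false, false)).nu (fun a => (eq4 _ p).1 ((false, false), a)) =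
    (M.bs A).nu p.1.1 := rfl
  rw [a1, a2, a3, a4]
  ring

theorem mn_eq' (hM : M.Ok) (hI : M.In (insert e A)) (he : e ∉ A) :
    ((M.jt e l).bs (A0 A)).mn = (M.bs A).mn * (M.bs A).mn *
      ((M.bs A).nw e l).mn * ((M.bs A).nw e l).mn := by
  rw [mn_eq hM hI he, Fintype.prod_prod_type, Fintype.prod_bool, Fintype.prod_bool,
    Fintype.prod_bool]
  have a1 : ∀ b, Mk M A e l (true, b) = (M.bs A).nw e l := fun _ => rfl
  have a2 : ∀ b, Mk M A e l (false, b) = M.bs A := fun _ => rfl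
  simp only [a1, a2]
  ring

theorem e4_eq (M : MT ι Γ) (e : Γ) (l : ℝ) (h : (K4 × ι → ℤ) → ℝ) :
    (M.E4 e l fun x y => h (gl x y)) = M.mn⁻¹ * ∑' a0 : Lat M.U, M.nu a0.1 *
      (M.mn⁻¹ * ∑' a1 : Lat M.U, M.nu a1.1 * ((M.nw e l).mn⁻¹ * ∑' b0 : Lat M.U, (M.nw e l).nu b0.1 *
        ((M.nw e l).mn⁻¹ * ∑' b1 : Lat M.U, (M.nw e l).nu b1.1 * h (eq4 _ (a0, a1, b0, b1)).1))) := by
  unfold MT.E4
  simp only [en_eq]
  rfl

theorem nu0 (M : MT ι Γ) (z : ι → ℤ) : 0 ≤ M.nu z := (Real.exp_pos _).le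

theorem fin (hT : TOK) (M : MT ι Γ) (e : Γ) (l B : ℝ) (o0 : M.Ok) (o1 : (M.nw e l).Ok)
    (h : (K4 × ι → ℤ) → ℝ) (hB : ∀ z, |h z| ≤ B) :
    (M.mn * M.mn * (M.nw e l).mn * (M.nw e l).mn)⁻¹ *
      ∑' p : Lat M.U × Lat M.U × Lat M.U × Lat M.U, M.nu p.1.1 * (M.nu p.2.1.1 *
          ((M.nw e l).nu p.2.2.1.1 * (M.nw e l).nu p.2.2.2.1)) * h (eq4 _ p).1 =
      M.E4 e l fun x y => h (gl x y) := by
  have s0 : Summable fun z : Lat M.U => M.nu z.1 := sm_nu hT o0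
  have s1 : Summable fun z : Lat M.U => (M.nw e l).nu z.1 := sm_nu (M := M.nw e l) hT o1
  rw [e4_eq]
  exact fub4 (α := Lat M.U) (ν := fun z => M.nu z.1) (μ := fun z => (M.nw e l).nu z.1) s0 s1
    (fun _ => nu0 _ _) (fun _ => nu0 _ _) (fun p => h (eq4 _ p).1) B (fun p => hB _) _ _

end JpP

open JpP in
theorem jp (hT : TOK) (hO : OPS) : JP := by
  intro ι Γ _ _ _ _ M A e l B h hM hl hI he hB
  have o0 : (M.bs A).Ok := (hO ι Γ M hM).2.2.2.2.1 A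
  have o2 : ((M.bs A).dir {e}).Ok := ((hO ι Γ _ o0).1 {e}).1
  have o1 : ((M.bs A).nw e l).Ok :=
    ((hO ι Γ _ o2).2.1 (fun _ => l) fun _ => by linarith).1
  have hk : ∀ k, (Mk M A e l k).Ok := by
    rintro ⟨k1, k2⟩
    cases k1
    · exact o0
    · exact o1
  refine (en_eq _ h).trans ?_
  rw [ex_eq hM hI he hk, mn_eq' hM hI he]
  exact fin hT (M.bs A) e l B o0 o1 h hB

end

end Vale.Agent.P057T.Mt
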