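import Vale.Agent.P057T.Mt.Seq

/-! Almost all quadruples have uniqueness. -/

set_option linter.all false

open MvPolynomial Finset

namespace Vale.Agent.P057T.Mt

open Vale.Agent.P057T.Eq Vale.Agent.P057T.Cp

namespace JzP

variable {ι Γ : Type} [Fintype ι] [DecidableEq ι] [Fintype Γ] [DecidableEq Γ]

theorem step (hN : ENM) {M : MT ι Γ} (ok : M.Ok) {f g : (ι → ℤ) → ℝ} {B : ℝ}
    (h : ∀ z, |f z| ≤ B ∧ |g z| ≤ B ∧ f z ≤ g z) :
    |M.En f| ≤ B * M.nm ∧ |M.En g| ≤ B * M.nm ∧ M.En f ≤ M.En g := by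
  have h1 := (hN ι Γ M ok).1 f g B (fun z => (h z).1) fun z => (h z).2.1
  have h2 := (hN ι Γ M ok).1 g f B (fun z => (h z).2.1) fun z => (h z).1
  exact ⟨h1.2.2, h2.2.2, h1.1 fun z _ => (h z).2.2⟩

theorem e4_mono (hO : OPS) (hN : ENM) {M : MT ι Γ} (ok : M.Ok) (e : Γ) {l : ℝ} (l0 : 0 < l)
    {f g : (Bool → ι → ℤ) → (Bool → ι → ℤ) → ℝ} {B : ℝ}
    (h : ∀ x y, |f x y| ≤ B ∧ |g x y| ≤ B ∧ f x y ≤ g x y) : M.E4 e l f ≤ M.E4 e l g := by
  have d0 := ((hO ι Γ M ok).1 {e}).1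
  have w0 : (M.nw e l).Ok := ((hO ι Γ _ d0).2.1 (fun _ => l) fun _ => l0).1
  exact (step hN ok fun a0 => step hN ok fun a1 => step hN w0 fun b0 => step hN w0 fun b1 =>
    h _ _).2.2

theorem ind_le (p : Prop) : |ind p| ≤ 1 := by
  unfold ind
  split_ifs <;> simp

end JzP

open JzP in
theorem jz (hO : OPS) (hN : ENM) (hM : THM) (hF : FIBT) (hZ : ZR) (hJ : JOK) (hP : JP) (hA : JA)
    (r : ℕ) : JZ r := by
  obtain ⟨C, hZ⟩ := hZ (4 * r)
  refine ⟨3 * C + 4 * r + 2, ?_⟩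
  intro ι Γ _ _ _ _ M A c e N H l Λ d ok hr hι N2 H1 l1' hΛ th hin he hc
  obtain ⟨jo, je⟩ := hJ ι Γ M e l ok l1'
  have l0 : 0 < l := by linarith
  have N1 : 1 ≤ N := by linarith
  have n3 : (4 * N) ^ C ≤ N ^ (3 * C) := by
    rw [pow_mul]
    refine pow_le_pow_left₀ (by linarith) ?_ C
    nlinarith [mul_le_mul N2 N2 (by norm_num) (by linarith : 0 ≤ N)]
  have p0 : 0 < (4 * N) ^ C := by positivity
  have r1 : (4 : ℝ) * 2 ^ Fintype.card Γ ≤ N ^ (4 * r + 2) := by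
    calc (4 : ℝ) * 2 ^ Fintype.card Γ = 2 ^ (Fintype.card Γ + 2) := by ring
      _ ≤ 2 ^ (4 * r + 2) := pow_le_pow_right₀ (by norm_num) (by omega)
      _ ≤ _ := pow_le_pow_left₀ (by norm_num) N2 _
  have cK : Fintype.card (Γ × K4) ≤ 4 * r := by
    simp only [Fintype.card_prod, Fintype.card_bool]
    omega
  have r2 : (2 : ℝ) ^ Fintype.card (Γ × K4) + 1 ≤ N ^ (4 * r + 2) := by
    have h1 : (2 : ℝ) ^ Fintype.card (Γ × K4) ≤ 2 ^ (4 * r) := pow_le_pow_right₀ (by norm_num) cK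
    have h2 : (1 : ℝ) ≤ 2 ^ (4 * r) := one_le_pow₀ (by norm_num)
    have h3 : (2 : ℝ) ^ (4 * r + 2) ≤ N ^ (4 * r + 2) := pow_le_pow_left₀ (by norm_num) N2 _
    rw [pow_add] at h3
    linarith
  have hL : (4 * N) ^ C * (4 * 2 ^ Fintype.card Γ * H) ≤ Λ / l := by
    rw [le_div_iff₀ l0]
    refine le_trans ?_ hΛ
    rw [← mul_assoc, add_assoc, pow_add]
    exact mul_le_mul_of_nonneg_right (mul_le_mul_of_nonneg_right
      (mul_le_mul n3 r1 (by positivity) (by positivity)) (by linarith)) l0.le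
  have H2 : 1 ≤ 4 * 2 ^ Fintype.card Γ * H := by
    have : (1 : ℝ) ≤ 2 ^ Fintype.card Γ := one_le_pow₀ (by norm_num)
    nlinarith
  have L1 : 1 ≤ Λ / l :=
    le_trans (one_le_mul_of_one_le_of_one_le (one_le_pow₀ (by linarith)) H2) hL
  have a := hM ι Γ _ _ K4 (M.jt e l) M _ _ 3 l Λ d jo ok l0 je th
  have d0 : 0 ≤ d := (a.1 (by simp) (by rwa [le_div_iff₀ l0, one_mul] at L1)).1
  have jt := a.2 0 (Λ / l) (by simp) (by linarith) (le_of_eq (div_mul_cancel₀ _ l0.ne'))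
  have fb := hF _ _ (M.jt e l) (A0 A) 0 (Λ / l) d ((4 * N) ^ C)⁻¹ jo L1 (inv_pos.2 p0) jt
  rw [hP ι Γ M A e l 1 _ ok l1' hin he (fun z => by split_ifs <;> simp)] at fb
  refine le_trans (e4_mono hO hN ((hO ι Γ M ok).2.2.2.2.1 A) e l0 (B := 1) fun x y =>
    ⟨ind_le _, by split_ifs <;> simp, ?_⟩) (fb.trans ?_)
  · split_ifs with h
    · have fo := ((hO _ _ _ jo).2.2.2.2.2.1 (A0 A) (gl x y)).1
      have u : ((M.jt e l).fib (A0 A) (gl x y)).Uq (c, default) (4 * 2 ^ Fintype.card Γ * H) :=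
        fun I b hI tI tb hb hE => hZ _ _ _ (c, default) (4 * N) _ (Λ / l) _ I b fo cK
          (by
            simp only [Fintype.card_prod, Fintype.card_bool]
            push_cast
            linarith) (by linarith) H2 hL (le_of_eq (mul_inv_cancel₀ p0.ne')) h hI tI.1 tb.1
          tI.2.1 tb.2.1 tI.2.2 tb.2.2 hb hE
      have z := hA ι Γ M A c e l H x y ok l1' hin he hc u
      unfold ind
      rw [if_neg (not_not.2 z)]
    · exact (le_abs_self _).trans (ind_le _)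
  · rw [div_inv_eq_mul, mul_right_comm, add_assoc, pow_add, mul_comm (N ^ (3 * C))]
    exact mul_le_mul_of_nonneg_right (mul_le_mul r2 n3 p0.le (by positivity)) d0

end Vale.Agent.P057T.Mt
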