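import Vale.Agent.P057T.Mt.Seq
import Vale.Agent.P057T.Mt.One

/-! Row LAT: a tower with one colour is a lattice. -/

open MvPolynomial Finset Matrix
open scoped Real
open Vale.Agent.P267.H775 Vale.Agent.P057T.Poi

namespace Vale.Agent.P057T.Mt

open Vale.Agent.P057T.Eq Vale.Agent.P057T.Cp OneP

set_option linter.unusedSectionVars false

noncomputable section

namespace LatP

variable {ι Γ : Type} [Fintype ι] [DecidableEq ι] [Fintype Γ] [DecidableEq Γ] {M : MT ι Γ} {c : Γ}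

theorem lm_xc (hT : TOK) (hM : M.Ok) (a : M.U) :
    (lm M *ᵥ xc M) a = M.sg a * coeff 0 (M.p a) := by
  rw [xc, mulVec_mulVec, mul_nonsing_inv _ (isUnit_iff_ne_zero.2 (det_lm hT hM).1), one_mulVec]

theorem sc_eq (hT : TOK) (hM : M.Ok) (hc : ∀ a ∈ M.U, M.col a = {c}) (a : M.U) :
    M.sc a = ∑ b : M.U, C (lm M a b) * X b.1 + C ((lm M *ᵥ xc M) a) := by
  have h1 : ∑ b, C (M.A a b) * (X b : MvPolynomial ι ℝ) = ∑ b : M.U, C (M.A a b) * X b.1 := by
    rw [sum_coe_sort M.U fun b => C (M.A a b) * (X b : MvPolynomial ι ℝ)]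
    refine (sum_subset (subset_univ _) fun b _ hb => ?_).symm
    rw [show M.A a b = 0 from Br.A_zero hM.bk a.2 hb, C_0, zero_mul]
  rw [lm_xc hT hM, MT.sc, (hT ι Γ M hM).2.2.2.2.1, h1]
  conv_lhs => rw [p_eq hM hc a.2]
  simp only [lm, of_apply, map_mul, map_add, mul_add, add_mul, sum_add_distrib, mul_sum, mul_assoc]
  ring

theorem en_eq (hT : TOK) (hM : M.Ok) (hc : ∀ a ∈ M.U, M.col a = {c}) {E : Type}
    [NormedAddCommGroup E] [NormedSpace ℝ E] (h : (ι → ℤ) → E) :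
    M.En h = |(lm M).det| • ∑' n : M.U → ℤ, gq (lm M) (xc M + toR n) • h (ext0 M.U n) := by
  rw [MT.En, (det_lm hT hM).2, Ex]
  congr 1
  refine ((Br.latE M.U).tsum_eq fun z => M.G.nu M.T z.1 • h z.1).symm.trans
    (tsum_congr fun y => ?_)
  rw [Br.latE_coe, GT.nu, gq, qf]
  congr 3
  refine (sum_coe_sort M.U _).symm.trans (sum_congr rfl fun a _ => ?_)
  congr 1
  have h1 := congrArg (eval (cz (Br.ex0 M.U y))) (sc_eq hT hM hc a)
  rw [MT.sc, map_mul, eval_C] at h1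
  refine h1.trans ?_
  simp only [map_add, map_sum, map_mul, eval_C, eval_X, cz, Br.ex0_coe]
  rw [mulVec_add, Pi.add_apply, add_comm]
  rfl

end LatP

open LatP

theorem lat (hT : TOK) (hO : OPS) : LAT := by
  intro ι Γ _ _ _ _ M c hM hI
  have hc : ∀ a ∈ M.U, M.col a = {c} := fun a ha =>
    (subset_singleton_iff.1 (hI a ha)).resolve_left (hM.ne a ha).ne_empty
  have hD := ((hO ι Γ M hM).1 {c}).1
  refine ⟨lm M, xc M, (det_lm hT hM).1, fun a => ?_, sc_eq hT hM hc,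
    fun E _ _ h => ⟨en_eq hT hM hc h, fun l hl => ?_⟩⟩
  · have h1 := sc_eq (c := c) hT hD hc a
    rw [xc_dir hc, mulVec_zero, lm_dir hc] at h1
    exact h1.trans ((congrArg _ C_0).trans (add_zero _))
  · have hW := ((hO ι Γ M hM).2.1 (fun _ => l) fun _ => hl).1
    have h1 := en_eq (c := c) hT ((hO ι Γ _ hW).1 {c}).1 hc h
    have h2 : lm (M.wid fun _ => l) = l • lm M := by
      ext a b
      exact mul_assoc _ _ _
    rw [xc_dir (M := M.wid fun _ => l) hc, lm_dir (M := M.wid fun _ => l) hc, h2] at h1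
    simp only [zero_add] at h1
    exact h1

end

end Vale.Agent.P057T.Mt
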