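import Vale.Agent.P057T.Mt.Lva0

/-! Row `LVA`. -/

set_option linter.all false

open MvPolynomial Finset Matrix
open scoped Real

namespace Vale.Agent.P057T.Mt

open Vale.Agent.P057T.Eq Vale.Agent.P057T.Cp Vale.Agent.P267.H775 Vale.Agent.P057T.Poi

noncomputable section

variable {ι Γ : Type} [Fintype ι] [DecidableEq ι] [Fintype Γ] [DecidableEq Γ]

/-- a family of vectors as a linear map -/
def lmv {κ V : Type} [Fintype κ] [AddCommGroup V] [Module ℝ V] (D : κ → V) : (κ → ℝ) →ₗ[ℝ] V where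
  toFun y := ∑ v, y v • D v
  map_add' a b := by simp [add_smul, sum_add_distrib]
  map_smul' a b := by simp [smul_sum, mul_smul]

theorem lmv_apply {κ V : Type} [Fintype κ] [AddCommGroup V] [Module ℝ V] (D : κ → V) (y : κ → ℝ) :
    lmv D y = ∑ v, y v • D v := rfl

theorem lmv_single {κ V : Type} [Fintype κ] [DecidableEq κ] [AddCommGroup V] [Module ℝ V]
    (D : κ → V) (v : κ) : lmv D (Pi.single v 1) = D v := by
  rw [lmv_apply, sum_eq_single v] <;> simp +contextual [Pi.single_apply]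

theorem sum_inv {κ V : Type} [Fintype κ] [DecidableEq κ] [AddCommGroup V] [Module ℝ V]
    (K : (κ → ℝ) →ₗ[ℝ] V) {L : Matrix κ κ ℝ} (hL : L.det ≠ 0) (b : κ) :
    ∑ a, L a b • K (L⁻¹ *ᵥ Pi.single a 1) = K (Pi.single b 1) := by
  have e : ∑ a, L a b • (Pi.single a 1 : κ → ℝ) = L *ᵥ Pi.single b 1 := by
    funext i
    simp [Pi.single_apply, Finset.sum_apply]
  simp only [← map_smul, ← map_sum, ← mulVec_smul, ← mulVec_sum]
  rw [e, mulVec_mulVec, nonsing_inv_mul _ (isUnit_iff_ne_zero.2 hL), one_mulVec]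

theorem qf_inv {κ : Type} [Fintype κ] [DecidableEq κ] {L : Matrix κ κ ℝ} (hL : L.det ≠ 0) {l : ℝ}
    (hl : 0 ≤ l) (a : κ) : √(qf (l • L) (L⁻¹ *ᵥ Pi.single a 1)) = l := by
  rw [qf_smul, qf, mulVec_mulVec, mul_nonsing_inv _ (isUnit_iff_ne_zero.2 hL), one_mulVec]
  have : ∑ i, ((Pi.single a 1 : κ → ℝ) i) ^ 2 = 1 := by
    rw [sum_eq_single a] <;> simp +contextual [Pi.single_apply]
  rw [this, mul_one, Real.sqrt_sq hl]

theorem toR_single {κ : Type} [DecidableEq κ] (v : κ) :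
    toR (Pi.single v 1 : κ → ℤ) = Pi.single v 1 := by
  funext i
  by_cases h : i = v <;> simp [toR, Pi.single_apply, h]

theorem num1 {N R H l Z n k : ℝ} (hN : 2 ≤ N) (hR : 2 ≤ R) (hH : 1 ≤ H) (hl : 1 ≤ l) (hZ : 1 ≤ Z)
    (hn0 : 0 ≤ n) (hn : n ≤ 4 * R) (hk0 : 0 ≤ k) (hk : k ≤ N) :
    n * (H + H + k * ((1 + Z) * (960 * R ^ 2 * H * l))) ≤ (N * R) ^ 12 * H * l * Z := by
  have h1 : H ≤ N * R ^ 2 * (H * l * Z) := by
    have a : (1 : ℝ) ≤ N * R ^ 2 := by nlinarith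
    have b : 1 ≤ l * Z := by nlinarith
    have c : H ≤ H * l * Z := by nlinarith
    nlinarith
  have h2 : k * ((1 + Z) * (960 * R ^ 2 * H * l)) ≤ N * ((Z + Z) * (960 * R ^ 2 * H * l)) := by
    gcongr
  have h3 : H + H + k * ((1 + Z) * (960 * R ^ 2 * H * l)) ≤ 1922 * (N * R ^ 2 * (H * l * Z)) := by
    nlinarith
  have h4 : (4 : ℝ) ^ 9 ≤ (N * R) ^ 9 := pow_le_pow_left₀ (by norm_num) (by nlinarith) 9
  have h5 : (1 : ℝ) ≤ N ^ 2 := by nlinarith
  have h6 : (7688 : ℝ) ≤ (N * R) ^ 9 * N ^ 2 := by nlinarith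
  calc _ ≤ 4 * R * (1922 * (N * R ^ 2 * (H * l * Z))) :=
        mul_le_mul hn h3 (by positivity) (by positivity)
    _ = 7688 * (N * R ^ 3 * (H * l * Z)) := by ring
    _ ≤ (N * R) ^ 9 * N ^ 2 * (N * R ^ 3 * (H * l * Z)) :=
        mul_le_mul_of_nonneg_right h6 (by positivity)
    _ = _ := by ring

theorem lva (hO : OPS) (hLat : LAT) (hF : FRZ) (hI : INVM) (hD : DEC) (hSB : SB) : LVA := by
  refine ⟨12, fun ι Γ _ _ _ _ M A c e N R H l Z F be y0 S hM hN hN2 hR hH hl hZ hIn he hc hFt hbe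
    hnm hU hS hy => ?_⟩
  classical
  have hR0 : 0 < R := by linarith
  have hl0 : 0 < l := by linarith
  have hT0 : 0 < (N * R) ^ 12 := by positivity
  have hY : (M.bs A).Ok := (hO ι Γ M hM).2.2.2.2.1 A
  have hB : (M.bs {e}).Ok := (hO ι Γ M hM).2.2.2.2.1 {e}
  obtain ⟨-, -, -, -, -, -, f7, -, f9, f10⟩ := hF ι Γ M A c y0 hM hc
  have g9 := (hF ι Γ (M.bs {e}) A c y0 hB hc).2.2.2.2.2.2.2.2.1
  have hYI : (M.bs A).In {e} := by
    have h := (f10 _ hIn).2
    have e1 : insert e A \ A = {e} := by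
      ext x; simp only [mem_sdiff, mem_insert, mem_singleton]
      exact ⟨fun h => h.1.resolve_right h.2, fun h => ⟨Or.inl h, h ▸ he⟩⟩
    rwa [e1] at h
  obtain ⟨L, x, hL, -, hsc, hEn⟩ := hLat ι Γ (M.bs A) e hY hYI
  have hsc' : ∀ a : (M.bs A).U, M.sc a = ∑ b : (M.bs A).U, C (L a b) * X b.1 + C ((L *ᵥ x) a) := hsc
  have hlL := det_smul_ne hl0.ne' hL
  have hth : |((N * R) ^ 12 • l • L).det| * th ((N * R) ^ 12 • l • L) 0 ≤ 3 / 2 := by
    have h := (hEn ℝ fun _ => (1 : ℝ)).2 (l * (N * R) ^ 12) (by positivity)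
    rw [MT.nm, h] at hnm
    simpa only [smul_smul, mul_comm ((N * R) ^ 12) l, th_zero, smul_eq_mul, mul_one] using hnm
  rw [(hEn ℝ _).2 l hl0] at hS
  simp only [smul_eq_mul] at hS
  obtain ⟨n0, hn0⟩ : ∃ n, S (ext0 (M.bs A).U n) := by
    by_contra hne
    push Not at hne
    simp only [ind, hne, if_false, mul_zero, tsum_zero] at hS
    exact absurd (inv_pos.2 hR0) (not_lt.2 hS)
  have hU1 : (M.bs {e}).Uq c 1 := fun I b h1 h2 h3 h4 h5 => hU I b h1 h2 h3 (h4.trans (by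
    have : (1 : ℝ) ≤ R ^ 12 := one_le_pow₀ (by linarith)
    nlinarith)) h5
  obtain ⟨hz, I0, b0, i1, i2, i3, i4, i5, i6⟩ := hy _ hn0
  obtain ⟨d1, d2, d3, d4, d5, d6, d7, d8, d9, d10, d11, d12, d13⟩ :=
    hD ι Γ M A c e F be I0 b0 _ hM hIn he hc hFt hbe i1 i2 i3 i5 i6
  set E := F - M.ph c be with hE
  set φ := (M.bs {e}).ph c with hφ
  set V := TlS (M.bs {e}) c with hV
  obtain ⟨w0, hw0, hw1⟩ := hI ι Γ (M.bs {e}) c hB hU1 _ d9
  have hD' : ∀ v : (M.bs A).U, ∃ b : V, φ b.1 = pderiv v.1 E := fun v => by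
    obtain ⟨b, h1, h2⟩ := hI ι Γ (M.bs {e}) c hB hU1 _ (d10 v.1 v.2)
    exact ⟨⟨b, h1⟩, h2⟩
  choose D hDv using hD'
  have hφL : ∀ y, φ (lmv D y).1 = ∑ v : (M.bs A).U, C (y v) * pderiv v.1 E := fun y => by
    rw [lmv_apply, Submodule.coe_sum, map_sum]
    exact sum_congr rfl fun v _ => by rw [Submodule.coe_smul, map_smul, hDv, C_mul']
  obtain ⟨io, n, hn1, hn2, hio, hK⟩ := lvc hSB (l1S V) (IzS V φ) (l • L) hlL (lmv D) N R H
    (le_trans (by exact_mod_cast Fintype.card_subtype_le _) hN) hN2 hR (by linarith) hth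
    (fun b hb hb' => Subtype.ext (hU _ b.1 hb (g9 _ b.2) b.2 hb' rfl).2)
    (fun n => S (ext0 (M.bs A).U n)) hS (⟨w0, hw0⟩ + lmv D fun v => (y0 v : ℝ))
    (fun n hn => by
      obtain ⟨-, I, b, j1, j2, j3, j4, j5, j6⟩ := hy _ hn
      obtain ⟨-, -, e3, e4, -, e6, -, -, -, -, -, e12, -⟩ :=
        hD ι Γ M A c e F be I b _ hM hIn he hc hFt hbe j1 j2 j3 j5 j6
      refine ⟨lmv D (toR n) + (⟨w0, hw0⟩ + lmv D fun v => (y0 v : ℝ)) - ⟨M.ko e b, e4⟩, ?_, ?_⟩
      · show IsZ (φ ((lmv D (toR n)).1 + (w0 + (lmv D fun v => (y0 v : ℝ)).1) - M.ko e b))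
        rw [map_sub, map_add, map_add, hφL, hφL, hw1]
        have e0 : ∑ v ∈ (M.bs A).U, C ((y0 + ext0 (M.bs A).U n) v : ℝ) * pderiv v E =
            ∑ v : (M.bs A).U, C (toR n v) * pderiv v.1 E +
              ∑ v : (M.bs A).U, C (y0 v : ℝ) * pderiv v.1 E := by
          rw [← sum_coe_sort, ← sum_add_distrib]
          refine sum_congr rfl fun v _ => ?_
          simp only [Pi.add_apply, ext0, v.2, dif_pos, toR, Int.cast_add, map_add]
          ring
        rw [e0] at e12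
        have : ∑ v : (M.bs A).U, C (toR n v) * pderiv v.1 E +
            (M.ko e E + ∑ v : (M.bs A).U, C (y0 v : ℝ) * pderiv v.1 E) - φ (M.ko e b) =
            M.ko e I := by linear_combination e12
        rw [this]; exact e6
      · rw [sub_sub_cancel]; exact e3.trans j4)
  set y := y0 + ext0 (M.bs A).U n0 with hyy
  set D' : (M.bs A).U → V := fun a => (lmv D - io) (L⁻¹ *ᵥ Pi.single a 1) with hD'
  set J : (M.bs A).U → MvPolynomial ι ℝ := fun v => φ ((n : ℝ) • io (Pi.single v 1)).1 with hJ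
  have hJz : ∀ v, IsZ (J v) := fun v => by
    have := hio (Pi.single v 1)
    rwa [toR_single] at this
  have hJt : ∀ v, (M.bs {e}).Tl c (J v) := fun v => g9 _ (Subtype.property _)
  have hm : ∀ (G : MvPolynomial ι ℝ) (v : (M.bs A).U) (t : ℝ), (M.bs {e}).Tl c G →
      (X v.1 - C t) * G ∈ TlS M c := fun G v t hG => by
    rw [sub_mul, C_mul']
    exact sub_mem ((d13 G hG).2.2 v.1 v.2) ((TlS M c).smul_mem t (d13 G hG).1)
  have hI0 : I0 ∈ TlS M c := by
    have := (TlS M c).add_mem d8 (d13 _ d5).1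
    rwa [sub_add_cancel] at this
  refine ⟨n, hn1, hn2.trans ?_, ib_of
    (I := (n : ℝ) • I0 + ∑ v : (M.bs A).U, (X v.1 - C (y v : ℝ)) * J v)
    (b := (n : ℝ) • (be + M.ko e b0 + ∑ a : (M.bs A).U, (X a.1 - C (eval (cz y) (M.sc a))) * (D' a).1))
    ?_ ?_ ?_ ?_ ?_⟩
  · have a2 : (2 : ℝ) ^ 11 ≤ R ^ 11 := pow_le_pow_left₀ (by norm_num) hR 11
    have e1 : R ^ 12 = R ^ 11 * R := by ring
    rw [e1]; nlinarith
  · exact (L1.IsInt.nsmul i1 n).add (L1.isInt_sum fun v _ =>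
      ((L1.isInt_X _).sub (L1.isInt_C _)).mul (hJz v))
  · exact (TlS M c).add_mem ((TlS M c).smul_mem _ hI0) ((TlS M c).sum_mem fun v _ => hm _ v _ (hJt v))
  · exact (TlS M c).smul_mem _ ((TlS M c).add_mem ((TlS M c).add_mem d1 (d13 _ d4).1)
      ((TlS M c).sum_mem fun a _ => hm _ a _ (D' a).2))
  · refine le_trans ?_ (num1 hN2 hR hH hl hZ (Nat.cast_nonneg n) hn2
      (Nat.cast_nonneg (Fintype.card (M.bs A).U))
      (le_trans (by exact_mod_cast Fintype.card_subtype_le _) hN))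
    refine (L1.nrm_smul _ _).le.trans ?_
    rw [Nat.abs_cast]
    refine mul_le_mul_of_nonneg_left ?_ (Nat.cast_nonneg n)
    refine (L1.nrm_add_le _ _).trans (add_le_add ((L1.nrm_add_le _ _).trans
      (add_le_add (d2.trans i4) (d3.trans i4))) ((L1.nrm_sum_le _ _).trans ?_))
    rw [← nsmul_eq_mul, ← card_univ]
    refine sum_le_card_nsmul _ _ _ fun a _ => (L1.nrm_mul_le _ _).trans ?_
    refine mul_le_mul ((L1.nrm_sub_le _ _).trans ?_) ?_ (L1.nrm_nonneg _) (by linarith)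
    · rw [L1.nrm_X, L1.nrm_C]
      exact add_le_add le_rfl (hz a.1 a.2)
    · have := hK (L⁻¹ *ᵥ Pi.single a 1)
      rw [qf_inv hL hl0.le] at this
      exact this
  · have k1 : ∀ a : (M.bs A).U, M.ph c (X a.1 - C (eval (cz y) (M.sc a))) =
        ∑ b : (M.bs A).U, C (L a b) * (X b.1 - C (y b : ℝ)) := fun a => by
      rw [map_sub, MT.ph, aeval_X, aeval_C, algebraMap_eq, (f7 a.1 a.2).1, hsc' a]
      simp only [map_add, map_sum, map_mul, eval_C, eval_X, cz, mul_sub, sum_sub_distrib]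
      ring
    have k2 : ∀ a, M.ph c (D' a).1 = φ (D' a).1 := fun a => (d13 _ (D' a).2).2.1
    have k3 : ∀ b : (M.bs A).U, ∑ a, C (L a b) * φ (D' a).1 =
        pderiv b.1 E - φ (io (Pi.single b 1)).1 := fun b => by
      have h := congrArg (fun u : V => φ u.1) (sum_inv (lmv D - io) hL b)
      simp only [Submodule.coe_sum, Submodule.coe_smul, map_sum, map_smul] at h
      simp only [C_mul']
      rw [hD', h, LinearMap.sub_apply, lmv_single, Submodule.coe_sub, map_sub, hDv]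
    have k4 : M.ph c (∑ a : (M.bs A).U, (X a.1 - C (eval (cz y) (M.sc a))) * (D' a).1) =
        ∑ b : (M.bs A).U, (X b.1 - C (y b : ℝ)) * (pderiv b.1 E - φ (io (Pi.single b 1)).1) := by
      simp only [map_sum, map_mul, k1, k2, sum_mul, ← k3, mul_sum]
      rw [sum_comm]
      exact sum_congr rfl fun a _ => sum_congr rfl fun b _ => by ring
    have k5 : ∑ v : (M.bs A).U, (X v.1 - C (y v : ℝ)) * J v =
        C (n : ℝ) * ∑ v : (M.bs A).U, (X v.1 - C (y v : ℝ)) * φ (io (Pi.single v 1)).1 := by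
      rw [mul_sum]
      refine sum_congr rfl fun v _ => ?_
      simp only [hJ]
      rw [Submodule.coe_smul, map_smul, ← C_mul']
      ring
    rw [map_smul, map_add, map_add, k4, k5, (d13 _ d4).2.1]
    rw [← sum_coe_sort] at d11 d12
    simp only [← C_mul', mul_sub, sub_mul, sum_sub_distrib]
    have hF' : F = E + M.ph c be := by rw [hE]; ring
    linear_combination (C (n : ℝ)) * hF' + (C (n : ℝ)) * d11 + (C (n : ℝ)) * d12

end

end Vale.Agent.P057T.Mt
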