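import Vale.Agent.P057T.Mt.Seq
import Vale.Agent.P057T.LvgH29
import Vale.Agent.P057T.L1

/-! The linear step on one lattice, and the space of the forms that are linear in one colour. -/

set_option linter.all false

open MvPolynomial Finset Matrix
open scoped Real

namespace Vale.Agent.P057T.Mt

open Vale.Agent.P057T.Eq Vale.Agent.P057T.Cp Vale.Agent.P267.H775 Vale.Agent.P057T.Poi

noncomputable section

theorem lvc (hSB : SB) {κ V : Type} [Fintype κ] [DecidableEq κ] [AddCommGroup V] [Module ℝ V]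
    (Nn : Seminorm ℝ V) (I : AddSubgroup V) (M : Matrix κ κ ℝ) (hM : M.det ≠ 0)
    (L : (κ → ℝ) →ₗ[ℝ] V) (N R H : ℝ) (hN : (Fintype.card κ : ℝ) ≤ N) (hN2 : 2 ≤ N) (hR : 2 ≤ R)
    (hH : 0 ≤ H) (hth : |((N * R) ^ 12 • M).det| * th ((N * R) ^ 12 • M) 0 ≤ 3 / 2)
    (hI : ∀ x ∈ I, Nn x ≤ R ^ 12 * H → x = 0) (S : (κ → ℤ) → Prop)
    (hS : R⁻¹ ≤ |M.det| * ∑' n : κ → ℤ, gq M (toR n) * ind (S n)) (w : V)
    (hL : ∀ c, S c → ∃ a ∈ I, Nn (L (toR c) + w - a) ≤ H) :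
    ∃ (io : (κ → ℝ) →ₗ[ℝ] V) (n : ℕ), 1 ≤ n ∧ (n : ℝ) ≤ 4 * R ∧
      (∀ c : κ → ℤ, (n : ℝ) • io (toR c) ∈ I) ∧
      ∀ y, Nn (L y - io y) ≤ 960 * R ^ 2 * H * √(qf M y) := by
  classical
  have hR0 : 0 < R := by linarith
  have hNR : 4 ≤ N * R := by nlinarith
  set T : ℝ := (N * R) ^ 12 with hT
  have hT1 : 1 ≤ T := one_le_pow₀ (by linarith)
  have hT0 : 0 < T := by linarith
  have hs0 : 0 < T⁻¹ := inv_pos.2 hT0
  have h1 : th (T⁻¹ • (M⁻¹)ᵀ) 0 ≤ 3 / 2 := by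
    rw [← dual_smul hT0.ne' hM, th_dual (det_smul_ne hT0.ne' hM)]; exact hth
  have h2 : |M.det| * th M 0 ≤ 3 / 2 := by
    rw [← th_dual hM]
    exact (th_smul_mono (det_dual hM) 0 hs0 (inv_le_one_of_one_le₀ hT1)).trans h1
  obtain ⟨U, W, hUW, hg⟩ := hSB κ M T⁻¹ hM hs0 h1
  set m : ℕ := ⌈3 * R⌉₊ with hm
  have hm1 : 3 * R ≤ m := Nat.le_ceil _
  have hm2 : (m : ℝ) ≤ 4 * R := by
    have := Nat.ceil_lt_add_one (show 0 ≤ 3 * R by linarith)
    linarith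
  have hm0 : (0 : ℝ) < m := by linarith
  have hm3 : 1 ≤ m := by
    have : (1 : ℝ) ≤ m := by linarith
    exact_mod_cast this
  have hc0 : (0 : ℝ) ≤ Fintype.card κ := Nat.cast_nonneg _
  set r3 : ℝ := 4 * ((Fintype.card κ : ℝ) + 1) ^ 3 * T⁻¹ with hr3
  have hr30 : 0 ≤ r3 := by positivity
  have hkey : (Fintype.card κ : ℝ) * (m * r3) ≤ (60 * R * m)⁻¹ := by
    have a1 : ((Fintype.card κ : ℝ) + 1) ^ 3 ≤ (2 * N) ^ 3 :=
      pow_le_pow_left₀ (by linarith) (by linarith) 3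
    have a2 : (4 : ℝ) ^ 8 ≤ (N * R) ^ 8 := pow_le_pow_left₀ (by norm_num) hNR 8
    have a3 : 30720 * N ^ 4 * R ^ 3 ≤ T := by
      have e : T = (N * R) ^ 8 * R * (N ^ 4 * R ^ 3) := by rw [hT]; ring
      have a4 : (30720 : ℝ) ≤ (N * R) ^ 8 * R := by nlinarith
      rw [e, mul_assoc]
      exact mul_le_mul_of_nonneg_right a4 (by positivity)
    have a5 : (Fintype.card κ : ℝ) * (m * (4 * ((Fintype.card κ : ℝ) + 1) ^ 3)) * (60 * R * m) ≤
        N * (4 * R * (4 * (2 * N) ^ 3)) * (60 * R * (4 * R)) := by gcongr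
    have a6 : (Fintype.card κ : ℝ) * (m * r3) =
        (Fintype.card κ : ℝ) * (m * (4 * ((Fintype.card κ : ℝ) + 1) ^ 3)) / T := by
      rw [hr3]; field_simp
    rw [a6, ← one_div (60 * R * m), div_le_div_iff₀ hT0 (by positivity), one_mul]
    refine a5.trans (le_trans (le_of_eq ?_) a3)
    ring
  have hγ : (0 : ℝ) < (60 * R)⁻¹ := by positivity
  have hγ1 : (60 * R)⁻¹ ≤ 1 / 120 := by
    rw [one_div]; exact inv_anti₀ (by norm_num) (by linarith)
  have hd : |M.det| ≠ 0 := abs_ne_zero.2 hM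
  have hd0 : 0 < |M.det| := abs_pos.2 hM
  obtain ⟨io, n, b1, b2, b3, b4⟩ := Lv.lvg Nn I hM U W hUW L H (R ^ 12 * H) (60 * R * m)⁻¹ r3
    (3 * R)⁻¹ (60 * R)⁻¹ m hm3 (by positivity) hr30
    (by rw [← div_eq_mul_inv, one_lt_div (by linarith)]; linarith)
    (le_of_eq (by field_simp))
    (by
      have e : (3 * R)⁻¹ = 20 * (60 * R)⁻¹ := by field_simp; norm_num
      have := Real.pi_lt_d2
      have := Real.pi_pos
      rw [e]
      have a : 2 * (60 * R)⁻¹ + (60 * R)⁻¹ ^ 2 ≤ 3 * (60 * R)⁻¹ := by nlinarith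
      have b : 2 * π * (2 * (60 * R)⁻¹ + (60 * R)⁻¹ ^ 2) ≤ 2 * π * (3 * (60 * R)⁻¹) :=
        mul_le_mul_of_nonneg_left a (by linarith)
      nlinarith)
    hI
    (by
      refine mul_le_mul_of_nonneg_right ?_ hH
      have a1 : (m : ℝ) ^ 3 ≤ (4 * R) ^ 3 := pow_le_pow_left₀ hm0.le hm2 3
      have a2 : (2 : ℝ) ^ 9 ≤ R ^ 9 := pow_le_pow_left₀ (by norm_num) hR 9
      have a3 : 0 < R ^ 3 := by positivity
      have e : R ^ 12 = R ^ 9 * R ^ 3 := by ring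
      rw [e]
      nlinarith)
    hg hkey
    (by
      refine le_trans ?_ hkey
      have : 0 ≤ (Fintype.card κ : ℝ) * r3 := mul_nonneg hc0 hr30
      nlinarith)
    0 {n | S n}
    (by
      have e : (fun n : κ → ℤ => if n ∈ {n | S n} then gq M (0 + toR n) else 0) =
          fun n => gq M (toR n) * ind (S n) := by
        funext n
        by_cases h : S n <;> simp [ind, h]
      rw [e]
      refine le_of_mul_le_mul_left ?_ hd0
      refine le_trans ?_ hS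
      have e2 : R⁻¹ = 2 * (3 * R)⁻¹ * (3 / 2) := by field_simp
      rw [e2, mul_left_comm]
      exact mul_le_mul_of_nonneg_left h2 (by positivity))
    w hL
  refine ⟨io, n, b1, le_trans (by exact_mod_cast b2) hm2, b3, fun y => (b4 y).trans ?_⟩
  refine mul_le_mul_of_nonneg_right ?_ (Real.sqrt_nonneg _)
  rw [div_inv_eq_mul]
  have : H * R * m ≤ H * R * (4 * R) := mul_le_mul_of_nonneg_left hm2 (by positivity)
  nlinarith

variable {ι Γ : Type} [Fintype ι] [DecidableEq ι] [Fintype Γ] [DecidableEq Γ]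

/-- the forms that are linear in the colour `c` -/
def TlS (M : MT ι Γ) (c : Γ) : Submodule ℝ (MvPolynomial ι ℝ) where
  carrier := {F | M.Tl c F}
  zero_mem' := ⟨by simp, fun m hm => by simp at hm, fun m hm => by simp at hm⟩
  add_mem' := fun {F F'} h h' => ⟨(vars_add_subset F F').trans (union_subset h.1 h'.1),
    fun m hm => (mem_union.1 (support_add hm)).elim (h.2.1 m) (h'.2.1 m),
    fun m hm => (mem_union.1 (support_add hm)).elim (h.2.2 m) (h'.2.2 m)⟩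
  smul_mem' := fun a F h => ⟨fun i hi => by
      obtain ⟨m, hm, hi⟩ := (mem_vars_iff_mem_support i).1 hi
      exact h.1 ((mem_vars_iff_mem_support i).2 ⟨m, support_smul hm, hi⟩),
    fun m hm => h.2.1 m (support_smul hm), fun m hm => h.2.2 m (support_smul hm)⟩

theorem mem_TlS {M : MT ι Γ} {c : Γ} {F : MvPolynomial ι ℝ} : F ∈ TlS M c ↔ M.Tl c F := Iff.rfl

/-- the norm of the coefficients -/
def l1S (V : Submodule ℝ (MvPolynomial ι ℝ)) : Seminorm ℝ V :=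
  Seminorm.of (fun b => L1.nrm b.1) (fun a b => L1.nrm_add_le a.1 b.1)
    fun a b => by rw [Real.norm_eq_abs]; exact L1.nrm_smul a b.1

theorem l1S_apply (V : Submodule ℝ (MvPolynomial ι ℝ)) (b : V) : l1S V b = l1 b.1 := rfl

/-- forms with an integer image -/
def IzS (V : Submodule ℝ (MvPolynomial ι ℝ)) (φ : MvPolynomial ι ℝ →ₐ[ℝ] MvPolynomial ι ℝ) :
    AddSubgroup V where
  carrier := {b | IsZ (φ b.1)}
  zero_mem' := by
    show IsZ (φ 0)
    rw [map_zero]; exact L1.isInt_zero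
  add_mem' := fun {a b} ha hb => by
    show IsZ (φ (a.1 + b.1))
    rw [map_add]; exact L1.IsInt.add ha hb
  neg_mem' := fun {a} ha => by
    show IsZ (φ (-a.1))
    rw [map_neg]; exact L1.IsInt.neg ha

theorem ib_of {M : MT ι Γ} {c : Γ} {F I b : MvPolynomial ι ℝ} {H : ℝ} (h1 : IsZ I) (h2 : M.Tl c I)
    (h3 : M.Tl c b) (h4 : l1 b ≤ H) (h5 : F = I + M.ph c b) : M.IB c F H :=
  ⟨I, b, h1, h2.1, h3.1, h2.2.1, h3.2.1, h2.2.2, h3.2.2, h4, h5⟩

theorem of_ib {M : MT ι Γ} {c : Γ} {F : MvPolynomial ι ℝ} {H : ℝ} (h : M.IB c F H) :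
    ∃ I b, IsZ I ∧ M.Tl c I ∧ M.Tl c b ∧ l1 b ≤ H ∧ F = I + M.ph c b := by
  obtain ⟨I, b, h1, h2, h3, h4, h5, h6, h7, h8, h9⟩ := h
  exact ⟨I, b, h1, ⟨h2, h4, h6⟩, ⟨h3, h5, h7⟩, h8, h9⟩

end

end Vale.Agent.P057T.Mt
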