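import Vale.Agent.P057T.LvgH29

/-!
Additive quadruples `a p + b q` for a wide law of `a` and a narrow law of `b`.
-/

set_option linter.all false

open Matrix
open scoped Real
open Vale.Agent.P267.H775 Vale.Agent.P057T.Poi

namespace Vale.Agent.P057T.Mt.Qd

noncomputable section

section abs

variable {G G' : Type*}

/-- a probability weight -/
structure Pr (μ : G → ℝ) : Prop where
  nn : ∀ x, 0 ≤ μ x
  hs : HasSum μ 1

/-- expectation -/
def E (μ f : G → ℝ) : ℝ := ∑' x, μ x * f x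

/-- values in the unit interval -/
def U (f : G → ℝ) : Prop := ∀ x, 0 ≤ f x ∧ f x ≤ 1

variable {μ : G → ℝ} {ν : G' → ℝ}

theorem Pr.sm (h : Pr μ) {f : G → ℝ} (hf : U f) : Summable fun x => μ x * f x :=
  Summable.of_nonneg_of_le (fun x => mul_nonneg (h.nn x) (hf x).1)
    (fun x => mul_le_of_le_one_right (h.nn x) (hf x).2) h.hs.summable

theorem Pr.mono (h : Pr μ) {f g : G → ℝ} (hf : U f) (hg : U g) (hfg : ∀ x, f x ≤ g x) :
    E μ f ≤ E μ g :=
  (h.sm hf).tsum_le_tsum (fun x => mul_le_mul_of_nonneg_left (hfg x) (h.nn x)) (h.sm hg)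

theorem Pr.const (h : Pr μ) (c : ℝ) : E μ (fun _ => c) = c := by
  unfold E
  rw [tsum_mul_right, h.hs.tsum_eq, one_mul]

theorem Pr.mem (h : Pr μ) {f : G → ℝ} (hf : U f) : 0 ≤ E μ f ∧ E μ f ≤ 1 :=
  ⟨tsum_nonneg fun x => mul_nonneg (h.nn x) (hf x).1,
    (h.mono hf (g := fun _ => 1) (fun _ => ⟨zero_le_one, le_rfl⟩) fun x => (hf x).2).trans
      (h.const 1).le⟩

theorem U.mul {f g : G → ℝ} (hf : U f) (hg : U g) : U fun x => f x * g x := fun x =>
  ⟨mul_nonneg (hf x).1 (hg x).1, mul_le_one₀ (hf x).2 (hg x).1 (hg x).2⟩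

theorem E_mul (c : ℝ) (f : G → ℝ) : E μ (fun x => c * f x) = c * E μ f := by
  unfold E
  rw [← tsum_mul_left]
  exact tsum_congr fun x => by ring

theorem Pr.add (h : Pr μ) {f g : G → ℝ} (hf : U f) (hg : U g) :
    E μ (fun x => f x + g x) = E μ f + E μ g := by
  unfold E
  rw [← (h.sm hf).tsum_add (h.sm hg)]
  exact tsum_congr fun x => by ring

theorem Pr.le_add (h : Pr μ) {f g k : G → ℝ} (hf : U f) (hg : U g) (hk : U k)
    (hl : ∀ x, f x ≤ g x + k x) : E μ f ≤ E μ g + E μ k := by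
  rw [← h.add hg hk]
  refine (h.sm hf).tsum_le_tsum (fun x => mul_le_mul_of_nonneg_left (hl x) (h.nn x)) ?_
  exact ((h.sm hg).add (h.sm hk)).congr fun x => by ring

theorem Pr.sq (h : Pr μ) {f : G → ℝ} (hf : U f) : E μ f ^ 2 ≤ E μ fun x => f x * f x := by
  have h1 := ((h.sm (hf.mul hf)).hasSum.sub ((h.sm hf).hasSum.mul_left (2 * E μ f))).add
    (h.hs.mul_left (E μ f ^ 2))
  have h2 := h1.nonneg fun x => by
    have : μ x * (f x * f x) - 2 * E μ f * (μ x * f x) + E μ f ^ 2 * μ x =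
      μ x * (f x - E μ f) ^ 2 := by ring
    rw [this]
    exact mul_nonneg (h.nn x) (sq_nonneg _)
  have e1 : ∑' x, μ x * f x = E μ f := rfl
  have e2 : ∑' x, μ x * (f x * f x) = E μ fun x => f x * f x := rfl
  rw [e1, e2] at h2
  nlinarith

theorem Pr.prod (h : Pr μ) (k : Pr ν) : Pr fun p : G × G' => μ p.1 * ν p.2 := by
  refine ⟨fun p => mul_nonneg (h.nn _) (k.nn _), ?_⟩
  have hs := h.hs.summable.mul_of_nonneg k.hs.summable h.nn k.nn
  have := h.hs.mul k.hs hs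
  rwa [one_mul] at this

theorem Pr.fub (h : Pr μ) (k : Pr ν) {F : G × G' → ℝ} (hF : U F) :
    E (fun p : G × G' => μ p.1 * ν p.2) F = E μ fun x => E ν fun y => F (x, y) := by
  unfold E
  rw [((h.prod k).sm hF).tsum_prod]
  refine tsum_congr fun x => ?_
  rw [← tsum_mul_left]
  exact tsum_congr fun y => by ring

theorem Pr.comm (h : Pr μ) (k : Pr ν) {F : G → G' → ℝ} (hF : ∀ x, U (F x)) :
    (E μ fun x => E ν fun y => F x y) = E ν fun y => E μ fun x => F x y := by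
  rw [← h.fub k (F := fun p => F p.1 p.2) (fun p => hF p.1 p.2),
    ← k.fub h (F := fun p => F p.2 p.1) (fun p => hF p.2 p.1)]
  unfold E
  rw [← (Equiv.prodComm G G').tsum_eq]
  exact tsum_congr fun p => by simp [mul_comm]

theorem Pr.ex (h : Pr μ) {f : G → ℝ} (hf : U f) {c : ℝ} (hc : c < E μ f) : ∃ x, c < f x := by
  by_contra hn
  push Not at hn
  have : E μ f ≤ c := by
    have h1 := (h.sm hf).tsum_le_tsum (fun x => mul_le_mul_of_nonneg_left (hn x) (h.nn x))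
      (h.hs.summable.mul_right c)
    exact h1.trans (h.const c).le
  linarith

theorem sq_E (f : G → ℝ) : E μ f * E μ f = E μ fun x => E μ fun y => f x * f y := by
  have : (fun x => E μ fun y => f x * f y) = fun x => E μ f * f x := by
    funext x; rw [E_mul, mul_comm]
  rw [this, E_mul]

/-- two Cauchy-Schwarz steps -/
theorem box (h : Pr μ) (k : Pr ν) {f : G → G' → ℝ} (hf : ∀ x, U (f x)) :
    (E μ fun a => E ν fun b => f a b) ^ 4 ≤ E μ fun a0 => E μ fun a1 => E ν fun b0 => E ν fun b1 =>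
      f a0 b0 * f a1 b0 * (f a0 b1 * f a1 b1) := by
  have hu : ∀ b, U fun a => f a b := fun b a => hf a b
  have hg : U fun b => E μ fun a => f a b := fun b => h.mem (hu b)
  have h2 : ∀ a0 a1, U fun b => f a0 b * f a1 b := fun a0 a1 => (hf a0).mul (hf a1)
  have h3 : ∀ a0, U fun a1 => E ν fun b => f a0 b * f a1 b := fun a0 a1 => k.mem (h2 a0 a1)
  have h4 : U fun a0 => E μ fun a1 => E ν fun b => f a0 b * f a1 b := fun a0 => h.mem (h3 a0)
  have e1 : (E μ fun a => E ν fun b => f a b) ^ 2 ≤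
      E μ fun a0 => E μ fun a1 => E ν fun b => f a0 b * f a1 b := by
    rw [h.comm k hf]
    refine (k.sq hg).trans (le_of_eq ?_)
    have : (fun b => (E μ fun a => f a b) * E μ fun a => f a b) =
        fun b => E μ fun a0 => E μ fun a1 => f a0 b * f a1 b := by
      funext b; exact sq_E _
    rw [this, k.comm h (F := fun b a0 => E μ fun a1 => f a0 b * f a1 b)
      (fun b a0 => h.mem fun a1 => h2 a0 a1 b)]
    congr 1
    funext a0
    exact k.comm h (F := fun b a1 => f a0 b * f a1 b) fun b a1 => h2 a0 a1 b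
  have e2 := h.sq h4
  have e3 : (E μ fun a0 => (E μ fun a1 => E ν fun b => f a0 b * f a1 b) *
      E μ fun a1 => E ν fun b => f a0 b * f a1 b) ≤
      E μ fun a0 => E μ fun a1 => E ν fun b0 => E ν fun b1 =>
        f a0 b0 * f a1 b0 * (f a0 b1 * f a1 b1) := by
    refine h.mono (h4.mul h4) (fun a0 => h.mem fun a1 => k.mem fun b0 => k.mem fun b1 =>
      ⟨mul_nonneg (h2 a0 a1 b0).1 (h2 a0 a1 b1).1,
        mul_le_one₀ (h2 a0 a1 b0).2 (h2 a0 a1 b1).1 (h2 a0 a1 b1).2⟩) fun a0 => ?_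
    rw [← pow_two]
    refine (h.sq (h3 a0)).trans (le_of_eq ?_)
    congr 1
    funext a1
    exact sq_E _
  have e0 : 0 ≤ (E μ fun a => E ν fun b => f a b) ^ 2 := sq_nonneg _
  calc (E μ fun a => E ν fun b => f a b) ^ 4 = ((E μ fun a => E ν fun b => f a b) ^ 2) ^ 2 := by ring
    _ ≤ _ := pow_le_pow_left₀ e0 e1 2
    _ ≤ _ := e2.trans e3

open Classical in
/-- indicator -/
def ind (p : Prop) : ℝ := if p then 1 else 0

theorem ind_mem (p : Prop) : 0 ≤ ind p ∧ ind p ≤ 1 := by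
  unfold ind; split_ifs <;> norm_num

theorem ind_pos {p : Prop} (h : p) : ind p = 1 := if_pos h
theorem ind_neg {p : Prop} (h : ¬ p) : ind p = 0 := if_neg h

/-- abstract form -/
theorem quadA (h : Pr μ) (k : Pr ν) (S : G → G' → Prop) (bad : G → G → G' → G' → Prop) {δ ε c : ℝ}
    (hδ : 0 ≤ δ) (hS : δ ≤ E μ fun a => E ν fun b => ind (S a b))
    (hb : (E μ fun a0 => E μ fun a1 => E ν fun b0 => E ν fun b1 => ind (bad a0 a1 b0 b1)) ≤ ε)
    (hc : c < δ ^ 4 - ε) :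
    ∃ a0 a1 b0, c < E ν fun b1 =>
      ind (S a0 b0 ∧ S a1 b0 ∧ S a0 b1 ∧ S a1 b1 ∧ ¬ bad a0 a1 b0 b1) := by
  have h1 := box h k (f := fun a b => ind (S a b)) fun a b => ind_mem _
  have h2 := (pow_le_pow_left₀ hδ hS 4).trans h1
  have u1 : ∀ a0 a1 b0, U fun b1 => ind (S a0 b0) * ind (S a1 b0) * (ind (S a0 b1) * ind (S a1 b1)) :=
    fun a0 a1 b0 b1 => ⟨mul_nonneg (mul_nonneg (ind_mem _).1 (ind_mem _).1)
      (mul_nonneg (ind_mem _).1 (ind_mem _).1),
      mul_le_one₀ (mul_le_one₀ (ind_mem _).2 (ind_mem _).1 (ind_mem _).2)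
        (mul_nonneg (ind_mem _).1 (ind_mem _).1)
        (mul_le_one₀ (ind_mem _).2 (ind_mem _).1 (ind_mem _).2)⟩
  have h3 : (E μ fun a0 => E μ fun a1 => E ν fun b0 => E ν fun b1 =>
      ind (S a0 b0) * ind (S a1 b0) * (ind (S a0 b1) * ind (S a1 b1))) ≤
      (E μ fun a0 => E μ fun a1 => E ν fun b0 => E ν fun b1 =>
        ind (S a0 b0 ∧ S a1 b0 ∧ S a0 b1 ∧ S a1 b1 ∧ ¬ bad a0 a1 b0 b1)) +
      E μ fun a0 => E μ fun a1 => E ν fun b0 => E ν fun b1 => ind (bad a0 a1 b0 b1) := by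
    refine h.le_add (fun a0 => h.mem fun a1 => k.mem fun b0 => k.mem (u1 a0 a1 b0))
      (fun a0 => h.mem fun a1 => k.mem fun b0 => k.mem fun b1 => ind_mem _)
      (fun a0 => h.mem fun a1 => k.mem fun b0 => k.mem fun b1 => ind_mem _) fun a0 => ?_
    refine h.le_add (fun a1 => k.mem fun b0 => k.mem (u1 a0 a1 b0))
      (fun a1 => k.mem fun b0 => k.mem fun b1 => ind_mem _)
      (fun a1 => k.mem fun b0 => k.mem fun b1 => ind_mem _) fun a1 => ?_
    refine k.le_add (fun b0 => k.mem (u1 a0 a1 b0)) (fun b0 => k.mem fun b1 => ind_mem _)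
      (fun b0 => k.mem fun b1 => ind_mem _) fun b0 => ?_
    refine k.le_add (u1 a0 a1 b0) (fun b1 => ind_mem _) (fun b1 => ind_mem _) fun b1 => ?_
    by_cases hb : bad a0 a1 b0 b1
    · rw [ind_pos hb]
      linarith [(u1 a0 a1 b0 b1).2,
        (ind_mem (S a0 b0 ∧ S a1 b0 ∧ S a0 b1 ∧ S a1 b1 ∧ ¬ bad a0 a1 b0 b1)).1]
    · rw [ind_neg hb, add_zero]
      by_cases hg : S a0 b0 ∧ S a1 b0 ∧ S a0 b1 ∧ S a1 b1 ∧ ¬ bad a0 a1 b0 b1
      · rw [ind_pos hg]; exact (u1 a0 a1 b0 b1).2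
      · rw [ind_neg hg]
        by_cases p1 : S a0 b0
        · by_cases p2 : S a1 b0
          · by_cases p3 : S a0 b1
            · have p4 : ¬ S a1 b1 := fun p4 => hg ⟨p1, p2, p3, p4, hb⟩
              rw [ind_neg p4]; simp
            · rw [ind_neg p3]; simp
          · rw [ind_neg p2]; simp
        · rw [ind_neg p1]; simp
  have h4 : c < E μ fun a0 => E μ fun a1 => E ν fun b0 => E ν fun b1 =>
      ind (S a0 b0 ∧ S a1 b0 ∧ S a0 b1 ∧ S a1 b1 ∧ ¬ bad a0 a1 b0 b1) := by linarith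
  obtain ⟨a0, h5⟩ := h.ex (fun a0 => h.mem fun a1 => k.mem fun b0 => k.mem fun b1 => ind_mem _) h4
  obtain ⟨a1, h6⟩ := h.ex (fun a1 => k.mem fun b0 => k.mem fun b1 => ind_mem _) h5
  obtain ⟨b0, h7⟩ := k.ex (fun b0 => k.mem fun b1 => ind_mem _) h6
  exact ⟨a0, a1, b0, h7⟩

/-- the iterated expectation as one sum -/
theorem four (h : Pr μ) (k : Pr ν) {F : G × G × G' × G' → ℝ} (hF : U F) :
    (E μ fun a0 => E μ fun a1 => E ν fun b0 => E ν fun b1 => F (a0, a1, b0, b1)) =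
      ∑' p : G × G × G' × G', μ p.1 * (μ p.2.1 * (ν p.2.2.1 * ν p.2.2.2)) * F p := by
  have e := h.fub (h.prod (k.prod k)) hF
  refine Eq.trans ?_ e.symm
  congr 1
  funext a0
  refine Eq.trans ?_ (h.fub (k.prod k) (F := fun q => F (a0, q)) fun q => hF _).symm
  congr 1
  funext a1
  exact (k.fub k (F := fun q => F (a0, a1, q)) fun q => hF _).symm

end abs

variable {ι : Type*} [Fintype ι] [DecidableEq ι]

/-- the normalised Gaussian law of a lattice -/
def lw (M : Matrix ι ι ℝ) (n : ι → ℤ) : ℝ := gq M (toR n) / th M 0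

theorem pr_lw {M : Matrix ι ι ℝ} (hM : M.det ≠ 0) : Pr (lw M) := by
  have hth := th_pos hM 0
  refine ⟨fun n => div_nonneg (gq_pos _ _).le hth.le, ?_⟩
  have h := ((summable_gq hM 0).hasSum.div_const (th M 0))
  have e : (∑' n : ι → ℤ, gq M (0 + toR n)) / th M 0 = 1 := div_self hth.ne'
  rw [e] at h
  have e2 : lw M = fun i => gq M (0 + toR i) / th M 0 := by
    funext n; rw [zero_add]; rfl
  rw [e2]; exact h

theorem toR_add' (a b : ι → ℤ) : toR (a + b) = toR a + toR b := by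
  funext i; simp [toR]

open Classical in
theorem shift {M : Matrix ι ι ℝ} (hM : M.det ≠ 0) (S : (ι → ℤ) → Prop) (b : ι → ℤ) {γ : ℝ}
    (hγ : 0 < γ) (hb : qf M (toR b) ≤ γ ^ 2) :
    E (lw M) (fun a => ind (S a)) - 2 * π * (2 * γ + γ ^ 2) ≤ E (lw M) fun a => ind (S (a + b)) := by
  have hth := th_pos hM 0
  have hp := pr_lw hM
  have h1 := Lv.shift_le (lw M) hp.nn hp.hs.summable {a | S a} b (2 * π * (2 * γ + γ ^ 2)) (by
    obtain ⟨_, h2⟩ := tv_le hM (toR b) 0 hγ hb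
    have e : ∀ x : ι → ℤ, |lw M (x + b) - lw M x| =
        |gq M (0 + toR b + toR x) - gq M (0 + toR x)| / th M 0 := by
      intro x
      unfold lw
      rw [← sub_div, abs_div, abs_of_pos hth, toR_add', zero_add, zero_add, add_comm]
    rw [tsum_congr e, tsum_div_const, div_le_iff₀ hth]
    exact h2)
  have e1 : ∀ T : (ι → ℤ) → Prop, E (lw M) (fun a => ind (T a)) =
      ∑' x, if T x then lw M x else 0 := by
    intro T
    refine tsum_congr fun x => ?_
    beta_reduce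
    by_cases hx : T x
    · rw [ind_pos hx, if_pos hx, mul_one]
    · rw [ind_neg hx, if_neg hx, mul_zero]
  rw [e1, e1]
  convert h1 using 3 <;> simp

theorem tail_half {M : Matrix ι ι ℝ} (hM : M.det ≠ 0) :
    E (lw M) (fun b => ind ((Fintype.card ι : ℝ) + 1 ≤ qf M (toR b))) ≤ 1 / 2 := by
  have hth := th_pos hM 0
  have h := tail_le hM 0 ((Fintype.card ι : ℝ) + 1)
  have e : E (lw M) (fun b => ind ((Fintype.card ι : ℝ) + 1 ≤ qf M (toR b))) =
      (∑' n : ι → ℤ, (if (Fintype.card ι : ℝ) + 1 ≤ qf M (0 + toR n) then gq M (0 + toR n)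
        else 0)) / th M 0 := by
    rw [← tsum_div_const]
    refine tsum_congr fun x => ?_
    rw [zero_add]
    beta_reduce
    by_cases hx : (Fintype.card ι : ℝ) + 1 ≤ qf M (toR x)
    · rw [ind_pos hx, if_pos hx, mul_one]; rfl
    · rw [ind_neg hx, if_neg hx, mul_zero, zero_div]
  rw [e, div_le_iff₀ hth]
  refine h.trans (mul_le_mul_of_nonneg_right ?_ hth.le)
  have hp := Real.pi_gt_three
  have h1 : Real.exp (-(3 / 4 * π * ((Fintype.card ι : ℝ) + 1))) ≤
      Real.exp (-1) ^ (Fintype.card ι + 1) := by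
    rw [← Real.exp_nat_mul, Real.exp_le_exp]
    push_cast
    nlinarith [Nat.cast_nonneg (α := ℝ) (Fintype.card ι)]
  have h2 : Real.exp (-1) ≤ 1 / 2 := by
    rw [Real.exp_neg, one_div]
    exact inv_anti₀ (by norm_num) (by linarith [Real.add_one_le_exp (1 : ℝ)])
  have h3 := h1.trans (pow_le_pow_left₀ (Real.exp_pos _).le h2 _)
  calc _ ≤ (1 / 2 : ℝ) ^ (Fintype.card ι + 1) * 2 ^ Fintype.card ι :=
        mul_le_mul_of_nonneg_right h3 (by positivity)
    _ = 1 / 2 := by rw [pow_succ, mul_right_comm, ← mul_pow]; norm_num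

/-- a narrow shift keeps a quarter of the mass -/
theorem conv {M : Matrix ι ι ℝ} (hM : M.det ≠ 0) (S : (ι → ℤ) → Prop) {δ s : ℝ} (hδ1 : δ ≤ 1)
    (hs : 0 < s) (hsδ : 40 * ((Fintype.card ι : ℝ) + 1) * s ≤ δ)
    (hS : δ ≤ E (lw M) fun a => ind (S a)) :
    δ / 4 ≤ E (lw M) fun a => E (lw (s⁻¹ • M)) fun b => ind (S (a + b)) := by
  have hN := Nat.cast_nonneg (α := ℝ) (Fintype.card ι)
  have hM' := det_smul_ne (inv_ne_zero hs.ne') hM
  have h := pr_lw hM
  have k := pr_lw hM'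
  set N : ℝ := (Fintype.card ι : ℝ) + 1 with hNd
  have hN1 : 1 ≤ N := by linarith
  have hγ : 0 < N * s := by positivity
  have hδ0 : 0 < δ := by nlinarith
  rw [h.comm k (F := fun a b => ind (S (a + b))) fun a b => ind_mem _]
  have h1 : ∀ b : ι → ℤ, δ / 2 ≤ (E (lw M) fun a => ind (S (a + b))) +
      δ / 2 * ind (N ≤ qf (s⁻¹ • M) (toR b)) := by
    intro b
    by_cases hb : N ≤ qf (s⁻¹ • M) (toR b)
    · rw [ind_pos hb]
      linarith [(h.mem (f := fun a => ind (S (a + b))) fun a => ind_mem _).1]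
    · rw [ind_neg hb, mul_zero, add_zero]
      rw [qf_smul, not_le, inv_pow, inv_mul_lt_iff₀ (by positivity)] at hb
      have h2 := shift hM S b hγ (by nlinarith [mul_nonneg (sq_nonneg s) (mul_nonneg (sub_nonneg.2 hN1) (zero_le_one.trans hN1))])
      have hp := Real.pi_lt_d2
      have hp0 := Real.pi_pos
      have g1 : N * s ≤ δ / 40 := by linarith
      have g2 : (N * s) ^ 2 ≤ N * s := by nlinarith
      have g3 : 2 * π * (2 * (N * s) + (N * s) ^ 2) ≤ 2 * 3.15 * (3 * (δ / 40)) := by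
        apply mul_le_mul (by linarith) (by linarith) (by positivity) (by norm_num)
      linarith
  have u2 : U fun b : ι → ℤ => δ / 2 * ind (N ≤ qf (s⁻¹ • M) (toR b)) := fun b =>
    ⟨mul_nonneg (by linarith) (ind_mem _).1, mul_le_one₀ (by linarith) (ind_mem _).1 (ind_mem _).2⟩
  have h2 := k.le_add (f := fun _ => δ / 2) (fun _ => ⟨by linarith, by linarith⟩)
    (fun b => h.mem (f := fun a => ind (S (a + b))) fun a => ind_mem _) u2 h1
  rw [k.const, E_mul] at h2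
  have h3 := tail_half hM'
  nlinarith

/-- **QUAD** -/
theorem quad {M : Matrix ι ι ℝ} (hM : M.det ≠ 0) (S : (ι → ℤ) → Prop)
    (bad : (ι → ℤ) → (ι → ℤ) → (ι → ℤ) → (ι → ℤ) → Prop) {δ s : ℝ} (hδ1 : δ ≤ 1)
    (hs : 0 < s) (hsδ : 40 * ((Fintype.card ι : ℝ) + 1) * s ≤ δ)
    (hS : δ ≤ E (lw M) fun a => ind (S a))
    (hb : (E (lw M) fun a0 => E (lw M) fun a1 => E (lw (s⁻¹ • M)) fun b0 =>
      E (lw (s⁻¹ • M)) fun b1 => ind (bad a0 a1 b0 b1)) ≤ δ ^ 4 / 1024) :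
    ∃ a0 a1 b0, δ ^ 4 / 512 ≤ E (lw (s⁻¹ • M)) fun b1 =>
      ind (S (a0 + b0) ∧ S (a1 + b0) ∧ S (a0 + b1) ∧ S (a1 + b1) ∧ ¬ bad a0 a1 b0 b1) := by
  have hN := Nat.cast_nonneg (α := ℝ) (Fintype.card ι)
  have hδ0 : 0 < δ := by nlinarith
  have h4 : 0 < δ ^ 4 := by positivity
  obtain ⟨a0, a1, b0, h⟩ := quadA (pr_lw hM) (pr_lw (det_smul_ne (inv_ne_zero hs.ne') hM))
    (fun a b => S (a + b)) bad (c := δ ^ 4 / 512) (by linarith) (conv hM S hδ1 hs hsδ hS) hb
    (by rw [div_pow]; norm_num; linarith)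
  exact ⟨a0, a1, b0, h.le⟩

open Classical in
/-- the input form of `Lv.lvg` -/
theorem to_lvg {M : Matrix ι ι ℝ} (hM : M.det ≠ 0) (T : (ι → ℤ) → Prop) {δ : ℝ}
    (h : 2 * δ ≤ E (lw M) fun b => ind (T b)) :
    2 * δ * th M 0 ≤ ∑' n : ι → ℤ, if n ∈ {b | T b} then gq M (0 + toR n) else 0 := by
  have hth := th_pos hM 0
  rw [← le_div_iff₀ hth, ← tsum_div_const]
  refine h.trans (le_of_eq (tsum_congr fun x => ?_))
  beta_reduce
  by_cases hx : T x
  · rw [ind_pos hx, if_pos (show x ∈ {b | T b} from hx), mul_one, zero_add]; rfl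
  · rw [ind_neg hx, if_neg (show x ∉ {b | T b} from hx), mul_zero, zero_div]

end

end Vale.Agent.P057T.Mt.Qd
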