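import Vale.Agent.P057T.Mt.Seq
import Vale.Agent.P057T.Mt.Quad

/-! Row QM: a dense family of good quadruples. -/

set_option linter.all false

open MvPolynomial Finset Matrix
open scoped Real

namespace Vale.Agent.P057T.Mt

open Vale.Agent.P057T.Eq Vale.Agent.P057T.Cp Vale.Agent.P267.H775 Vale.Agent.P057T.Poi

noncomputable section

namespace QmP

open Qd

variable {κ : Type} [Fintype κ] [DecidableEq κ]

/-- the shifted law -/
def lx (L : Matrix κ κ ℝ) (x : κ → ℝ) (n : κ → ℤ) : ℝ := gq L (x + toR n) / th L x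

theorem pr_lx {L : Matrix κ κ ℝ} (hL : L.det ≠ 0) (x : κ → ℝ) : Pr (lx L x) := by
  have hth := th_pos hL x
  refine ⟨fun n => div_nonneg (gq_pos _ _).le hth.le, ?_⟩
  have h := ((summable_gq hL x).hasSum.div_const (th L x))
  have e : (∑' n : κ → ℤ, gq L (x + toR n)) / th L x = 1 := div_self hth.ne'
  rw [e] at h
  exact h

open Classical in
theorem E_ind (μ : (κ → ℤ) → ℝ) (T : (κ → ℤ) → Prop) :
    E μ (fun a => Qd.ind (T a)) = ∑' x, if T x then μ x else 0 := by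
  refine tsum_congr fun x => ?_
  beta_reduce
  by_cases hx : T x
  · rw [ind_pos hx, if_pos hx, mul_one]
  · rw [ind_neg hx, if_neg hx, mul_zero]

open Classical in
theorem shiftX {L : Matrix κ κ ℝ} (hL : L.det ≠ 0) (x : κ → ℝ) (h2 : th L 0 ≤ 2 * th L x)
    (S : (κ → ℤ) → Prop) (b : κ → ℤ) {γ : ℝ} (hγ : 0 < γ) (hb : qf L (toR b) ≤ γ ^ 2) :
    E (lx L x) (fun a => Qd.ind (S a)) - 4 * π * (2 * γ + γ ^ 2) ≤
      E (lx L x) fun a => Qd.ind (S (a + b)) := by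
  have hth := th_pos hL x
  have hp := pr_lx hL x
  have h1 := Lv.shift_le (lx L x) hp.nn hp.hs.summable {a | S a} b (4 * π * (2 * γ + γ ^ 2)) (by
    obtain ⟨_, h3⟩ := tv_le hL (toR b) x hγ hb
    have e : ∀ y : κ → ℤ, |lx L x (y + b) - lx L x y| =
        |gq L (x + toR b + toR y) - gq L (x + toR y)| / th L x := by
      intro y
      unfold lx
      rw [← sub_div, abs_div, abs_of_pos hth, toR_add', add_comm (toR y), add_assoc]
    rw [tsum_congr e, tsum_div_const, div_le_iff₀ hth]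
    refine h3.trans ?_
    have : 0 ≤ 2 * π * (2 * γ + γ ^ 2) := by positivity
    nlinarith)
  rw [E_ind, E_ind]
  convert h1 using 3 <;> simp

theorem convX {L : Matrix κ κ ℝ} (hL : L.det ≠ 0) (x : κ → ℝ) (h2 : th L 0 ≤ 2 * th L x)
    (S : (κ → ℤ) → Prop) {δ l : ℝ} (hδ0 : 0 < δ) (hδ1 : δ ≤ 1) (hl : 0 < l)
    (hsδ : 80 * ((Fintype.card κ : ℝ) + 1) ≤ δ * l) (hS : δ ≤ E (lx L x) fun a => Qd.ind (S a)) :
    δ / 4 ≤ E (lx L x) fun a => E (lw (l • L)) fun b => Qd.ind (S (a + b)) := by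
  have hN := Nat.cast_nonneg (α := ℝ) (Fintype.card κ)
  have hM' := det_smul_ne hl.ne' hL
  have h := pr_lx hL x
  have k := pr_lw hM'
  set N : ℝ := (Fintype.card κ : ℝ) + 1 with hNd
  have hN1 : 1 ≤ N := by linarith
  have hγ : 0 < N / l := by positivity
  rw [h.comm k (F := fun a b => Qd.ind (S (a + b))) fun a b => ind_mem _]
  have h1 : ∀ b : κ → ℤ, δ / 2 ≤ (E (lx L x) fun a => Qd.ind (S (a + b))) +
      δ / 2 * Qd.ind (N ≤ qf (l • L) (toR b)) := by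
    intro b
    by_cases hb : N ≤ qf (l • L) (toR b)
    · rw [ind_pos hb]
      linarith [(h.mem (f := fun a => Qd.ind (S (a + b))) fun a => ind_mem _).1]
    · rw [ind_neg hb, mul_zero, add_zero]
      rw [qf_smul, not_le] at hb
      have h3 := shiftX hL x h2 S b hγ (by
        rw [div_pow, le_div_iff₀ (by positivity)]
        nlinarith)
      have hp := Real.pi_lt_d2
      have hp0 := Real.pi_pos
      have g1 : N / l ≤ δ / 80 := by
        rw [div_le_div_iff₀ hl (by norm_num)]; linarith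
      have g2 : (N / l) ^ 2 ≤ N / l := by nlinarith
      have g3 : 4 * π * (2 * (N / l) + (N / l) ^ 2) ≤ 4 * 3.15 * (3 * (δ / 80)) := by
        apply mul_le_mul (by linarith) (by linarith) (by positivity) (by norm_num)
      linarith
  have u2 : U fun b : κ → ℤ => δ / 2 * Qd.ind (N ≤ qf (l • L) (toR b)) := fun b =>
    ⟨mul_nonneg (by linarith) (ind_mem _).1, mul_le_one₀ (by linarith) (ind_mem _).1 (ind_mem _).2⟩
  have h3 := k.le_add (f := fun _ => δ / 2) (fun _ => ⟨by linarith, by linarith⟩)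
    (fun b => h.mem (f := fun a => Qd.ind (S (a + b))) fun a => ind_mem _) u2 h1
  rw [k.const, E_mul] at h3
  have h4 := tail_half hM'
  nlinarith

theorem tailX {L : Matrix κ κ ℝ} (hL : L.det ≠ 0) (x : κ → ℝ) (h2 : th L 0 ≤ 5 / 3 * th L x)
    {R : ℝ} (hR : 2 ≤ R) :
    E (lx L x) (fun b => Qd.ind ((Fintype.card κ : ℝ) + R ≤ qf L (x + toR b))) ≤ 3 / 10 * R⁻¹ := by
  have hth := th_pos hL x
  have h := tail_le hL x ((Fintype.card κ : ℝ) + R)
  have e : E (lx L x) (fun b => Qd.ind ((Fintype.card κ : ℝ) + R ≤ qf L (x + toR b))) =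
      (∑' n : κ → ℤ, (if (Fintype.card κ : ℝ) + R ≤ qf L (x + toR n) then gq L (x + toR n)
        else 0)) / th L x := by
    rw [← tsum_div_const]
    refine tsum_congr fun y => ?_
    beta_reduce
    by_cases hx : (Fintype.card κ : ℝ) + R ≤ qf L (x + toR y)
    · rw [ind_pos hx, if_pos hx, mul_one]; rfl
    · rw [ind_neg hx, if_neg hx, mul_zero, zero_div]
  rw [e, div_le_iff₀ hth]
  refine h.trans ?_
  have hp := Real.pi_gt_three
  have hN := Nat.cast_nonneg (α := ℝ) (Fintype.card κ)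
  have h1 : Real.exp (-(3 / 4 * π * ((Fintype.card κ : ℝ) + R))) ≤
      Real.exp (-1) ^ Fintype.card κ * Real.exp (-(2 * R)) := by
    rw [← Real.exp_nat_mul, ← Real.exp_add, Real.exp_le_exp]
    nlinarith
  have h3 : Real.exp (-1) ≤ 1 / 2 := by
    rw [Real.exp_neg, one_div]
    exact inv_anti₀ (by norm_num) (by linarith [Real.add_one_le_exp (1 : ℝ)])
  have h4 : Real.exp (-(2 * R)) ≤ (6 * R)⁻¹ := by
    rw [Real.exp_neg]
    refine inv_anti₀ (by linarith) ?_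
    have := Real.quadratic_le_exp_of_nonneg (x := 2 * R) (by linarith)
    nlinarith
  have h5 : Real.exp (-(3 / 4 * π * ((Fintype.card κ : ℝ) + R))) * 2 ^ Fintype.card κ ≤ (6 * R)⁻¹ := by
    calc _ ≤ ((1 / 2 : ℝ) ^ Fintype.card κ * (6 * R)⁻¹) * 2 ^ Fintype.card κ := by
          refine mul_le_mul_of_nonneg_right (h1.trans ?_) (by positivity)
          exact mul_le_mul (pow_le_pow_left₀ (Real.exp_pos _).le h3 _) h4 (Real.exp_pos _).le
            (by positivity)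
      _ = (6 * R)⁻¹ := by rw [mul_right_comm, ← mul_pow]; norm_num
  have h6 : 0 < R⁻¹ := by positivity
  have h7 := th_pos hL 0
  calc _ ≤ (6 * R)⁻¹ * (5 / 3 * th L x) := mul_le_mul h5 h2 h7.le (by positivity)
    _ ≤ _ := by rw [mul_inv]; nlinarith [mul_pos h6 hth]

theorem en_eq {L : Matrix κ κ ℝ} (hL : L.det ≠ 0) (x : κ → ℝ) (h : (κ → ℤ) → ℝ) :
    |L.det| • ∑' n : κ → ℤ, gq L (x + toR n) • h n = |L.det| * th L x * E (lx L x) h := by
  have hth := th_pos hL x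
  rw [smul_eq_mul, mul_assoc]
  congr 1
  unfold E
  rw [← tsum_mul_left]
  refine tsum_congr fun n => ?_
  unfold lx
  rw [smul_eq_mul]
  field_simp

theorem en_eq0 {L : Matrix κ κ ℝ} (hL : L.det ≠ 0) (h : (κ → ℤ) → ℝ) :
    |L.det| • ∑' n : κ → ℤ, gq L (toR n) • h n = |L.det| * th L 0 * E (lw L) h := by
  have h1 := en_eq hL 0 h
  simp only [zero_add] at h1
  rw [h1]
  congr 2
  funext n
  simp [lx, lw]

variable {ι : Type} [Fintype ι] [DecidableEq ι]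

theorem ext_add (V : Finset ι) (a b : V → ℤ) : ext0 V (a + b) = ext0 V a + ext0 V b := by
  funext i
  by_cases h : i ∈ V <;> simp [ext0, h]

theorem ext_mem (V : Finset ι) (a : V → ℤ) : ext0 V a ∈ Lat V := fun i h => by simp [ext0, h]

theorem ext_val (V : Finset ι) (a : V → ℤ) (i : V) : ext0 V a i.1 = a i := by simp [ext0]

theorem ext_inj (V : Finset ι) {a b : V → ℤ} (h : ext0 V a = ext0 V b) : a = b := by
  funext i
  rw [← ext_val V a i, h, ext_val]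

theorem n1 {W W' B : ℝ} (h1 : 3 / 4 ≤ W) (h2 : 1 ≤ W') (h3 : 0 ≤ B) :
    9 / 16 * B ≤ W * (W * (W' * (W' * B))) := by
  have a1 : B ≤ W' * B := by nlinarith
  have a2 : B ≤ W' * (W' * B) := by nlinarith
  have a3 : 3 / 4 * B ≤ W * (W' * (W' * B)) := by nlinarith
  nlinarith

theorem n2 {W E r : ℝ} (h1 : W ≤ 5 / 4) (h2 : 0 ≤ E) (h3 : r ≤ W * E) : 4 / 5 * r ≤ E := by
  nlinarith

theorem n3 {D a b : ℝ} (hD : 0 < D) (h1 : D * a ≤ 5 / 4) (h2 : 3 / 4 ≤ D * b) : a ≤ 5 / 3 * b := by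
  have : D * a ≤ D * (5 / 3 * b) := by nlinarith
  exact le_of_mul_le_mul_left this hD

theorem n4 {N R n : ℝ} (hN : 2 ≤ N) (hR : 2 ≤ R) (hn : n ≤ N) :
    80 * (n + 1) * (2 * R) ≤ (N * R) ^ 19 ∧ n + R ≤ (N * R) ^ 19 ∧ 1 ≤ (N * R) ^ 19 := by
  have hNR : 4 ≤ N * R := by nlinarith
  have hNR1 : N * R ≤ (N * R) ^ 19 := le_self_pow₀ (by linarith) (by norm_num)
  refine ⟨?_, le_trans (by nlinarith) hNR1, by linarith⟩
  have h1 : (4 : ℝ) ^ 18 ≤ (N * R) ^ 18 := pow_le_pow_left₀ (by norm_num) hNR 18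
  calc 80 * (n + 1) * (2 * R) ≤ 80 * (2 * N) * (2 * R) := by
        refine mul_le_mul_of_nonneg_right ?_ (by linarith)
        linarith
    _ = 320 * (N * R) := by ring
    _ ≤ (N * R) ^ 18 * (N * R) :=
        mul_le_mul_of_nonneg_right (le_trans (by norm_num) h1) (by linarith)
    _ = (N * R) ^ 19 := by ring

theorem n5 {R : ℝ} (hR : 2 ≤ R) : (R ^ 19)⁻¹ ≤ (32768 * R ^ 4)⁻¹ ∧ (R ^ 19)⁻¹ ≤ 1 / 4 ∧
    (32768 * R ^ 4)⁻¹ < ((2 * R)⁻¹ / 4) ^ 4 - 2 * (32768 * R ^ 4)⁻¹ ∧ 0 < (32768 * R ^ 4)⁻¹ := by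
  have hR0 : 0 < R := by linarith
  have hR4 : 0 < R ^ 4 := by positivity
  have hR19 : 32768 * R ^ 4 ≤ R ^ 19 := by
    have : (2 : ℝ) ^ 15 ≤ R ^ 15 := pow_le_pow_left₀ (by norm_num) hR 15
    calc 32768 * R ^ 4 = 2 ^ 15 * R ^ 4 := by norm_num
      _ ≤ R ^ 15 * R ^ 4 := mul_le_mul_of_nonneg_right this hR4.le
      _ = R ^ 19 := by ring
  have hε : (R ^ 19)⁻¹ ≤ (32768 * R ^ 4)⁻¹ := inv_anti₀ (by positivity) hR19
  have hR41 : 1 ≤ R ^ 4 := one_le_pow₀ (by linarith)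
  refine ⟨hε, hε.trans ?_, ?_, by positivity⟩
  · rw [one_div]
    exact inv_anti₀ (by norm_num) (by linarith)
  · have hi : 0 < (R ^ 4)⁻¹ := by positivity
    have : ((2 * R)⁻¹ / 4) ^ 4 = (4096 : ℝ)⁻¹ * (R ^ 4)⁻¹ := by
      field_simp; norm_num
    rw [this, mul_inv]
    linarith

theorem n6 {u K T : ℝ} (h1 : u ^ 2 ≤ K) (h2 : 1 ≤ K) (h3 : K ≤ T) : |u| ≤ T := by
  refine le_trans (abs_le_of_sq_le_sq' ?_ (by linarith) |> abs_le.2) h3
  nlinarith

end QmP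

open QmP Qd

theorem qm (hL : LAT) : QM := by
  refine ⟨19, ?_⟩
  intro ι Γ _ _ _ _ M e N R l G bad hM hI hN hN2 hR hl hnm hG hb
  obtain ⟨L, x, hd, -, hsc, hen⟩ := hL ι Γ M e hM hI
  have hc : (Fintype.card M.U : ℝ) ≤ N := by
    refine le_trans ?_ hN
    exact_mod_cast Fintype.card_subtype_le _
  obtain ⟨m1, m2, m3⟩ := n4 hN2 hR hc
  obtain ⟨hε, hε4, m4, m5⟩ := n5 hR
  have hl1 : 1 ≤ l := m3.trans hl
  have hl0 : 0 < l := by linarith
  have hd' := det_smul_ne hl0.ne' hd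
  have e1 : ∀ h : (ι → ℤ) → ℝ, M.En h = |L.det| * th L x * E (lx L x) fun n => h (ext0 M.U n) :=
    fun h => (hen ℝ h).1.trans (en_eq hd x _)
  have e2 : ∀ h : (ι → ℤ) → ℝ, (M.nw e l).En h =
      |(l • L).det| * th (l • L) 0 * E (lw (l • L)) fun n => h (ext0 M.U n) :=
    fun h => ((hen ℝ h).2 l hl0).trans (en_eq0 hd' _)
  have pμ := pr_lx hd x
  have pν := pr_lw hd'
  set W : ℝ := |L.det| * th L x with hW
  set W' : ℝ := |(l • L).det| * th (l • L) 0 with hW'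
  have hR0 : 0 < R := by linarith
  have w1 : W' ≤ 5 / 4 := by
    have : (M.nw e l).nm = W' := by
      unfold MT.nm
      rw [e2, pν.const, mul_one]
    linarith
  have w2 : 1 ≤ W' := by rw [hW', ← th_dual hd']; exact one_le_th (det_dual hd')
  have w3 : th (L⁻¹)ᵀ 0 ≤ 5 / 4 := by
    have h1 := th_smul_mono (det_dual hd) 0 (s := l⁻¹) (by positivity) (inv_le_one_of_one_le₀ hl1)
    rw [← dual_smul hl0.ne' hd, th_dual hd'] at h1
    linarith
  have w4 := abs_le.1 (abs_th_sub hd x)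
  have w5 : 3 / 4 ≤ W := by linarith [w4.1]
  have w6 : W ≤ 5 / 4 := by linarith [w4.2]
  have hdp : 0 < |L.det| := abs_pos.2 hd
  have w7 : th L 0 ≤ 5 / 3 * th L x := by
    rw [th_dual hd] at w3
    exact n3 hdp w3 w5
  have w8 : th L 0 ≤ 2 * th L x := by linarith [th_pos hd x]
  set K : ℝ := (Fintype.card M.U : ℝ) + R with hK
  have hRi : 0 < R⁻¹ := by positivity
  let S0 : (M.U → ℤ) → Prop := fun z => G (ext0 M.U z) ∧ qf L (x + toR z) ≤ K
  have g1 : 4 / 5 * R⁻¹ ≤ E (lx L x) fun n => Qd.ind (G (ext0 M.U n)) := by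
    rw [e1] at hG
    have h0 := (pμ.mem (f := fun n => Qd.ind (G (ext0 M.U n))) fun _ => ind_mem _).1
    exact n2 w6 h0 hG
  have g2 : (2 * R)⁻¹ ≤ E (lx L x) fun n => Qd.ind (S0 n) := by
    have h1 := pμ.le_add (f := fun n => Qd.ind (G (ext0 M.U n))) (g := fun n => Qd.ind (S0 n))
      (k := fun n => Qd.ind (K ≤ qf L (x + toR n))) (fun _ => ind_mem _) (fun _ => ind_mem _)
      (fun _ => ind_mem _) (fun n => by
        by_cases h1 : K ≤ qf L (x + toR n)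
        · rw [ind_pos h1]; linarith [(ind_mem (G (ext0 M.U n))).2, (ind_mem (S0 n)).1]
        · rw [ind_neg h1, add_zero]
          by_cases h2 : G (ext0 M.U n)
          · rw [ind_pos h2, ind_pos (show S0 n from ⟨h2, (not_le.1 h1).le⟩)]
          · rw [ind_neg h2]; exact (ind_mem _).1)
    have h2 := tailX hd x w7 hR
    rw [mul_inv]
    linarith
  have hδ0 : 0 < (2 * R)⁻¹ := by positivity
  have hδ1 : (2 * R)⁻¹ ≤ 1 := inv_le_one_of_one_le₀ (by linarith)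
  have g3 := convX hd x w8 S0 hδ0 hδ1 hl0 (by
    rw [inv_mul_eq_div, le_div_iff₀ (by positivity)]
    exact m1.trans hl) g2
  let bad' : (M.U → ℤ) → (M.U → ℤ) → (M.U → ℤ) → (M.U → ℤ) → Prop := fun a0 a1 b0 b1 =>
    bad (fun p => cond p (ext0 M.U a1) (ext0 M.U a0)) (fun q => cond q (ext0 M.U b1) (ext0 M.U b0))
  set B : ℝ := E (lx L x) fun a0 => E (lx L x) fun a1 => E (lw (l • L)) fun b0 =>
      E (lw (l • L)) fun b1 => Qd.ind (bad' a0 a1 b0 b1) with hB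
  have b0 : 0 ≤ B := (pμ.mem fun a0 => pμ.mem fun a1 => pν.mem fun b0 => pν.mem fun b1 =>
    ind_mem _).1
  have b1 : M.E4 e l (fun x y => Mt.ind (bad x y)) = W * (W * (W' * (W' * B))) := by
    unfold MT.E4
    simp only [e1, e2, E_mul]
    rfl
  have b2 : B ≤ 2 * (32768 * R ^ 4)⁻¹ := by
    rw [b1] at hb
    have h4 := (n1 w5 w2 b0).trans (hb.trans hε)
    linarith only [h4, m5]
  obtain ⟨a0, a1, c0, h⟩ := quadA pμ pν (fun a b => S0 (a + b)) bad' (c := (32768 * R ^ 4)⁻¹)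
    (by linarith only [hδ0]) g3 (ε := 2 * (32768 * R ^ 4)⁻¹) b2 m4
  refine ⟨ext0 M.U a0, ext0 M.U a1, ext0 M.U c0, fun z => ∃ b1, z = ext0 M.U b1 ∧
    S0 (a0 + c0) ∧ S0 (a1 + c0) ∧ S0 (a0 + b1) ∧ S0 (a1 + b1) ∧ ¬ bad' a0 a1 c0 b1,
    ext_mem _ _, ?_, ?_⟩
  · rw [e2]
    have h1 : (E (lw (l • L)) fun b1 => Qd.ind
        (S0 (a0 + c0) ∧ S0 (a1 + c0) ∧ S0 (a0 + b1) ∧ S0 (a1 + b1) ∧ ¬ bad' a0 a1 c0 b1)) ≤
        E (lw (l • L)) fun n => Qd.ind (∃ b1, ext0 M.U n = ext0 M.U b1 ∧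
          S0 (a0 + c0) ∧ S0 (a1 + c0) ∧ S0 (a0 + b1) ∧ S0 (a1 + b1) ∧ ¬ bad' a0 a1 c0 b1) := by
      refine pν.mono (fun _ => ind_mem _) (fun _ => ind_mem _) fun n => ?_
      by_cases hn : S0 (a0 + c0) ∧ S0 (a1 + c0) ∧ S0 (a0 + n) ∧ S0 (a1 + n) ∧ ¬ bad' a0 a1 c0 n
      · rw [ind_pos hn, ind_pos ⟨n, rfl, hn⟩]
      · rw [ind_neg hn]; exact (ind_mem _).1
    have h2 := (hε.trans h.le).trans h1
    have h3 : 0 ≤ (R ^ 19)⁻¹ := by positivity
    refine h2.trans ?_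
    exact le_mul_of_one_le_left (h3.trans h2) w2
  · rintro z ⟨b1, rfl, s1, s2, s3, s4, s5⟩
    refine ⟨ext_mem _ _, ?_, ?_, ?_, ?_, s5, fun v hv => ?_⟩
    · rw [← ext_add]; exact s1.1
    · rw [← ext_add]; exact s3.1
    · rw [← ext_add]; exact s2.1
    · rw [← ext_add]; exact s4.1
    · have h1 : eval (cz (ext0 M.U a0 + ext0 M.U b1)) (M.sc v) =
          (L *ᵥ (x + toR (a0 + b1))) ⟨v, hv⟩ := by
        rw [← ext_add, hsc ⟨v, hv⟩, mulVec_add, Pi.add_apply]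
        simp only [map_add, map_sum, map_mul, eval_C, eval_X, cz, ext_val]
        exact add_comm _ _
      have h2 : ((L *ᵥ (x + toR (a0 + b1))) ⟨v, hv⟩) ^ 2 ≤ K :=
        le_trans (single_le_sum (f := fun i => ((L *ᵥ (x + toR (a0 + b1))) i) ^ 2)
          (fun _ _ => sq_nonneg _) (mem_univ _)) s3.2
      rw [h1]
      exact n6 h2 (by linarith only [hK, hR, Nat.cast_nonneg (α := ℝ) (Fintype.card M.U)]) m2

end

end Vale.Agent.P057T.Mt
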