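import Vale.Agent.P057T.GapH21
import Vale.Agent.P057T.Gau2H52
import Vale.Agent.P057T.GauH52

/-! A short basis of a lattice whose dual has a small theta value. -/

open Submodule Set Module Matrix
open Vale.Agent.P267.H775

namespace Vale.Agent.P057T.Mt

set_option linter.unusedSectionVars false

/-- a short generating family from the covering radius -/
theorem sb_gen {E : Type*} [NormedAddCommGroup E] [InnerProductSpace ℝ E] [FiniteDimensional ℝ E]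
    (Λ : Submodule ℤ E) (hfin : ∀ R : ℝ, Set.Finite {x | x ∈ Λ ∧ ‖x‖ ≤ R}) {ρ : ℝ} (hρ : 0 < ρ)
    (hcov : ∀ x, ∃ v ∈ Λ, ‖x - v‖ < ρ) :
    ∃ (a : ℕ) (e : Fin a → E), a = finrank ℝ E ∧ (∀ i, e i ∈ Λ) ∧ (∀ i, ‖e i‖ ≤ a * (2 * ρ)) ∧
      ∀ x ∈ Λ, x ∈ span ℤ (range e) := by
  have htop : span ℝ {x | x ∈ Λ ∧ ‖x‖ ≤ 2 * ρ} = ⊤ := by
    rw [← Submodule.orthogonal_eq_bot_iff, eq_bot_iff]
    intro u hu
    rw [mem_bot]
    by_contra h0
    have hn : 0 < ‖u‖ := norm_pos_iff.2 h0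
    have h1 : ‖(ρ / ‖u‖) • u‖ = ρ := by
      rw [norm_smul, Real.norm_eq_abs, abs_of_pos (div_pos hρ hn), div_mul_cancel₀ _ hn.ne']
    obtain ⟨v, hv, h2⟩ := hcov ((ρ / ‖u‖) • u)
    have h3 : ‖v‖ ≤ 2 * ρ := by
      have := norm_sub_norm_le v ((ρ / ‖u‖) • u)
      rw [norm_sub_rev] at this
      linarith
    have h4 : inner ℝ ((ρ / ‖u‖) • u) v = 0 :=
      (Submodule.mem_orthogonal' _ _).1 (smul_mem _ _ hu) v (subset_span ⟨hv, h3⟩)
    have h5 := norm_sub_sq_real ((ρ / ‖u‖) • u) v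
    rw [h4, h1] at h5
    nlinarith [norm_nonneg ((ρ / ‖u‖) • u - v), sq_nonneg ‖v‖]
  obtain ⟨v, hv1, hv2, hv3⟩ :=
    Submodule.exists_fun_fin_finrank_span_eq ℝ {x | x ∈ Λ ∧ ‖x‖ ≤ 2 * ρ}
  obtain ⟨e, he1, -, he3, -, he5⟩ := H21.tri Λ hfin _ v hv3 fun i => (hv1 i).1
  refine ⟨_, e, by rw [htop, finrank_top], he1, fun i => (he3 i).trans ?_, fun x hx => he5 x hx ?_⟩
  · calc ∑ l, ‖v l‖ ≤ ∑ _l : Fin _, 2 * ρ := Finset.sum_le_sum fun l _ => (hv1 l).2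
      _ = _ := by simp
  · rw [hv2, htop]
    exact mem_top

variable {ι : Type*} [Fintype ι] [DecidableEq ι]

/-- the lattice map -/
noncomputable def sbMap (M : Matrix ι ι ℝ) : (ι → ℤ) →ₗ[ℤ] EuclideanSpace ℝ ι :=
  AddMonoidHom.toIntLinearMap
    { toFun := fun n => WithLp.toLp 2 (M *ᵥ toR n)
      map_zero' := by
        have : toR (0 : ι → ℤ) = 0 := funext fun i => by simp
        rw [this, mulVec_zero]
        rfl
      map_add' := fun m n => by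
        rw [toR_add, mulVec_add]
        rfl }

theorem sb_norm (M : Matrix ι ι ℝ) (x : ι → ℝ) :
    ‖(WithLp.toLp 2 (M *ᵥ x) : EuclideanSpace ℝ ι)‖ ^ 2 = qf M x := by
  rw [EuclideanSpace.real_norm_sq_eq]
  rfl

theorem sbMap_norm (M : Matrix ι ι ℝ) (n : ι → ℤ) : ‖sbMap M n‖ ^ 2 = qf M (toR n) :=
  sb_norm M _

theorem sbMap_inj {M : Matrix ι ι ℝ} (hM : M.det ≠ 0) : Function.Injective (sbMap M) := by
  intro m n h
  have h1 : M *ᵥ toR m = M *ᵥ toR n := congrArg WithLp.ofLp h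
  have h2 := congrArg (M⁻¹ *ᵥ ·) h1
  simp only [mulVec_mulVec, nonsing_inv_mul _ (isUnit_iff_ne_zero.2 hM), one_mulVec] at h2
  funext i
  exact Int.cast_injective (α := ℝ) (congrFun h2 i)

theorem sb (M : Matrix ι ι ℝ) (hM : M.det ≠ 0) {s : ℝ} (hs : 0 < s)
    (hθ : Poi.th (s • (M⁻¹)ᵀ) 0 ≤ 3 / 2) :
    ∃ U W : Matrix ι ι ℤ, U * W = 1 ∧
      ∀ j, qf M (fun a => (U a j : ℝ)) ≤ (4 * ((Fintype.card ι : ℝ) + 1) ^ 3 * s) ^ 2 := by
  have hN : (0 : ℝ) ≤ Fintype.card ι := Nat.cast_nonneg _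
  have hs' : s⁻¹ ≠ 0 := inv_ne_zero hs.ne'
  have hρ : 0 < (Fintype.card ι + 1) * s := by positivity
  obtain ⟨a, e, ha, he1, he2, he3⟩ := sb_gen (LinearMap.range (sbMap M)) (fun R => by
      refine ((Poi.finite_ball hM 0 (R ^ 2)).image (sbMap M)).subset ?_
      rintro x ⟨⟨n, rfl⟩, hR⟩
      refine ⟨n, ?_, rfl⟩
      show qf M (0 + toR n) ≤ R ^ 2
      rw [zero_add, ← sbMap_norm]
      exact pow_le_pow_left₀ (norm_nonneg _) hR 2) hρ (fun x => by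
      obtain ⟨n, hn⟩ := Poi.cover (Poi.det_smul_ne hs' hM)
        (by rw [Poi.dual_smul hs' hM, inv_inv]; exact hθ) (M⁻¹ *ᵥ x.ofLp)
      refine ⟨sbMap M (-n), ⟨_, rfl⟩, ?_⟩
      have h1 : x - sbMap M (-n) = WithLp.toLp 2 (M *ᵥ (M⁻¹ *ᵥ x.ofLp + toR n)) := by
        rw [map_neg, sub_neg_eq_add, mulVec_add, mulVec_mulVec,
          mul_nonsing_inv _ (isUnit_iff_ne_zero.2 hM), one_mulVec]
        rfl
      rw [Poi.qf_smul, ← sb_norm, ← h1, inv_pow, inv_mul_lt_iff₀ (by positivity)] at hn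
      refine lt_of_pow_lt_pow_left₀ 2 hρ.le (hn.trans_le ?_)
      rw [mul_pow, mul_comm]
      exact mul_le_mul_of_nonneg_right (by nlinarith) (sq_nonneg s))
  rw [finrank_euclideanSpace] at ha
  choose u hu using he1
  choose c hc using fun k : ι => (mem_span_range_iff_exists_fun ℤ).1
    (he3 (sbMap M (Pi.single k 1)) ⟨_, rfl⟩)
  let σ : ι ≃ Fin a := Fintype.equivFinOfCardEq ha.symm
  refine ⟨Matrix.of fun i j => u (σ j) i, Matrix.of fun j k => c k (σ j), ?_, fun j => ?_⟩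
  · ext i k
    have h1 : ∑ l, c k l • u l = Pi.single k 1 := by
      apply sbMap_inj hM
      rw [← hc k, map_sum]
      exact Finset.sum_congr rfl fun l _ => by rw [map_smul, hu]
    have h2 := congrFun h1 i
    rw [Finset.sum_apply, ← σ.sum_comp] at h2
    rw [Matrix.mul_apply, Matrix.one_apply, ← Pi.single_apply k (1 : ℤ) i, ← h2]
    exact Finset.sum_congr rfl fun l _ => by simp [mul_comm]
  · have h1 := sbMap_norm M (u (σ j))
    rw [hu] at h1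
    refine le_trans h1.symm.le (pow_le_pow_left₀ (norm_nonneg _) ((he2 _).trans ?_) 2)
    rw [ha, ← mul_assoc 2, ← mul_assoc]
    refine mul_le_mul_of_nonneg_right ?_ hs.le
    nlinarith [mul_nonneg hN hN, mul_nonneg hN (mul_nonneg hN hN)]

end Vale.Agent.P057T.Mt
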