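import Vale.Agent.P057T.Mt.Seq
import Vale.Agent.P057T.Mt.Sb

/-! Row SB in the form of the table. -/

namespace Vale.Agent.P057T.Mt

theorem sbR : SB := fun _ _ _ L _ hL hs h => sb L hL hs h

end Vale.Agent.P057T.Mt
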