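import Vale.Agent.P057T.Mt.Seq

/-! Row SEL: many fibres with one multiplier. -/

set_option linter.all false

open MvPolynomial Finset
open scoped Real

namespace Vale.Agent.P057T.Mt

open Vale.Agent.P057T.Eq Vale.Agent.P057T.Cp

noncomputable section

namespace SelA

variable {ι Γ : Type} [Fintype ι] [DecidableEq ι] [Fintype Γ] [DecidableEq Γ]

/-- bounded functions -/
def Bd (h : (ι → ℤ) → ℝ) : Prop := ∃ B, ∀ z, |h z| ≤ B

theorem Bd.add {h k : (ι → ℤ) → ℝ} (a : Bd h) (b : Bd k) : Bd fun z => h z + k z := by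
  obtain ⟨B, a⟩ := a
  obtain ⟨B', b⟩ := b
  exact ⟨B + B', fun z => (abs_add_le _ _).trans (add_le_add (a z) (b z))⟩

theorem Bd.mul {h : (ι → ℤ) → ℝ} (a : Bd h) (t : ℝ) : Bd fun z => t * h z := by
  obtain ⟨B, a⟩ := a
  exact ⟨|t| * B, fun z => by rw [abs_mul]; exact mul_le_mul_of_nonneg_left (a z) (abs_nonneg t)⟩

theorem bd_ind (p : (ι → ℤ) → Prop) : Bd fun z => ind (p z) :=
  ⟨1, fun z => by by_cases h : p z <;> simp [ind, h]⟩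

theorem both (hE : ENM) {M : MT ι Γ} (hM : M.Ok) {h k : (ι → ℤ) → ℝ} (a : Bd h) (b : Bd k) :
    ((∀ z ∈ Lat M.U, h z ≤ k z) → M.En h ≤ M.En k) ∧
      M.En (fun z => h z + k z) = M.En h + M.En k := by
  obtain ⟨B, a⟩ := a
  obtain ⟨B', b⟩ := b
  have := (hE ι Γ M hM).1 h k (max B B') (fun z => (a z).trans (le_max_left _ _))
    fun z => (b z).trans (le_max_right _ _)
  exact ⟨this.1, this.2.1⟩

theorem nm_abs (hE : ENM) {M : MT ι Γ} (hM : M.Ok) : |M.nm| ≤ M.nm := by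
  have := ((hE ι Γ M hM).1 (fun _ => 1) (fun _ => 1) 1 (fun _ => by simp) fun _ => by simp).2.2
  rwa [one_mul] at this

theorem norm_ee (x : ℝ) : ‖ee x‖ = 1 := by
  have : (2 * π * Complex.I * x : ℂ) = ((2 * π * x : ℝ) : ℂ) * Complex.I := by push_cast; ring
  rw [ee, this, Complex.norm_exp_ofReal_mul_I]

theorem en_congr {E : Type} [NormedAddCommGroup E] [NormedSpace ℝ E] (M : MT ι Γ)
    {h k : (ι → ℤ) → E} (e : ∀ z ∈ Lat M.U, h z = k z) : M.En h = M.En k := by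
  unfold MT.En Ex
  congr 1
  exact tsum_congr fun z => by rw [e z.1 z.2]

theorem ib_mono {M : MT ι Γ} {c : Γ} {F : MvPolynomial ι ℝ} {H H' : ℝ} (h : M.IB c F H)
    (k : H ≤ H') : M.IB c F H' := by
  obtain ⟨I, b, a1, a2, a3, a4, a5, a6, a7, a8, a9⟩ := h
  exact ⟨I, b, a1, a2, a3, a4, a5, a6, a7, a8.trans k, a9⟩

theorem num {R T g d e b m p : ℝ} (hR : 2 ≤ R) (hg : 1 ≤ g) (hT : 128 * g * R ≤ T) (hd : 0 ≤ d)
    (hdT : T ^ 2 * d ≤ 1) (b1 : 1 - g * d ≤ b) (b2 : b ≤ 1 + d) (hm : m ≤ 1 + d)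
    (he : e ≤ (g + 1) * d / T⁻¹)
    (h : R⁻¹ ≤ 2 * p + ((4 * R)⁻¹ + g * T⁻¹ - 1) * b + m + e) : (8 * R)⁻¹ ≤ p := by
  have hT0 : 0 < T := by nlinarith
  have hT1 : 256 ≤ T := by nlinarith
  have hu : 0 < R⁻¹ := by positivity
  have h1 : g * T⁻¹ ≤ R⁻¹ / 128 := by
    rw [← div_eq_mul_inv, div_le_iff₀ hT0]
    have : R⁻¹ * R = 1 := inv_mul_cancel₀ (by linarith)
    nlinarith [mul_le_mul_of_nonneg_left hT hu.le]
  have h2 : T * d ≤ T⁻¹ := by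
    rw [← one_div, le_div_iff₀ hT0]; nlinarith
  have h3 : T⁻¹ ≤ 1 := inv_le_one_of_one_le₀ (by linarith)
  have h4 : d ≤ T * d := by nlinarith
  have h5 : e ≤ 2 * (g * T⁻¹) := by
    rw [div_inv_eq_mul] at he
    nlinarith [mul_nonneg hT0.le hd]
  have h6 : g * d ≤ g * T⁻¹ := by nlinarith
  have h7 : d ≤ g * T⁻¹ := by nlinarith
  have h8 : 0 ≤ g * T⁻¹ := by positivity
  have h9 : ((4 * R)⁻¹ + g * T⁻¹) * b ≤ ((4 * R)⁻¹ + g * T⁻¹) * 2 :=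
    mul_le_mul_of_nonneg_left (by linarith) (by positivity)
  rw [mul_inv, show (4 : ℝ)⁻¹ = 1 / 4 by norm_num] at h h9
  rw [mul_inv, show (8 : ℝ)⁻¹ = 1 / 8 by norm_num]
  nlinarith

end SelA

open SelA in
theorem sel (hO : OPS) (hF : FUM) (hS : SUBT) (hE : ENM) (hZ : FRZ) (hT : FIBT) (r j : ℕ)
    (hQ : SQn r j) : SEL r j := by
  obtain ⟨C0, hQ⟩ := hQ
  refine ⟨4 * (C0 + r + 2), ?_⟩
  intro ι Γ _ _ _ _ M A c N R Λ d Q hM hr hN hN2 hR hΛ hd hTH hc hA hQv hQt hb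
  have hNR : 4 ≤ N * R := by nlinarith
  have hX : N * (4 * R) ≤ (N * R) ^ 2 := by nlinarith
  have hX1 : 8 * R ≤ N * (4 * R) := by nlinarith
  obtain ⟨T, hTd⟩ : ∃ T, T = (N * (4 * R)) ^ (C0 + r + 2) := ⟨_, rfl⟩
  have hT1 : (N * (4 * R)) ^ C0 ≤ T := hTd ▸ pow_le_pow_right₀ (by linarith) (by omega)
  have hT2 : T ^ 2 ≤ (N * R) ^ (4 * (C0 + r + 2)) := by
    rw [hTd, ← pow_mul, show 4 * (C0 + r + 2) = 2 * ((C0 + r + 2) * 2) by ring,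
      pow_mul (N * R) 2]
    exact pow_le_pow_left₀ (by linarith) hX _
  have hg1 : (1 : ℝ) ≤ 2 ^ Fintype.card Γ := one_le_pow₀ one_le_two
  have hT3 : 128 * 2 ^ Fintype.card Γ * R ≤ T := by
    have a1 : (2 : ℝ) ^ Fintype.card Γ ≤ (N * (4 * R)) ^ (C0 + r) :=
      (pow_le_pow_right₀ one_le_two (by omega)).trans (pow_le_pow_left₀ zero_le_two (by linarith) _)
    have a2 : 128 * R ≤ (N * (4 * R)) ^ 2 := by nlinarith
    rw [hTd, pow_add]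
    nlinarith [mul_le_mul a1 a2 (by linarith) (by positivity)]
  have hT4 : 1 ≤ T := by nlinarith
  have hT5 : T ≤ (N * R) ^ (4 * (C0 + r + 2)) := by nlinarith
  have hΛ1 : 1 ≤ Λ := by linarith
  have ht : 0 < T⁻¹ := by positivity
  obtain ⟨d0, m1, -, -, hbs, -⟩ := hS ι Γ M 3 Λ d hM hΛ1 hTH
  obtain ⟨-, -, -, -, o5, o6, -⟩ := hO ι Γ M hM
  obtain ⟨-, b2, b1, -⟩ := hS ι Γ (M.bs A) 3 Λ d (o5 A) hΛ1 (hbs A)
  obtain ⟨⟨B, hB⟩, hfu⟩ := hF ι Γ M A hM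
  have hbad := hT ι Γ M A 3 Λ d T⁻¹ hM hΛ1 ht hTH
  have hn1 : 1 ≤ ⌊(4 * R) ^ C0⌋₊ := Nat.le_floor (by
    rw [Nat.cast_one]; exact one_le_pow₀ (by linarith))
  let p : ℕ → (ι → ℤ) → Prop := fun n y => (M.fib A y).IB c
    (fz (M.mv A) y (C (n : ℝ) * kp M.col {c} Q)) ((N * R) ^ (4 * (C0 + r + 2)))
  let f : (ι → ℤ) → ℂ := fun y => (M.fib A y).En fun x => ee (eval (cz (y + x)) Q)
  have hf : ∀ y, ‖f y‖ ≤ (M.fib A y).nm := fun y => by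
    have := (hE ι Γ _ (o6 A y).1).2.2.1 (fun x => ee (eval (cz (y + x)) Q)) 1
      fun _ => (norm_ee _).le
    simp only [norm_ee] at this
    exact this
  have hnb : Bd fun y => (M.fib A y).nm := ⟨B, fun y => (nm_abs hE (o6 A y).1).trans (hB y)⟩
  have h1 : R⁻¹ ≤ (M.bs A).En fun y => ‖f y‖ := by
    rw [hfu ℂ _ 1 fun _ => (norm_ee _).le] at hb
    exact hb.trans ((hE ι Γ _ (o5 A)).2.2.1 f B fun y => (hf y).trans (hB y))
  have h2 : M.nm = (M.bs A).En fun y => (M.fib A y).nm := hfu ℝ (fun _ => 1) 1 fun _ => by simp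
  obtain ⟨bad, hbd⟩ : ∃ bad : (ι → ℤ) → ℝ, bad = fun y => by
    classical exact if (M.fib A y).TH 3 Λ T⁻¹ then (0 : ℝ) else 1 := ⟨_, rfl⟩
  rw [← hbd] at hbad
  have hbb : Bd bad := ⟨1, fun y => by rw [hbd]; dsimp only; split_ifs <;> simp⟩
  have hone : Bd fun _ : ι → ℤ => (1 : ℝ) := ⟨1, fun _ => by simp⟩
  have hi := bd_ind fun y => ∃ i, 1 ≤ i ∧ i ≤ ⌊(4 * R) ^ C0⌋₊ ∧ p i y
  have h3 := (both hE (o5 A) (h := fun y => ‖f y‖) ⟨B, fun y => by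
    rw [abs_norm]; exact (hf y).trans (hB y)⟩ ((((hi.mul 2).add
      (hone.mul ((4 * R)⁻¹ + 2 ^ Fintype.card Γ * T⁻¹ - 1))).add hnb).add hbb)).1 fun y hy => by
    have k0 : 0 < (4 * R)⁻¹ := by positivity
    have k1 : 0 ≤ ind (∃ i, 1 ≤ i ∧ i ≤ ⌊(4 * R) ^ C0⌋₊ ∧ p i y) := by
      unfold ind; split_ifs <;> simp
    have k2 : 0 ≤ (2 : ℝ) ^ Fintype.card Γ * T⁻¹ := by positivity
    have k3 := hf y
    by_cases hg : (M.fib A y).TH 3 Λ T⁻¹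
    · have k4 : bad y = 0 := by rw [hbd]; exact if_pos hg
      obtain ⟨-, k5, k6, -⟩ := hS ι Γ _ 3 Λ T⁻¹ (o6 A y).1 hΛ1 hg
      have k7 : T⁻¹ ≤ 1 := inv_le_one_of_one_le₀ hT4
      by_cases hl : (4 * R)⁻¹ ≤ ‖f y‖
      · obtain ⟨-, z2, z3, -, -, -, -, z8, -⟩ := hZ ι Γ M A c y hM hc
        have e : f y = (M.fib A y).En fun x => ee (eval (cz x) (fz (M.mv A) y Q)) :=
          en_congr _ fun x hx => by rw [z8 Q hQv x hx hy]
        obtain ⟨n, n1, n2, n3⟩ := hQ ι Γ (M.fib A y) A c N (4 * R) Λ T⁻¹ (fz (M.mv A) y Q)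
          (o6 A y).1 hr hN hN2 (by linarith) (by linarith)
          (by rw [← div_eq_mul_inv]; exact (div_le_one (by linarith)).2 hT1) hg
          (fun a _ => inter_subset_right) hc hA (z2 Q hQt).2 (z2 Q hQt).1 (e ▸ hl)
        have k8 : ind (∃ i, 1 ≤ i ∧ i ≤ ⌊(4 * R) ^ C0⌋₊ ∧ p i y) = 1 := if_pos
          ⟨n, n1, Nat.le_floor n2, by
            rw [z3 Q hQv] at n3
            have e2 : fz (M.mv A) y (C (n : ℝ) * kp M.col {c} Q) =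
                C (n : ℝ) * fz (M.mv A) y (kp M.col {c} Q) := by
              simp only [fz, map_mul, aeval_C, algebraMap_eq]
            show MT.IB _ _ _ _
            rw [e2]
            exact ib_mono n3 (by linarith)⟩
        rw [k8, k4]
        linarith
      · rw [k4]
        linarith [not_le.1 hl]
    · have k4 : bad y = 1 := by rw [hbd]; exact if_neg hg
      rw [k4]
      linarith
  rw [(both hE (o5 A) (((hi.mul 2).add (hone.mul _)).add hnb) hbb).2,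
    (both hE (o5 A) ((hi.mul 2).add (hone.mul _)) hnb).2,
    (both hE (o5 A) (hi.mul 2) (hone.mul _)).2, (hE ι Γ _ (o5 A)).2.1, (hE ι Γ _ (o5 A)).2.1,
    ← h2] at h3
  have h4 := num hR hg1 hT3 d0 ((mul_le_mul_of_nonneg_right hT2 d0).trans hd) b1 b2 m1 hbad
    (h1.trans h3)
  obtain ⟨n, n1, n2, n3⟩ := (hE ι Γ _ (o5 A)).2.2.2 _ p _ hn1 h4
  have hfl : ((⌊(4 * R) ^ C0⌋₊ : ℕ) : ℝ) ≤ R ^ (3 * C0) := by
    refine (Nat.floor_le (by positivity)).trans ?_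
    rw [pow_mul]
    exact pow_le_pow_left₀ (by linarith) (by nlinarith [mul_nonneg (by linarith : 0 ≤ R) (by nlinarith : 0 ≤ R ^ 2 - 4)]) _
  have hR1 : 1 ≤ R := by linarith
  refine ⟨n, n1, ((Nat.cast_le.2 n2).trans hfl).trans (pow_le_pow_right₀ hR1 (by omega)),
    le_trans ?_ n3⟩
  rw [div_eq_mul_inv, ← mul_inv]
  refine inv_anti₀ (by positivity) ?_
  have a1 : 8 * R ≤ R ^ 4 := by
    have : (2 : ℝ) ^ 3 ≤ R ^ 3 := pow_le_pow_left₀ zero_le_two hR 3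
    nlinarith
  calc 8 * R * (⌊(4 * R) ^ C0⌋₊ : ℕ) ≤ R ^ 4 * R ^ (3 * C0) :=
        mul_le_mul a1 hfl (Nat.cast_nonneg _) (by positivity)
    _ = R ^ (4 + 3 * C0) := (pow_add _ _ _).symm
    _ ≤ _ := pow_le_pow_right₀ hR1 (by omega)

end

end Vale.Agent.P057T.Mt
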