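import Vale.Agent.P057T.Mt.Defs
import Vale.Agent.P057T.GauH52

/-! Rows for uniqueness and strong equidistribution on multi-affine towers (note 4449). -/

set_option linter.all false

open MvPolynomial Finset Matrix
open scoped Real

namespace Vale.Agent.P057T.Mt

open Vale.Agent.P057T.Eq Vale.Agent.P057T.Cp Vale.Agent.P267.H775 Vale.Agent.P057T.Poi

noncomputable section

variable {ι Γ : Type} [Fintype ι] [DecidableEq ι] [Fintype Γ] [DecidableEq Γ]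

open Classical in
def ind (p : Prop) : ℝ := if p then 1 else 0

/-- extension by zero -/
def ext0 (U : Finset ι) (n : U → ℤ) : ι → ℤ := fun a => if h : a ∈ U then n ⟨a, h⟩ else 0

/-- two positional and two directional copies -/
abbrev K4 : Type := Bool × Bool

namespace MT

variable (M : MT ι Γ)

/-- active variables, multi-affine, linear in `c` -/
def Tl (c : Γ) (F : MvPolynomial ι ℝ) : Prop :=
  F.vars ⊆ M.U ∧ Ty M.col univ F ∧ Li M.col c F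

def ph (c : Γ) : MvPolynomial ι ℝ →ₐ[ℝ] MvPolynomial ι ℝ := aeval (M.dir {c}).sc

def In (A : Finset Γ) : Prop := ∀ a ∈ M.U, M.col a ⊆ A

def Uq (c : Γ) (H : ℝ) : Prop := ∀ I b : MvPolynomial ι ℝ, IsZ I → M.Tl c I → M.Tl c b → l1 b ≤ H →
  I = M.ph c b → I = 0 ∧ b = 0

/-- kill the variables of colour `e` -/
def ko (e : Γ) (F : MvPolynomial ι ℝ) : MvPolynomial ι ℝ :=
  fz (univ.filter fun a => e ∉ M.col a) 0 F

/-- the centred narrow law of a tower with one colour -/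
def nw (e : Γ) (l : ℝ) : MT ι Γ := (M.dir {e}).wid fun _ => l

def vk (e : Γ) (k : K4) (a : ι) : K4 × ι := (if e ∈ M.col a then k else default, a)

/-- four copies of the colour `e` -/
def jt (e : Γ) (l : ℝ) : MT (K4 × ι) (Γ × K4) where
  w := fun x => M.w x.2
  col := fun x => (M.col x.2).image fun c => (c, if c = e then x.1 else default)
  A := fun x y => if x.1 = y.1 then M.A x.2 y.2 else 0
  B := fun x y => if x.1 = y.1 then M.B x.2 y.2 else 0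
  p := fun x => rename (M.vk e x.1)
    (if x.1.1 = true then kp M.col ({e} ∩ M.col x.2) (M.p x.2) else M.p x.2)
  U := univ.filter fun x => x.2 ∈ M.U ∧ (e ∈ M.col x.2 ∨ x.1 = default)
  sg := fun x => (if x.1.1 = true then l else 1) * M.sg x.2

/-- the substitution of the vertex `(p, q)` -/
def sm (e : Γ) (s : ℝ) (p q : Bool) (a : ι) : MvPolynomial (K4 × ι) ℝ :=
  if e ∈ M.col a then X ((false, p), a) + C s * X ((true, q), a) else X (default, a)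

/-- the signed sum over the four vertices -/
def alt (e : Γ) (s : ℝ) (F : Bool → Bool → MvPolynomial ι ℝ) : MvPolynomial (K4 × ι) ℝ :=
  aeval (M.sm e s false false) (F false false) - aeval (M.sm e s false true) (F false true) -
    aeval (M.sm e s true false) (F true false) + aeval (M.sm e s true true) (F true true)

/-- uniqueness on the joint fibre of a quadruple -/
def ZQ (A : Finset Γ) (c e : Γ) (l H : ℝ) (x y : Bool → ι → ℤ) : Prop :=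
  ∀ I b : Bool → Bool → MvPolynomial ι ℝ,
    (∀ p q, IsZ (I p q) ∧ (M.fib A (x p + y q)).Tl c (I p q) ∧ (M.fib A (x p + y q)).Tl c (b p q) ∧
      l1 (b p q) ≤ H) →
    M.alt e 1 (fun p q => I p q + (M.fib A (x p + y q)).ph c (b p q)) = 0 → M.alt e l⁻¹ b = 0

/-- the law of quadruples -/
def E4 (e : Γ) (l : ℝ) (h : (Bool → ι → ℤ) → (Bool → ι → ℤ) → ℝ) : ℝ :=
  M.En fun a0 => M.En fun a1 => (M.nw e l).En fun b0 => (M.nw e l).En fun b1 =>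
    h (fun p => cond p a1 a0) (fun q => cond q b1 b0)

end MT

/-- the point of the joint tower -/
def gl (x y : Bool → ι → ℤ) : K4 × ι → ℤ := fun z => cond z.1.1 (y z.1.2 z.2) (x z.1.2 z.2)

/-- the vertices of the colours of `A` -/
def A0 (A : Finset Γ) : Finset (Γ × K4) := A.image fun c => (c, default)

/-! ### Rows -/

/-- a tower with one colour is a lattice -/
def LAT : Prop := ∀ (ι Γ : Type) [Fintype ι] [DecidableEq ι] [Fintype Γ] [DecidableEq Γ]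
  (M : MT ι Γ) (c : Γ), M.Ok → M.In {c} →
    ∃ (L : Matrix M.U M.U ℝ) (x : M.U → ℝ), L.det ≠ 0 ∧
      (∀ a : M.U, (M.dir {c}).sc a = ∑ b : M.U, C (L a b) * X b.1) ∧
      (∀ a : M.U, M.sc a = ∑ b : M.U, C (L a b) * X b.1 + C ((L *ᵥ x) a)) ∧
      ∀ (E : Type) [NormedAddCommGroup E] [NormedSpace ℝ E] (h : (ι → ℤ) → E),
        M.En h = |L.det| • ∑' n : M.U → ℤ, gq L (x + toR n) • h (ext0 M.U n) ∧
        ∀ l : ℝ, 0 < l →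
          (M.nw c l).En h = |(l • L).det| • ∑' n : M.U → ℤ, gq (l • L) (toR n) • h (ext0 M.U n)

/-- regularity of the parts -/
def SUBT : Prop := ∀ (ι Γ : Type) [Fintype ι] [DecidableEq ι] [Fintype Γ] [DecidableEq Γ]
  (M : MT ι Γ) (k : ℕ) (Λ d : ℝ), M.Ok → 1 ≤ Λ → M.TH k Λ d →
    0 ≤ d ∧ M.nm ≤ 1 + d ∧ 1 - 2 ^ Fintype.card Γ * d ≤ M.nm ∧
    (∀ k' Λ' d', k' ≤ k → 0 < Λ' → Λ' ≤ Λ → d ≤ d' → M.TH k' Λ' d') ∧
    (∀ F, (M.bs F).TH k Λ d) ∧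
    ∀ (e : Γ) (l : ℝ), 0 < l → l ≤ Λ → (M.nw e l).nm ≤ 1 + d

/-- expectations -/
def ENM : Prop := ∀ (ι Γ : Type) [Fintype ι] [DecidableEq ι] [Fintype Γ] [DecidableEq Γ]
  (M : MT ι Γ), M.Ok →
    (∀ (h h' : (ι → ℤ) → ℝ) (B : ℝ), (∀ z, |h z| ≤ B) → (∀ z, |h' z| ≤ B) →
      ((∀ z ∈ Lat M.U, h z ≤ h' z) → M.En h ≤ M.En h') ∧
      M.En (fun z => h z + h' z) = M.En h + M.En h' ∧ |M.En h| ≤ B * M.nm) ∧
    (∀ (h : (ι → ℤ) → ℝ) (t : ℝ), M.En (fun z => t * h z) = t * M.En h) ∧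
    (∀ (h : (ι → ℤ) → ℂ) (B : ℝ), (∀ z, ‖h z‖ ≤ B) → ‖M.En h‖ ≤ M.En fun z => ‖h z‖) ∧
    ∀ (n : ℕ) (p : ℕ → (ι → ℤ) → Prop) (t : ℝ), 1 ≤ n →
      t ≤ M.En (fun z => ind (∃ i, 1 ≤ i ∧ i ≤ n ∧ p i z)) →
      ∃ i, 1 ≤ i ∧ i ≤ n ∧ t / n ≤ M.En fun z => ind (p i z)

/-- freezing -/
def FRZ : Prop := ∀ (ι Γ : Type) [Fintype ι] [DecidableEq ι] [Fintype Γ] [DecidableEq Γ]
  (M : MT ι Γ) (A : Finset Γ) (c : Γ) (y : ι → ℤ), M.Ok → c ∈ A →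
    (∀ F, IsZ F → IsZ (fz (M.mv A) y F)) ∧
    (∀ F, Ty M.col univ F → Ty (M.fib A y).col univ (fz (M.mv A) y F) ∧
      (fz (M.mv A) y F).vars ⊆ M.mv A) ∧
    (∀ F, F.vars ⊆ M.U → kp (M.fib A y).col {c} (fz (M.mv A) y F) = fz (M.mv A) y (kp M.col {c} F)) ∧
    (∀ F, M.Tl c F → (M.fib A y).Tl c (fz (M.mv A) y F)) ∧
    (∀ F, F.vars ⊆ M.U → Ty M.col univ F → M.Tl c (kp M.col {c} F)) ∧
    (∀ a ∈ M.mv A, ((M.fib A y).dir {c}).sc a = fz (M.mv A) y ((M.dir {c}).sc a)) ∧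
    (∀ a ∈ (M.bs A).U, (M.dir {c}).sc a = M.sc a ∧ (M.sc a).vars ⊆ (M.bs A).U) ∧
    (∀ F, F.vars ⊆ M.U → ∀ x ∈ Lat (M.mv A), y ∈ Lat (M.bs A).U →
      eval (cz (y + x)) F = eval (cz x) (fz (M.mv A) y F)) ∧
    (∀ F, M.Tl c F → M.Tl c (M.ph c F)) ∧
    ∀ B, M.In B → (M.fib A y).In (B ∩ A) ∧ (M.bs A).In (B \ A)

/-- uniqueness with at most `j + 1` colours -/
def ZRn (r j : ℕ) : Prop := ∃ C : ℕ, ∀ (ι Γ : Type) [Fintype ι] [DecidableEq ι] [Fintype Γ]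
  [DecidableEq Γ] (M : MT ι Γ) (A : Finset Γ) (c : Γ) (N H Λ d : ℝ), M.Ok → Fintype.card Γ ≤ r →
    (Fintype.card ι : ℝ) ≤ N → 2 ≤ N → 1 ≤ H → N ^ C * H ≤ Λ → N ^ C * d ≤ 1 → M.TH 0 Λ d →
    M.In A → c ∈ A → A.card ≤ j + 1 → M.Uq c H

/-- equidistribution with at most `j + 1` colours -/
def SQn (r j : ℕ) : Prop := ∃ C : ℕ, ∀ (ι Γ : Type) [Fintype ι] [DecidableEq ι] [Fintype Γ]
  [DecidableEq Γ] (M : MT ι Γ) (A : Finset Γ) (c : Γ) (N R Λ d : ℝ) (Q : MvPolynomial ι ℝ), M.Ok →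
    Fintype.card Γ ≤ r → (Fintype.card ι : ℝ) ≤ N → 2 ≤ N → 2 ≤ R → (N * R) ^ C ≤ Λ →
    (N * R) ^ C * d ≤ 1 → M.TH 3 Λ d → M.In A → c ∈ A → A.card ≤ j + 1 → Q.vars ⊆ M.U →
    Ty M.col univ Q → R⁻¹ ≤ ‖M.En fun z => ee (eval (cz z) Q)‖ →
    ∃ n : ℕ, 1 ≤ n ∧ (n : ℝ) ≤ R ^ C ∧
      M.IB c (MvPolynomial.C (n : ℝ) * kp M.col {c} Q) ((N * R) ^ C)

/-- many fibres with one multiplier -/
def SEL (r j : ℕ) : Prop := ∃ C : ℕ, ∀ (ι Γ : Type) [Fintype ι] [DecidableEq ι] [Fintype Γ]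
  [DecidableEq Γ] (M : MT ι Γ) (A : Finset Γ) (c : Γ) (N R Λ d : ℝ) (Q : MvPolynomial ι ℝ), M.Ok →
    Fintype.card Γ ≤ r → (Fintype.card ι : ℝ) ≤ N → 2 ≤ N → 2 ≤ R → (N * R) ^ C ≤ Λ →
    (N * R) ^ C * d ≤ 1 → M.TH 3 Λ d → c ∈ A → A.card ≤ j + 1 → Q.vars ⊆ M.U →
    Ty M.col univ Q → R⁻¹ ≤ ‖M.En fun z => ee (eval (cz z) Q)‖ →
    ∃ n : ℕ, 1 ≤ n ∧ (n : ℝ) ≤ R ^ C ∧ (R ^ C)⁻¹ ≤ (M.bs A).En fun y => ind ((M.fib A y).IB c
      (fz (M.mv A) y (MvPolynomial.C (n : ℝ) * kp M.col {c} Q)) ((N * R) ^ C))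

/-- the joint tower -/
def JOK : Prop := ∀ (ι Γ : Type) [Fintype ι] [DecidableEq ι] [Fintype Γ] [DecidableEq Γ]
  (M : MT ι Γ) (e : Γ) (l : ℝ), M.Ok → 1 ≤ l → (M.jt e l).Ok ∧
    Emb (M.jt e l) (M.cpy K4) (fun x => vx M.col (fun c => if c = e then x.1 else default) x.2) id l

/-- the base of the joint tower is a product -/
def JP : Prop := ∀ (ι Γ : Type) [Fintype ι] [DecidableEq ι] [Fintype Γ] [DecidableEq Γ]
  (M : MT ι Γ) (A : Finset Γ) (e : Γ) (l B : ℝ) (h : (K4 × ι → ℤ) → ℝ), M.Ok → 1 ≤ l →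
    M.In (insert e A) → e ∉ A → (∀ z, |h z| ≤ B) →
    ((M.jt e l).bs (A0 A)).En h = (M.bs A).E4 e l fun x y => h (gl x y)

/-- uniqueness on the joint fibre -/
def JA : Prop := ∀ (ι Γ : Type) [Fintype ι] [DecidableEq ι] [Fintype Γ] [DecidableEq Γ]
  (M : MT ι Γ) (A : Finset Γ) (c e : Γ) (l H : ℝ) (x y : Bool → ι → ℤ), M.Ok → 1 ≤ l →
    M.In (insert e A) → e ∉ A → c ∈ A →
    ((M.jt e l).fib (A0 A) (gl x y)).Uq (c, default) (4 * 2 ^ Fintype.card Γ * H) →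
    M.ZQ A c e l H x y

/-- almost all quadruples have uniqueness -/
def JZ (r : ℕ) : Prop := ∃ C : ℕ, ∀ (ι Γ : Type) [Fintype ι] [DecidableEq ι] [Fintype Γ]
  [DecidableEq Γ] (M : MT ι Γ) (A : Finset Γ) (c e : Γ) (N H l Λ d : ℝ), M.Ok → Fintype.card Γ ≤ r →
    (Fintype.card ι : ℝ) ≤ N → 2 ≤ N → 1 ≤ H → 1 ≤ l → N ^ C * H * l ≤ Λ → M.TH 3 Λ d →
    M.In (insert e A) → e ∉ A → c ∈ A →
    (M.bs A).E4 e l (fun x y => ind (¬ M.ZQ A c e l H x y)) ≤ N ^ C * d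

/-- the signed sum of an affine form vanishes -/
def ALT0 : Prop := ∀ (ι Γ : Type) [Fintype ι] [DecidableEq ι] [Fintype Γ] [DecidableEq Γ]
  (M : MT ι Γ) (A : Finset Γ) (e : Γ) (F : MvPolynomial ι ℝ) (x y : Bool → ι → ℤ), M.Ok →
    M.In (insert e A) → e ∉ A → F.vars ⊆ M.U → Ty M.col univ F →
    M.alt e 1 (fun p q => fz (M.mv A) (x p + y q) F) = 0

/-- a vanishing signed sum gives a common linear moving part -/
def ADDM : Prop := ∀ (ι Γ : Type) [Fintype ι] [DecidableEq ι] [Fintype Γ] [DecidableEq Γ]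
  (M : MT ι Γ) (e : Γ) (s : ℝ) (b : Bool → Bool → MvPolynomial ι ℝ), s ≠ 0 → M.alt e s b = 0 →
    b false true - M.ko e (b false true) = b false false - M.ko e (b false false) ∧
    Li M.col e (b false false - M.ko e (b false false))

/-- a dense family of good quadruples with three fixed points -/
def QM : Prop := ∃ C : ℕ, ∀ (ι Γ : Type) [Fintype ι] [DecidableEq ι] [Fintype Γ] [DecidableEq Γ]
  (M : MT ι Γ) (e : Γ) (N R l : ℝ) (G : (ι → ℤ) → Prop)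
  (bad : (Bool → ι → ℤ) → (Bool → ι → ℤ) → Prop), M.Ok → M.In {e} → (Fintype.card ι : ℝ) ≤ N →
    2 ≤ N → 2 ≤ R → (N * R) ^ C ≤ l → (M.nw e l).nm ≤ 1 + (R ^ C)⁻¹ →
    R⁻¹ ≤ M.En (fun z => ind (G z)) → M.E4 e l (fun x y => ind (bad x y)) ≤ (R ^ C)⁻¹ →
    ∃ (a0 a1 b0 : ι → ℤ) (S : (ι → ℤ) → Prop), a0 ∈ Lat M.U ∧
      (R ^ C)⁻¹ ≤ (M.nw e l).En (fun z => ind (S z)) ∧
      ∀ b1, S b1 → b1 ∈ Lat M.U ∧ G (a0 + b0) ∧ G (a0 + b1) ∧ G (a1 + b0) ∧ G (a1 + b1) ∧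
        ¬ bad (fun p => cond p a1 a0) (fun q => cond q b1 b0) ∧
        ∀ v ∈ M.U, |eval (cz (a0 + b1)) (M.sc v)| ≤ (N * R) ^ C

/-- the chart substitution is onto -/
def INVM : Prop := ∀ (ι Γ : Type) [Fintype ι] [DecidableEq ι] [Fintype Γ] [DecidableEq Γ]
  (M : MT ι Γ) (c : Γ), M.Ok → M.Uq c 1 → ∀ F, M.Tl c F → ∃ b, M.Tl c b ∧ M.ph c b = F

/-- decomposition along the colour `e` -/
def DEC : Prop := ∀ (ι Γ : Type) [Fintype ι] [DecidableEq ι] [Fintype Γ] [DecidableEq Γ]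
  (M : MT ι Γ) (A : Finset Γ) (c e : Γ) (F be I b : MvPolynomial ι ℝ) (y : ι → ℤ), M.Ok →
    M.In (insert e A) → e ∉ A → c ∈ A → M.Tl c F → Li M.col e be → IsZ I →
    (M.fib A y).Tl c I → (M.fib A y).Tl c b → fz (M.mv A) y F = I + (M.fib A y).ph c b →
    b - M.ko e b = be →
    M.Tl c be ∧ l1 be ≤ l1 b ∧ l1 (M.ko e b) ≤ l1 b ∧ (M.bs {e}).Tl c (M.ko e b) ∧
    (M.bs {e}).Tl c (M.ko e I) ∧ IsZ (M.ko e I) ∧ IsZ (I - M.ko e I) ∧ M.Tl c (I - M.ko e I) ∧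
    (M.bs {e}).Tl c (M.ko e (F - M.ph c be)) ∧
    (∀ v ∈ (M.bs A).U, (M.bs {e}).Tl c (pderiv v (F - M.ph c be))) ∧
    F - M.ph c be = (I - M.ko e I) + ∑ v ∈ (M.bs A).U, X v * pderiv v (F - M.ph c be) +
      M.ko e (F - M.ph c be) ∧
    ∑ v ∈ (M.bs A).U, C (y v : ℝ) * pderiv v (F - M.ph c be) + M.ko e (F - M.ph c be) =
      M.ko e I + (M.bs {e}).ph c (M.ko e b) ∧
    (∀ G, (M.bs {e}).Tl c G → M.Tl c G ∧ M.ph c G = (M.bs {e}).ph c G ∧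
      ∀ v ∈ (M.bs A).U, M.Tl c (X v * G))

/-- the linear step -/
def LVA : Prop := ∃ C : ℕ, ∀ (ι Γ : Type) [Fintype ι] [DecidableEq ι] [Fintype Γ] [DecidableEq Γ]
  (M : MT ι Γ) (A : Finset Γ) (c e : Γ) (N R H l Z : ℝ) (F be : MvPolynomial ι ℝ) (y0 : ι → ℤ)
  (S : (ι → ℤ) → Prop), M.Ok → (Fintype.card ι : ℝ) ≤ N → 2 ≤ N → 2 ≤ R → 1 ≤ H → 1 ≤ l → 1 ≤ Z →
    M.In (insert e A) → e ∉ A → c ∈ A → M.Tl c F → Li M.col e be →
    ((M.bs A).nw e (l * (N * R) ^ C)).nm ≤ 3 / 2 → (M.bs {e}).Uq c (R ^ C * H) →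
    R⁻¹ ≤ ((M.bs A).nw e l).En (fun z => ind (S z)) →
    (∀ y, S y → (∀ v ∈ (M.bs A).U, |eval (cz (y0 + y)) (M.sc v)| ≤ Z) ∧
      ∃ I b, IsZ I ∧ (M.fib A (y0 + y)).Tl c I ∧ (M.fib A (y0 + y)).Tl c b ∧ l1 b ≤ H ∧
        fz (M.mv A) (y0 + y) F = I + (M.fib A (y0 + y)).ph c b ∧ b - M.ko e b = be) →
    ∃ n : ℕ, 1 ≤ n ∧ (n : ℝ) ≤ R ^ C ∧
      M.IB c (MvPolynomial.C (n : ℝ) * F) ((N * R) ^ C * H * l * Z)

/-- polynomially short basis -/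
def SB : Prop := ∀ (ι : Type) [Fintype ι] [DecidableEq ι] (L : Matrix ι ι ℝ) (s : ℝ), L.det ≠ 0 →
  0 < s → th (s • (L⁻¹)ᵀ) 0 ≤ 3 / 2 → ∃ U W : Matrix ι ι ℤ, U * W = 1 ∧
    ∀ j, qf L (fun a => (U a j : ℝ)) ≤ (4 * ((Fintype.card ι : ℝ) + 1) ^ 3 * s) ^ 2

end

end Vale.Agent.P057T.Mt
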