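import Vale.Agent.P057T.Mt.Seq

/-! Equidistribution with one colour. -/

set_option linter.all false

open MvPolynomial Finset Matrix
open scoped Real

namespace Vale.Agent.P057T.Mt

open Vale.Agent.P057T.Eq Vale.Agent.P057T.Cp Vale.Agent.P267.H775 Vale.Agent.P057T.Poi

noncomputable section

namespace Sq0P

variable {ι Γ : Type} [Fintype ι] [DecidableEq ι] [Fintype Γ] [DecidableEq Γ]

theorem coeff_kp (col : ι → Finset Γ) (D : Finset Γ) (F : MvPolynomial ι ℝ) (m : ι →₀ ℕ) :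
    coeff m (kp col D F) = if ∀ c ∈ D, dg col c m ≠ 0 then coeff m F else 0 := by
  rw [kp, coeff_sum]
  simp only [coeff_monomial]
  rw [sum_ite_eq' ]
  by_cases h : ∀ c ∈ D, dg col c m ≠ 0
  · rw [if_pos h]
    by_cases hm : m ∈ F.support
    · rw [if_pos (mem_filter.2 ⟨hm, h⟩)]
    · rw [if_neg fun h' => hm (mem_filter.1 h').1, notMem_support_iff.1 hm]
  · rw [if_neg h, if_neg fun h' => h (mem_filter.1 h').2]

/-- a linear form in the variables of `U` -/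
def lu (U : Finset ι) (v : U → ℝ) : MvPolynomial ι ℝ := ∑ b : U, C (v b) * X b.1

theorem coeff_lu (U : Finset ι) (v : U → ℝ) (m : ι →₀ ℕ) :
    coeff m (lu U v) = ∑ b : U, if Finsupp.single b.1 1 = m then v b else 0 := by
  rw [lu, coeff_sum]
  simp only [coeff_C_mul, coeff_X, mul_ite, mul_one, mul_zero]

theorem coeff_lu_single (U : Finset ι) (v : U → ℝ) (b : U) :
    coeff (Finsupp.single b.1 1) (lu U v) = v b := by
  rw [coeff_lu, sum_eq_single b, if_pos rfl]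
  · intro b' _ hb'
    exact if_neg fun h => hb' (Subtype.ext (Finsupp.single_left_injective one_ne_zero h))
  · simp

theorem coeff_lu_zero (U : Finset ι) (v : U → ℝ) (m : ι →₀ ℕ)
    (h : ∀ b : U, Finsupp.single b.1 1 ≠ m) : coeff m (lu U v) = 0 := by
  rw [coeff_lu]
  exact sum_eq_zero fun b _ => if_neg (h b)

theorem supp_lu (U : Finset ι) (v : U → ℝ) {m : ι →₀ ℕ} (hm : m ∈ (lu U v).support) :
    ∃ b : U, Finsupp.single b.1 1 = m := by
  by_contra hn
  push Not at hn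
  exact mem_support_iff.1 hm (coeff_lu_zero U v m hn)

theorem vars_lu (U : Finset ι) (v : U → ℝ) : (lu U v).vars ⊆ U := by
  intro a ha
  obtain ⟨m, hm, ha⟩ := (mem_vars_iff_mem_support a).1 ha
  obtain ⟨b, rfl⟩ := supp_lu U v hm
  have : a = b.1 := by simpa using ha
  rw [this]
  exact b.2

theorem dg_single (col : ι → Finset Γ) (c : Γ) (b : ι) :
    dg col c (Finsupp.single b 1) = if c ∈ col b then 1 else 0 := by
  rw [dg, Finsupp.weight_single, one_smul]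

theorem ty_lu (col : ι → Finset Γ) (U : Finset ι) (v : U → ℝ) : Ty col univ (lu U v) := by
  intro m hm c
  obtain ⟨b, rfl⟩ := supp_lu U v hm
  rw [dg_single, if_pos (mem_univ c)]
  split_ifs <;> simp

theorem li_lu (col : ι → Finset Γ) (c : Γ) (U : Finset ι) (v : U → ℝ) (h : ∀ a ∈ U, c ∈ col a) :
    Li col c (lu U v) := by
  intro m hm
  obtain ⟨b, rfl⟩ := supp_lu U v hm
  rw [dg_single, if_pos (h b.1 b.2)]

theorem isz_lu (U : Finset ι) (k : U → ℤ) : IsZ (lu U (toR k)) := by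
  intro m
  by_cases h : ∃ b : U, Finsupp.single b.1 1 = m
  · obtain ⟨b, rfl⟩ := h
    exact ⟨k b, coeff_lu_single U _ b⟩
  · push Not at h
    exact ⟨0, by rw [coeff_lu_zero U _ m h]; simp⟩

theorem l1_lu (U : Finset ι) (v : U → ℝ) : l1 (lu U v) ≤ ∑ b, |v b| := by
  have h1 : (lu U v).support ⊆ univ.image fun b : U => Finsupp.single b.1 1 := by
    intro m hm
    obtain ⟨b, rfl⟩ := supp_lu U v hm
    exact mem_image.2 ⟨b, mem_univ _, rfl⟩
  refine (sum_le_sum_of_subset_of_nonneg h1 fun _ _ _ => abs_nonneg _).trans (le_of_eq ?_)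
  rw [sum_image fun b _ b' _ h => Subtype.ext (Finsupp.single_left_injective one_ne_zero h)]
  exact sum_congr rfl fun b _ => by rw [coeff_lu_single]

theorem lu_add (U : Finset ι) (v w : U → ℝ) : lu U (v + w) = lu U v + lu U w := by
  simp only [lu, Pi.add_apply, C_add, add_mul, sum_add_distrib]

theorem aeval_lu (U : Finset ι) (L : Matrix U U ℝ) (s : ι → MvPolynomial ι ℝ)
    (hs : ∀ a : U, s a = ∑ b : U, C (L a b) * X b.1) (v : U → ℝ) :
    aeval s (lu U v) = lu U (Lᵀ *ᵥ v) := by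
  simp only [lu, map_sum, map_mul, aeval_C, aeval_X, hs, algebraMap_eq, mul_sum]
  rw [sum_comm]
  refine sum_congr rfl fun b _ => ?_
  simp only [mulVec, dotProduct, transpose_apply, map_sum, map_mul, sum_mul]
  exact sum_congr rfl fun a _ => by ring

theorem eval_lu (U : Finset ι) (v : U → ℝ) (n : U → ℤ) :
    eval (cz (ext0 U n)) (lu U v) = ∑ b, v b * n b := by
  simp only [lu, map_sum, map_mul, eval_C, eval_X, cz, ext0]
  exact sum_congr rfl fun b _ => by rw [dif_pos b.2]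

theorem mono_cases {col : ι → Finset Γ} {c : Γ} {U : Finset ι} (hc : ∀ a ∈ U, c ∈ col a)
    {Q : MvPolynomial ι ℝ} (hv : Q.vars ⊆ U) (ht : Ty col univ Q) {m : ι →₀ ℕ}
    (hm : m ∈ Q.support) : m = 0 ∨ ∃ b : U, Finsupp.single b.1 1 = m := by
  have hU : ∀ b ∈ m.support, b ∈ U := fun b hb =>
    hv ((mem_vars_iff_mem_support b).2 ⟨m, hm, hb⟩)
  have h1 : dg col c m ≤ 1 := (ht m hm c).trans (by simp)
  have h2 : dg col c m = m.sum fun _ n => n := by
    rw [dg, Finsupp.weight_apply]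
    refine Finsupp.sum_congr fun b hb => ?_
    rw [if_pos (hc b (hU b hb)), smul_eq_mul, mul_one]
  rw [h2] at h1
  rcases Nat.le_one_iff_eq_zero_or_eq_one.1 h1 with h | h
  · exact Or.inl ((Finsupp.degree_eq_zero_iff m).1 h)
  · obtain ⟨b, rfl⟩ := (Finsupp.sum_eq_one_iff m).1 h
    exact Or.inr ⟨⟨b, hU b (by simp)⟩, rfl⟩

theorem kp_eq {col : ι → Finset Γ} {c : Γ} {U : Finset ι} (hc : ∀ a ∈ U, c ∈ col a)
    {Q : MvPolynomial ι ℝ} (hv : Q.vars ⊆ U) (ht : Ty col univ Q) :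
    kp col {c} Q = lu U fun b => coeff (Finsupp.single b.1 1) Q := by
  ext m
  rw [coeff_kp]
  by_cases h : ∃ b : U, Finsupp.single b.1 1 = m
  · obtain ⟨b, rfl⟩ := h
    rw [coeff_lu_single, if_pos]
    intro c' hc'
    rw [mem_singleton.1 hc', dg_single, if_pos (hc b.1 b.2)]
    exact one_ne_zero
  · rw [coeff_lu_zero U _ m fun b hb => h ⟨b, hb⟩]
    split_ifs with h1
    · by_contra hn
      rcases mono_cases hc hv ht (mem_support_iff.2 hn) with h0 | h0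
      · apply h1 c (mem_singleton_self c)
        rw [h0, dg, map_zero]
      · exact h h0
    · rfl

theorem q_eq {col : ι → Finset Γ} {c : Γ} {U : Finset ι} (hc : ∀ a ∈ U, c ∈ col a)
    {Q : MvPolynomial ι ℝ} (hv : Q.vars ⊆ U) (ht : Ty col univ Q) :
    Q = C (coeff 0 Q) + lu U fun b => coeff (Finsupp.single b.1 1) Q := by
  ext m
  rw [coeff_add, coeff_C]
  by_cases h : ∃ b : U, Finsupp.single b.1 1 = m
  · obtain ⟨b, rfl⟩ := h
    rw [coeff_lu_single, if_neg (by simp [eq_comm]), zero_add]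
  · rw [coeff_lu_zero U _ m fun b hb => h ⟨b, hb⟩, add_zero]
    split_ifs with h0
    · rw [h0]
    · by_contra hn
      rcases mono_cases hc hv ht (mem_support_iff.2 hn) with h1 | h1
      · exact h0 h1.symm
      · exact h h1

theorem ee_split {κ : Type} [Fintype κ] (q0 : ℝ) (q x : κ → ℝ) (n : κ → ℤ) :
    ee (q0 + ∑ b, q b * n b) = ee (q0 - ∑ b, q b * x b) * ec q (x + toR n) := by
  unfold ee ec
  rw [← Complex.exp_add]
  congr 1
  simp only [Pi.add_apply, toR_apply, mul_add, sum_add_distrib]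
  push_cast
  ring

theorem norm_ee (t : ℝ) : ‖ee t‖ = 1 := by
  unfold ee
  rw [Complex.norm_exp]
  simp

theorem num (N R : ℝ) (n : ℕ) (hn : (n : ℝ) ≤ N) (hN : 2 ≤ N) (hR : 2 ≤ R) :
    Real.exp (-(3 / 4 * π * (N + R))) * 2 ^ n < (2 * R)⁻¹ := by
  have h2 : (2 : ℝ) ≤ Real.exp 1 := by linarith [Real.add_one_le_exp (1 : ℝ)]
  have a1 : (2 : ℝ) ^ n ≤ Real.exp N := by
    calc (2 : ℝ) ^ n ≤ Real.exp 1 ^ n := pow_le_pow_left₀ (by norm_num) h2 n
      _ = Real.exp (n * 1) := by rw [Real.exp_nat_mul]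
      _ ≤ _ := Real.exp_le_exp.2 (by linarith)
  have a2 : 2 * R < Real.exp (2 * R) := by linarith [Real.add_one_le_exp (2 * R)]
  have a3 : Real.exp (-(3 / 4 * π * (N + R))) * Real.exp N ≤ Real.exp (-(2 * R)) := by
    rw [← Real.exp_add]
    refine Real.exp_le_exp.2 ?_
    nlinarith [Real.pi_gt_three]
  have a4 : Real.exp (-(2 * R)) < (2 * R)⁻¹ := by
    rw [Real.exp_neg]
    exact inv_strictAnti₀ (by linarith) a2
  exact lt_of_le_of_lt ((mul_le_mul_of_nonneg_left a1 (Real.exp_pos _).le).trans a3) a4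

theorem res {κ : Type} [Fintype κ] [DecidableEq κ] {L : Matrix κ κ ℝ} (hL : L.det ≠ 0)
    (q x : κ → ℝ) (q0 N R : ℝ) (hn : (Fintype.card κ : ℝ) ≤ N) (hN : 2 ≤ N) (hR : 2 ≤ R)
    (h1 : |L.det| * th L 0 ≤ 2)
    (h2 : R⁻¹ ≤ ‖|L.det| • ∑' n : κ → ℤ, gq L (x + toR n) • ee (q0 + ∑ b, q b * n b)‖) :
    ∃ (k : κ → ℤ) (v : κ → ℝ), q = toR k + Lᵀ *ᵥ v ∧ ∑ b, |v b| ≤ (N * R) ^ 2 := by
  have e1 : ∑' n : κ → ℤ, gq L (x + toR n) • ee (q0 + ∑ b, q b * n b) =
      ee (q0 - ∑ b, q b * x b) * ∑' n : κ → ℤ, (gq L (x + toR n) : ℂ) * ec q (x + toR n) := by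
    rw [← tsum_mul_left]
    refine tsum_congr fun n => ?_
    rw [ee_split q0 q x n, Complex.real_smul]
    ring
  rw [e1, norm_smul, norm_mul, norm_ee, one_mul, Real.norm_eq_abs, abs_abs] at h2
  have hd : 0 < |L.det| := abs_pos.2 hL
  have hb : (2 * R)⁻¹ * th L 0 ≤
      ‖∑' n : κ → ℤ, (gq L (x + toR n) : ℂ) * ec q (x + toR n)‖ := by
    refine le_of_mul_le_mul_left (le_trans ?_ h2) hd
    have e2 : R⁻¹ = (2 * R)⁻¹ * 2 := by field_simp
    rw [e2, mul_left_comm]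
    exact mul_le_mul_of_nonneg_left h1 (by positivity)
  obtain ⟨k, hk⟩ := exists_res hL q x hb (num N R _ hn hN hR)
  refine ⟨k, -((L⁻¹)ᵀ *ᵥ (-q + toR k)), ?_, ?_⟩
  · rw [mulVec_neg, mulVec_mulVec, ← transpose_mul, nonsing_inv_mul _ (isUnit_iff_ne_zero.2 hL),
      transpose_one, one_mulVec]
    abel
  · have a1 : ∀ b, |(-((L⁻¹)ᵀ *ᵥ (-q + toR k))) b| ≤ N + R := by
      intro b
      rw [Pi.neg_apply, abs_neg]
      have a2 : ((L⁻¹)ᵀ *ᵥ (-q + toR k)) b ^ 2 ≤ qf (L⁻¹)ᵀ (-q + toR k) :=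
        single_le_sum (f := fun i => ((L⁻¹)ᵀ *ᵥ (-q + toR k)) i ^ 2) (fun i _ => sq_nonneg _)
          (mem_univ b)
      refine abs_le_of_sq_le_sq' ?_ (by linarith) |> abs_le.2
      nlinarith
    have a3 : ∑ b, |(-((L⁻¹)ᵀ *ᵥ (-q + toR k))) b| ≤ Fintype.card κ * (N + R) := by
      have := sum_le_card_nsmul univ _ (N + R) fun b _ => a1 b
      rwa [nsmul_eq_mul, card_univ] at this
    have a4 : N + R ≤ N * R := by nlinarith
    have a5 : N ≤ N * R := by nlinarith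
    calc _ ≤ Fintype.card κ * (N + R) := a3
      _ ≤ (N * R) * (N * R) := mul_le_mul (hn.trans a5) a4 (by linarith) (by nlinarith)
      _ = _ := by ring

end Sq0P

open Sq0P in
theorem sq0 (hL : LAT) (hS : SUBT) (_hF : FRZ) (r : ℕ) : SQn r 0 := by
  refine ⟨2, ?_⟩
  intro ι Γ _ _ _ _ M A c N R Λ d Q hM _ hι hN hR hΛ hd hT hA hc hcard hv ht hb
  have hAc : A = {c} := by
    refine eq_singleton_iff_unique_mem.2 ⟨hc, fun x hx => ?_⟩
    exact card_le_one.1 hcard x hx c hc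
  subst hAc
  have hcol : ∀ a ∈ M.U, c ∈ M.col a := by
    intro a ha
    obtain ⟨x, hx⟩ := hM.ne a ha
    rw [← mem_singleton.1 (hA a ha hx)]
    exact hx
  have hNR : 1 ≤ (N * R) ^ 2 := one_le_pow₀ (by nlinarith)
  obtain ⟨L, x, hdet, h1, -, h3⟩ := hL ι Γ M c hM hA
  obtain ⟨d0, -, -, -, -, s6⟩ := hS ι Γ M 3 Λ d hM (hNR.trans hΛ) hT
  have hd1 : d ≤ 1 := by nlinarith
  have hm := s6 c 1 one_pos (hNR.trans hΛ)
  have hm2 : |L.det| * th L 0 ≤ 2 := by
    have e := (h3 ℝ fun _ => (1 : ℝ)).2 1 one_pos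
    rw [MT.nm, e] at hm
    simp only [one_smul, smul_eq_mul, mul_one] at hm
    rw [th_zero]
    linarith
  set q : M.U → ℝ := fun b => coeff (Finsupp.single b.1 1) Q with hq
  have hQ : ∀ n : M.U → ℤ, eval (cz (ext0 M.U n)) Q = coeff 0 Q + ∑ b, q b * n b := by
    intro n
    conv_lhs => rw [q_eq hcol hv ht]
    rw [map_add, eval_C, eval_lu]
  rw [(h3 ℂ fun z => ee (eval (cz z) Q)).1] at hb
  simp only [hQ] at hb
  have hcU : (Fintype.card M.U : ℝ) ≤ N := by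
    refine le_trans ?_ hι
    exact_mod_cast Fintype.card_subtype_le _
  obtain ⟨k, v, e, hv1⟩ := res hdet q x (coeff 0 Q) N R hcU hN hR hm2 hb
  refine ⟨1, le_rfl, ?_, lu M.U (toR k), lu M.U v, isz_lu _ _, vars_lu _ _, vars_lu _ _,
    ty_lu _ _ _, ty_lu _ _ _, li_lu _ _ _ _ hcol, li_lu _ _ _ _ hcol, (l1_lu _ _).trans hv1, ?_⟩
  · rw [Nat.cast_one]
    exact one_le_pow₀ (by linarith)
  · rw [Nat.cast_one, C_1, one_mul, kp_eq hcol hv ht, aeval_lu M.U L _ h1, ← lu_add, ← e]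

end

end Vale.Agent.P057T.Mt
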