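import Vale.Agent.P057T.Mt.Seq

/-! The inductive step of strong equidistribution. -/

set_option linter.all false

open MvPolynomial Finset

namespace Vale.Agent.P057T.Mt.StpH6

open Vale.Agent.P057T.Eq Vale.Agent.P057T.Cp

variable {ι Γ : Type} [Fintype ι] [DecidableEq ι] [Fintype Γ] [DecidableEq Γ]

theorem ib_mono {M : MT ι Γ} {c : Γ} {F : MvPolynomial ι ℝ} {H H' : ℝ} (h : M.IB c F H)
    (hH : H ≤ H') : M.IB c F H' := by
  obtain ⟨I, b, h1, h2, h3, h4, h5, h6, h7, h8, h9⟩ := h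
  exact ⟨I, b, h1, h2, h3, h4, h5, h6, h7, h8.trans hH, h9⟩

theorem supp_C (x : ℝ) (F : MvPolynomial ι ℝ) : ∀ m ∈ (C x * F).support, m ∈ F.support := by
  intro m hm
  rw [mem_support_iff, coeff_C_mul] at hm
  exact mem_support_iff.2 (right_ne_zero_of_mul hm)

theorem tl_C {M : MT ι Γ} {c : Γ} {F : MvPolynomial ι ℝ} (h : M.Tl c F) (x : ℝ) :
    M.Tl c (C x * F) := by
  refine ⟨fun a ha => ?_, fun m hm => h.2.1 m (supp_C x F m hm), fun m hm => h.2.2 m (supp_C x F m hm)⟩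
  obtain ⟨m, hm, ham⟩ := (mem_vars_iff_mem_support a).1 ha
  exact h.1 ((mem_vars_iff_mem_support a).2 ⟨m, supp_C x F m hm, ham⟩)

theorem ex_of {M : MT ι Γ} {S : (ι → ℤ) → Prop} {t : ℝ} (t0 : 0 < t)
    (h : t ≤ M.En fun z => ind (S z)) : ∃ z, S z := by
  by_contra k
  have e : (fun z => ind (S z)) = fun _ => (0 : ℝ) := by
    funext z
    unfold ind
    exact if_neg fun hz => k ⟨z, hz⟩
  rw [e] at h
  simp [MT.En, Ex] at h
  linarith

theorem stp (hO : OPS) (hS : SUBT) (hF : FRZ) (hZ : ZR) {r j : ℕ} (hJ : JZ r) (hA : ALT0)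
    (hD : ADDM) (hQ : QM) (hL : LVA) (h0 : SQn r j) (h1 : SEL r j) : SQn r (j + 1) := by
  obtain ⟨C0, h0⟩ := h0
  obtain ⟨C1, h1⟩ := h1
  obtain ⟨Cz, hZ⟩ := hZ r
  obtain ⟨Cj, hJ⟩ := hJ
  obtain ⟨Cq, hQ⟩ := hQ
  obtain ⟨Cl, hL⟩ := hL
  obtain ⟨u, hu⟩ : ∃ u, u = (C1 + 1) * Cq := ⟨_, rfl⟩
  obtain ⟨v, hv⟩ : ∃ v, v = (C1 + 1) * (Cq + 1) * Cl := ⟨_, rfl⟩
  refine ⟨C0 + C1 + Cj + Cz + 2 * u + v + 1, ?_⟩
  intro ι Γ _ _ _ _ M A c N R Λ d Q ok hr hι N2 R2 hΛ hd th hin hc hcard hQv hQt hE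
  generalize hK : C0 + C1 + Cj + Cz + 2 * u + v + 1 = K at *
  have N1 : 1 ≤ N := by linarith
  have R1 : 1 ≤ R := by linarith
  have NT : N ≤ N * R := le_mul_of_one_le_right (by linarith) R1
  have RT : R ≤ N * R := le_mul_of_one_le_left (by linarith) N1
  have T1 : 1 ≤ N * R := by linarith
  have pw : ∀ m, m ≤ K → (N * R) ^ m ≤ (N * R) ^ K := fun m hm => pow_le_pow_right₀ T1 hm
  have pr : ∀ m, m ≤ K → R ^ m ≤ R ^ K := fun m hm => pow_le_pow_right₀ R1 hm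
  have L1 : 1 ≤ Λ := (one_le_pow₀ T1).trans hΛ
  obtain ⟨d0, -, -, -, sb, -⟩ := hS ι Γ M 3 Λ d ok L1 th
  have pL : ∀ m, m ≤ K → (N * R) ^ m ≤ Λ := fun m hm => (pw m hm).trans hΛ
  have pd : ∀ m, m ≤ K → (N * R) ^ m * d ≤ 1 := fun m hm =>
    (mul_le_mul_of_nonneg_right (pw m hm) d0).trans hd
  have pN : ∀ m, N ^ m ≤ (N * R) ^ m := fun m => pow_le_pow_left₀ (by linarith) NT m
  have pR : ∀ m, R ^ m ≤ (N * R) ^ m := fun m => pow_le_pow_left₀ (by linarith) RT m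
  have pT : ∀ m, N * R ^ (m + 1) ≤ (N * R) ^ (m + 1) := fun m => by
    rw [mul_pow]
    exact mul_le_mul_of_nonneg_right (le_self_pow₀ N1 (by omega)) (by positivity)
  by_cases hsm : A.card ≤ j + 1
  · obtain ⟨n, n1, n2, n3⟩ := h0 ι Γ M A c N R Λ d Q ok hr hι N2 R2 (pL _ (by omega))
      (pd _ (by omega)) th hin hc hsm hQv hQt hE
    exact ⟨n, n1, n2.trans (pr _ (by omega)), ib_mono n3 (pw _ (by omega))⟩
  obtain ⟨e, heA, hec⟩ : ∃ e ∈ A, e ≠ c := exists_mem_ne (by omega) c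
  obtain ⟨A1, hA1⟩ : ∃ A1, A1 = A.erase e := ⟨_, rfl⟩
  have he1 : e ∉ A1 := by rw [hA1]; exact notMem_erase e A
  have hc1 : c ∈ A1 := by rw [hA1]; exact mem_erase.2 ⟨hec.symm, hc⟩
  have hin1 : M.In (insert e A1) := by rw [hA1, insert_erase heA]; exact hin
  have hk1 : A1.card ≤ j + 1 := by rw [hA1, card_erase_of_mem heA]; omega
  obtain ⟨n, n1, n2, n3⟩ := h1 ι Γ M A1 c N R Λ d Q ok hr hι N2 R2 (pL _ (by omega))
    (pd _ (by omega)) th hc1 hk1 hQv hQt hE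
  obtain ⟨F, hFd⟩ : ∃ F, F = C (n : ℝ) * kp M.col {c} Q := ⟨_, rfl⟩
  rw [← hFd] at n3
  have fr := hF ι Γ M A1 c 0 ok hc1
  have tF : M.Tl c F := by
    rw [hFd]
    exact tl_C (fr.2.2.2.2.1 Q hQv hQt) _
  have bo := (hO ι Γ M ok).2.2.2.2.1 A1
  have bi : (M.bs A1).In {e} := by
    have h := (fr.2.2.2.2.2.2.2.2.2 _ hin1).2
    rwa [insert_sdiff_of_notMem _ he1, sdiff_self, bot_eq_empty, insert_empty_eq] at h
  obtain ⟨-, -, -, -, -, sn⟩ := hS ι Γ (M.bs A1) 3 Λ d bo L1 (sb A1)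
  obtain ⟨R', hR'⟩ : ∃ R', R' = R ^ (C1 + 1) := ⟨_, rfl⟩
  have R2' : 2 ≤ R' := by rw [hR']; exact R2.trans (le_self_pow₀ R1 (by omega))
  obtain ⟨l, hl⟩ : ∃ l, l = (N * R') ^ Cq := ⟨_, rfl⟩
  have l1' : 1 ≤ l := by
    rw [hl]; exact one_le_pow₀ (one_le_mul_of_one_le_of_one_le N1 (by linarith))
  have lT : l ≤ (N * R) ^ u := by
    rw [hl, hu, pow_mul, hR']
    exact pow_le_pow_left₀ (by positivity) (pT C1) _
  have qT : R' ^ Cq ≤ (N * R) ^ u := by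
    rw [hR', ← pow_mul, hu]
    exact pR _
  have q0 : 0 < R' ^ Cq := by positivity
  have H1 : 1 ≤ (N * R) ^ C1 := one_le_pow₀ T1
  have z1 : N ^ Cj * d ≤ (R' ^ Cq)⁻¹ := by
    rw [← one_div, le_div_iff₀ q0]
    refine le_trans ?_ (pd (Cj + u) (by omega))
    rw [mul_right_comm, pow_add]
    exact mul_le_mul_of_nonneg_right (mul_le_mul (pN _) qT q0.le (by positivity)) d0
  have z2 : d ≤ (R' ^ Cq)⁻¹ := (le_mul_of_one_le_left d0 (one_le_pow₀ N1)).trans z1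
  have z3 : N ^ Cj * (N * R) ^ C1 * l ≤ Λ := by
    refine le_trans ?_ (pL (Cj + C1 + u) (by omega))
    rw [pow_add, pow_add]
    exact mul_le_mul (mul_le_mul_of_nonneg_right (pN _) (by positivity)) lT (by linarith)
      (by positivity)
  have z4 : R'⁻¹ ≤ (R ^ C1)⁻¹ := by
    rw [hR']
    exact inv_anti₀ (by positivity) (pow_le_pow_right₀ R1 (by omega))
  obtain ⟨a0, a1, b0, S, -, s1, s2⟩ := hQ ι Γ (M.bs A1) e N R' l
    (fun y => (M.fib A1 y).IB c (fz (M.mv A1) y F) ((N * R) ^ C1))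
    (fun x y => ¬ M.ZQ A1 c e l ((N * R) ^ C1) x y) bo bi hι N2 R2' hl.ge
    ((sn e l (by linarith) (lT.trans (pL _ (by omega)))).trans (by linarith)) (z4.trans n3)
    ((hJ ι Γ M A1 c e N _ l Λ d ok hr hι N2 H1 l1' z3 th hin1 he1 hc1).trans z1)
  obtain ⟨y1, hy1⟩ := ex_of (inv_pos.2 q0) s1
  obtain ⟨I0, f0, i1, i2, i3, i4, i5, i6, i7, i8, i9⟩ := (s2 y1 hy1).2.1
  have key : ∀ y, S y → ∃ I b, IsZ I ∧ (M.fib A1 (a0 + y)).Tl c I ∧ (M.fib A1 (a0 + y)).Tl c b ∧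
      l1 b ≤ (N * R) ^ C1 ∧ fz (M.mv A1) (a0 + y) F = I + (M.fib A1 (a0 + y)).ph c b ∧
      b - M.ko e b = f0 - M.ko e f0 ∧ Li M.col e (f0 - M.ko e f0) := by
    intro y hy
    obtain ⟨-, -, ⟨I1, f1, j1, j2, j3, j4, j5, j6, j7, j8, j9⟩,
      ⟨I2, f2, k1, k2, k3, k4, k5, k6, k7, k8, k9⟩, ⟨I3, f3, m1, m2, m3, m4, m5, m6, m7, m8, m9⟩,
      zq, -⟩ := s2 y hy
    have al := hA ι Γ M A1 e F (fun p => cond p a1 a0) (fun q => cond q y b0) ok hin1 he1 tF.1 tF.2.1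
    have z := not_not.1 zq (fun p q => cond p (cond q I3 I2) (cond q I1 I0))
      (fun p q => cond p (cond q f3 f2) (cond q f1 f0)) (by
        intro p q
        cases p <;> cases q
        · exact ⟨i1, ⟨i2, i4, i6⟩, ⟨i3, i5, i7⟩, i8⟩
        · exact ⟨j1, ⟨j2, j4, j6⟩, ⟨j3, j5, j7⟩, j8⟩
        · exact ⟨k1, ⟨k2, k4, k6⟩, ⟨k3, k5, k7⟩, k8⟩
        · exact ⟨m1, ⟨m2, m4, m6⟩, ⟨m3, m5, m7⟩, m8⟩) (by
        rw [← al]
        congr 1
        funext p q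
        cases p <;> cases q
        · exact i9.symm
        · exact j9.symm
        · exact k9.symm
        · exact m9.symm)
    have w := hD ι Γ M e l⁻¹ _ (inv_pos.2 (by linarith)).ne' z
    exact ⟨I1, f1, j1, ⟨j2, j4, j6⟩, ⟨j3, j5, j7⟩, j8, j9, w.1, w.2⟩
  obtain ⟨R'', hR''⟩ : ∃ R'', R'' = R' ^ (Cq + 1) := ⟨_, rfl⟩
  have R2'' : 2 ≤ R'' := by rw [hR'']; exact R2'.trans (le_self_pow₀ (by linarith) (by omega))
  have e1 : R'' ^ Cl = R ^ v := by rw [hR'', hR', ← pow_mul, ← pow_mul, hv, mul_assoc]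
  have e2 : (N * R'') ^ Cl ≤ (N * R) ^ v := by
    rw [hv, pow_mul, hR'', hR', ← pow_mul]
    refine pow_le_pow_left₀ (by positivity) ?_ _
    rw [mul_pow]
    exact mul_le_mul_of_nonneg_right (le_self_pow₀ N1 (by positivity)) (by positivity)
  have e0 : 0 < (N * R'') ^ Cl := by positivity
  have d2 : d ≤ 1 / 2 := by
    have := pd 1 (by omega)
    rw [pow_one] at this
    nlinarith
  have y1' : l * (N * R'') ^ Cl ≤ Λ := by
    refine le_trans ?_ (pL (u + v) (by omega))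
    rw [pow_add]
    exact mul_le_mul lT e2 e0.le (by positivity)
  have eo := (hO ι Γ M ok).2.2.2.2.1 {e}
  have t0 := (hS ι Γ (M.bs {e}) 3 Λ d eo L1 (sb {e})).2.2.2.1 0 Λ d (by omega) (by linarith)
    le_rfl le_rfl
  have uq : (M.bs {e}).Uq c (R'' ^ Cl * (N * R) ^ C1) := fun I b hI tI tb hb hE =>
    hZ ι Γ (M.bs {e}) c N _ Λ d I b eo hr hι N2
      (one_le_mul_of_one_le_of_one_le (one_le_pow₀ (by linarith)) H1) (by
        refine le_trans ?_ (pL (Cz + (v + C1)) (by omega))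
        rw [pow_add, pow_add, e1]
        exact mul_le_mul (pN _) (mul_le_mul_of_nonneg_right (pR _) (by positivity))
          (by positivity) (by positivity))
      ((mul_le_mul_of_nonneg_right (pN _) d0).trans (pd _ (by omega))) t0 hI tI.1 tb.1 tI.2.1
      tb.2.1 tI.2.2 tb.2.2 hb hE
  obtain ⟨n', m1, m2, m3⟩ := hL ι Γ M A1 c e N R'' ((N * R) ^ C1) l l F (f0 - M.ko e f0) a0 S ok hι
    N2 R2'' H1 l1' l1' hin1 he1 hc1 tF (key y1 hy1).choose_spec.choose_spec.2.2.2.2.2.2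
    ((sn e _ (by positivity) y1').trans (by linarith)) uq
    (le_trans (by
      rw [hR'']
      exact inv_anti₀ q0 (pow_le_pow_right₀ (by linarith) (by omega))) s1)
    (fun y hy => ⟨fun w hw => by rw [hl]; exact (s2 y hy).2.2.2.2.2.2 w hw, by
      obtain ⟨I, b, g1, g2, g3, g4, g5, g6, -⟩ := key y hy
      exact ⟨I, b, g1, g2, g3, g4, g5, g6⟩⟩)
  refine ⟨n' * n, Nat.mul_pos m1 n1, ?_, ?_⟩
  · push_cast
    refine le_trans ?_ (pr (v + C1) (by omega))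
    rw [pow_add, ← e1]
    exact mul_le_mul m2 n2 (Nat.cast_nonneg _) (by positivity)
  · rw [Nat.cast_mul, C_mul, mul_assoc, ← hFd]
    refine ib_mono m3 (le_trans ?_ (pw (v + C1 + u + u) (by omega)))
    rw [pow_add, pow_add, pow_add]
    exact mul_le_mul (mul_le_mul (mul_le_mul_of_nonneg_right e2 (by positivity)) lT (by linarith)
      (by positivity)) lT (by linarith) (by positivity)

theorem seq (h : ∀ r j, SQn r j) : SEQ := by
  intro r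
  obtain ⟨C, h⟩ := h r r
  refine ⟨3, C, ?_⟩
  intro ι Γ _ _ _ _ M c N R Λ d Q ok hr hι N2 R2 hΛ hd th hQv hQt hE
  exact h ι Γ M univ c N R Λ d Q ok hr hι N2 R2 hΛ hd th (fun _ _ => subset_univ _) (mem_univ c)
    (by rw [card_univ]; omega) hQv hQt hE

end Vale.Agent.P057T.Mt.StpH6
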