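import Vale.Agent.P057T.Mt.Seq

/-! Regularity of the parts of a regular tower. -/

set_option linter.all false

open MvPolynomial Finset

namespace Vale.Agent.P057T.Mt

open Vale.Agent.P057T.Eq Vale.Agent.P057T.Cp

theorem subt (hT : TOK) (hO : OPS) (hE : EMB) (hM : THM) : SUBT := by
  intro ι Γ _ _ _ _ M k Λ d ok h1 th
  obtain ⟨o1, o2, -, -, o5, -, -, o8⟩ := hO ι Γ M ok
  obtain ⟨e1, -, -, e4, e5⟩ := hE.2 ι Γ M ok
  have c0 := (o8 (Fin 1)).1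
  have e0 := e5 (Fin 1) fun _ => 0
  have k1 : Fintype.card (Fin 1) ≤ k + 1 := by simp
  have a := hM ι Γ ι Γ (Fin 1) M M _ _ k 1 Λ d ok ok one_pos e0 th
  obtain ⟨a1, a2, a3⟩ := a.1 k1 h1
  refine ⟨a1, a2, a3, fun k' Λ' d' hk l0 hl hd => ?_, fun F => ?_, fun e l l0 hl => ?_⟩
  · have h := a.2 k' Λ' (by simpa using hk) l0 (by linarith)
    exact le_trans h (by linarith)
  · have b := ((hT ι Γ M ok).2.2.2.2.2.2 F 0).1
    have e6 := hE.1 _ _ _ _ _ _ (M.bs F) M (M.cpy (Fin 1)) _ _ _ _ 1 1 (o5 F) ok c0 zero_le_one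
      (e4 _ sdiff_subset b.bk) e0
    exact (hM ι Γ ι Γ (Fin 1) (M.bs F) M _ _ k _ Λ d (o5 F) ok (by norm_num) e6 th).2 k Λ
      (by simp) (by linarith) (by linarith)
  · have d0 := (o1 {e}).1
    have w0 := ((hO ι Γ _ d0).2.1 (fun _ => l) fun _ => l0).1
    have e6 := hE.1 _ _ _ _ _ _ (M.dir {e}) M (M.cpy (Fin 1)) _ _ _ _ 1 1 d0 ok c0 zero_le_one
      (e1 {e}) e0
    have e7 := hE.1 _ _ _ _ _ _ (M.nw e l) (M.dir {e}) (M.cpy (Fin 1)) _ _ _ _ l _ w0 d0 c0 l0.le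
      ((hE.2 ι Γ _ d0).2.2.1 (fun _ => l) l fun _ _ => le_rfl) e6
    exact ((hM ι Γ ι Γ (Fin 1) (M.nw e l) M _ _ k _ Λ d w0 ok (by positivity) e7 th).1 k1
      (by linarith)).2.1

end Vale.Agent.P057T.Mt
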