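import Vale.Agent.P057T.Mt.Seq

/-! Row ZR0: uniqueness for one colour. -/

set_option linter.all false

open MvPolynomial Finset Matrix
open scoped Real

namespace Vale.Agent.P057T.Mt

open Vale.Agent.P057T.Eq Vale.Agent.P057T.Cp Vale.Agent.P267.H775 Vale.Agent.P057T.Poi

noncomputable section

namespace Zr0

variable {ι Γ : Type} [Fintype ι] [DecidableEq ι] [Fintype Γ] [DecidableEq Γ]

theorem co_lin {U : Finset ι} (k : U → ℝ) (a : U) :
    coeff (Finsupp.single a.1 1) (∑ b : U, C (k b) * X b.1 : MvPolynomial ι ℝ) = k a := by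
  rw [coeff_sum, sum_eq_single a]
  · rw [coeff_C_mul, coeff_X, if_pos rfl, mul_one]
  · intro b _ hb
    rw [coeff_C_mul, coeff_X, if_neg, mul_zero]
    intro h
    exact hb (Subtype.ext (Finsupp.single_left_injective one_ne_zero h))
  · intro h
    exact absurd (mem_univ _) h

theorem lin_of {col : ι → Finset Γ} {c : Γ} {U : Finset ι} (hU : ∀ a ∈ U, c ∈ col a)
    {F : MvPolynomial ι ℝ} (hv : F.vars ⊆ U) (hl : Li col c F) :
    F = ∑ a : U, C (coeff (Finsupp.single a.1 1) F) * X a.1 := by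
  ext m
  by_cases h : ∃ a : U, m = Finsupp.single a.1 1
  · obtain ⟨a, rfl⟩ := h
    rw [co_lin]
  · have h1 : coeff m F = 0 := by
      by_contra h0
      have hm := mem_support_iff.2 h0
      have h2 : ∀ a ∈ m.support, a ∈ U := fun a ha => hv ((mem_vars_iff_mem_support a).2 ⟨m, hm, ha⟩)
      have h3 := hl m hm
      unfold dg at h3
      rw [Finsupp.weight_apply, Finsupp.sum, sum_congr rfl (g := fun a => m a) fun a ha => by
        rw [if_pos (hU a (h2 a ha)), smul_eq_mul, mul_one]] at h3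
      obtain ⟨a, rfl⟩ := (Finsupp.sum_eq_one_iff m).1 h3
      exact h ⟨⟨a, h2 a (by simp)⟩, rfl⟩
    rw [h1, coeff_sum]
    refine (sum_eq_zero fun a _ => ?_).symm
    rw [coeff_C_mul, coeff_X, if_neg fun h2 => h ⟨a, h2.symm⟩, mul_zero]

theorem l1_ge {U : Finset ι} (F : MvPolynomial ι ℝ) :
    ∑ a : U, |coeff (Finsupp.single a.1 1) F| ≤ l1 F := by
  have hi : Function.Injective fun a : U => (Finsupp.single a.1 1 : ι →₀ ℕ) := fun a b h =>
    Subtype.ext (Finsupp.single_left_injective one_ne_zero h)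
  rw [← sum_image (f := fun m => |coeff m F|) (s := univ) hi.injOn]
  rw [← sum_filter_ne_zero]
  refine sum_le_sum_of_subset_of_nonneg (fun m hm => mem_support_iff.2 fun h0 =>
    (mem_filter.1 hm).2 ?_) fun _ _ _ => abs_nonneg _
  rw [h0, abs_zero]

theorem exp_pi : (1 : ℝ) / 32 < Real.exp (-π) := by
  have h1 : Real.exp π ≤ Real.exp 1 ^ 3 * Real.exp (15 / 100) := by
    rw [← Real.exp_nat_mul, ← Real.exp_add]
    refine Real.exp_le_exp.2 ?_
    have := Real.pi_lt_d2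
    push_cast
    linarith
  have h2 : Real.exp 1 ^ 3 ≤ (272 / 100) ^ 3 :=
    pow_le_pow_left₀ (Real.exp_pos _).le (by linarith [Real.exp_one_lt_d9]) 3
  have h3 : Real.exp (15 / 100) ≤ 3 / 2 := by
    have := Real.exp_bound_div_one_sub_of_interval (x := 15 / 100) (by norm_num) (by norm_num)
    linarith
  have h4 := mul_le_mul h2 h3 (Real.exp_pos _).le (by norm_num)
  rw [Real.exp_neg, one_div]
  exact inv_strictAnti₀ (Real.exp_pos _) (by linarith)

end Zr0

open Zr0 in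
theorem zr0 (hL : LAT) (hS : SUBT) (r : ℕ) : ZRn r 0 := by
  refine ⟨5, ?_⟩
  intro ι Γ _ _ _ _ M A c N H Λ d hM _ _ hN hH hΛ hd hT hA hc hA1 I b hI hIt hbt hb hIb
  have hA2 : M.In {c} := fun a ha x hx =>
    mem_singleton.2 (card_le_one.1 hA1 x (hA a ha hx) c hc)
  have hU : ∀ a ∈ M.U, c ∈ M.col a := fun a ha => by
    obtain ⟨x, hx⟩ := hM.ne a ha
    exact mem_singleton.1 (hA2 a ha hx) ▸ hx
  have h32 : (32 : ℝ) ≤ N ^ 5 := by
    have := pow_le_pow_left₀ (by norm_num : (0 : ℝ) ≤ 2) hN 5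
    linarith
  have hHΛ : H ≤ Λ := by nlinarith
  have hΛ0 : 0 < Λ := by linarith
  obtain ⟨L, x, l1', l2, -, l4⟩ := hL ι Γ M c hM hA2
  obtain ⟨s0, -, -, -, -, s5⟩ := hS ι Γ M 0 Λ d hM (by linarith) hT
  have hd' : d ≤ 1 / 32 := by nlinarith
  have hth : th (Λ⁻¹ • (L⁻¹)ᵀ) 0 ≤ 1 + d := by
    have h1 := s5 c Λ hΛ0 le_rfl
    unfold MT.nm at h1
    rw [(l4 ℝ fun _ => (1 : ℝ)).2 Λ hΛ0] at h1
    simp only [smul_eq_mul, mul_one] at h1
    rw [← dual_smul hΛ0.ne' l1', th_dual (det_smul_ne hΛ0.ne' l1'), th_zero]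
    exact h1
  have eI := lin_of hU hIt.1 hIt.2.2
  have eb := lin_of hU hbt.1 hbt.2.2
  choose k hk using fun a : M.U => hI (Finsupp.single a.1 1)
  set lam : M.U → ℝ := fun a => coeff (Finsupp.single a.1 1) b with hlam
  have e1 : M.ph c b = ∑ a : M.U, C ((Lᵀ *ᵥ lam) a) * X a.1 := by
    rw [eb, map_sum]
    simp only [MT.ph, map_mul, aeval_C, aeval_X, algebraMap_eq, l2, mul_sum, mulVec, dotProduct,
      transpose_apply, map_sum, sum_mul]
    rw [sum_comm]
    exact sum_congr rfl fun a _ => sum_congr rfl fun a' _ => by ring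
  have e2 : toR k = Lᵀ *ᵥ lam := funext fun a => by
    rw [toR_apply, ← hk a, hIb, e1, co_lin]
  have e3 : (L⁻¹)ᵀ *ᵥ toR k = lam := by
    rw [e2, mulVec_mulVec, ← transpose_mul, mul_nonsing_inv _ (isUnit_iff_ne_zero.2 l1'),
      transpose_one, one_mulVec]
  have hk0 : k = 0 := by
    by_contra h0
    have hdet : (Λ⁻¹ • (L⁻¹)ᵀ).det ≠ 0 := det_smul_ne (inv_ne_zero hΛ0.ne') (by
      rw [det_transpose, det_nonsing_inv, Ring.inverse_eq_inv]
      exact inv_ne_zero l1')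
    have h1 := gq_le_th_sub hdet h0
    have h2 : qf (L⁻¹)ᵀ (toR k) ≤ Λ ^ 2 := by
      unfold qf
      rw [e3]
      have h3 : ∑ a, lam a ^ 2 ≤ (∑ a, |lam a|) ^ 2 := by
        simp only [← sq_abs (lam _)]
        exact sum_sq_le_sq_sum_of_nonneg fun a _ => abs_nonneg _
      exact h3.trans (pow_le_pow_left₀ (sum_nonneg fun a _ => abs_nonneg _)
        (((l1_ge b).trans hb).trans hHΛ) 2)
    have h4 : Real.exp (-π) ≤ gq (Λ⁻¹ • (L⁻¹)ᵀ) (toR k) := by
      unfold gq
      rw [qf_smul, inv_pow]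
      refine Real.exp_le_exp.2 ?_
      have h5 : (Λ ^ 2)⁻¹ * qf (L⁻¹)ᵀ (toR k) ≤ 1 := by
        rw [inv_mul_le_iff₀ (by positivity), mul_one]
        exact h2
      nlinarith [Real.pi_pos]
    linarith [exp_pi]
  have hl0 : lam = 0 := by rw [← e3, hk0, toR_zero, mulVec_zero]
  refine ⟨?_, ?_⟩
  · rw [eI]
    refine sum_eq_zero fun a _ => ?_
    rw [hk a, hk0]
    simp
  · rw [eb]
    refine sum_eq_zero fun a _ => ?_
    rw [show coeff (Finsupp.single a.1 1) b = 0 from congrFun hl0 a]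
    simp

end

end Vale.Agent.P057T.Mt
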