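import Vale.Agent.P057T.Mt.Seq

/-! Uniqueness: induction on the number of colours. -/

set_option linter.all false

open MvPolynomial Finset Matrix
open scoped Real

namespace Vale.Agent.P057T.Mt

open Vale.Agent.P057T.Eq Vale.Agent.P057T.Cp Vale.Agent.P267.H775 Vale.Agent.P057T.Poi

namespace Zrs

variable {ι Γ : Type} [Fintype ι] [DecidableEq ι] [Fintype Γ] [DecidableEq Γ]

def kk (V : Finset ι) (m : ι →₀ ℕ) (a : ι) : ℕ := if a ∈ V then 0 else m a

/-- freeze the variables outside `V` at real values -/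
noncomputable def fr (V : Finset ι) (u : ι → ℝ) (F : MvPolynomial ι ℝ) : MvPolynomial ι ℝ :=
  ∑ m ∈ F.support, monomial (m.filter (· ∈ V)) (coeff m F * ∏ a, u a ^ kk V m a)

theorem aeval_fr {S : Type} [CommRing S] [Algebra ℝ S] (V : Finset ι) (u : ι → ℝ) (f : ι → S)
    (F : MvPolynomial ι ℝ) :
    aeval f (fr V u F) = aeval (fun a => if a ∈ V then f a else algebraMap ℝ S (u a)) F := by
  conv_rhs => rw [F.as_sum]
  unfold fr
  rw [map_sum, map_sum]
  refine sum_congr rfl fun m _ => ?_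
  rw [aeval_monomial, aeval_monomial, Finsupp.prod_fintype _ _ (by simp),
    Finsupp.prod_fintype _ _ (by simp), map_mul, map_prod, mul_assoc, ← prod_mul_distrib]
  congr 1
  refine prod_congr rfl fun a _ => ?_
  by_cases h : a ∈ V <;> simp [kk, h, Finsupp.filter_apply]

theorem supp_fr {V : Finset ι} {u : ι → ℝ} {F : MvPolynomial ι ℝ} {m' : ι →₀ ℕ}
    (h : m' ∈ (fr V u F).support) : ∃ m ∈ F.support, m' = m.filter (· ∈ V) := by
  obtain ⟨m, hm, h1⟩ := mem_biUnion.1 (support_sum h)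
  exact ⟨m, hm, mem_singleton.1 (support_monomial_subset h1)⟩

theorem l1_sum {α : Type} (s : Finset α) (g : α → ι →₀ ℕ) (c : α → ℝ) :
    l1 (∑ i ∈ s, monomial (g i) (c i)) ≤ ∑ i ∈ s, |c i| := by
  unfold l1
  calc _ ≤ ∑ m ∈ (∑ i ∈ s, monomial (g i) (c i) : MvPolynomial ι ℝ).support,
        ∑ i ∈ s, if g i = m then |c i| else 0 := by
        refine sum_le_sum fun m _ => ?_
        rw [coeff_sum]
        refine (abs_sum_le_sum_abs _ _).trans (sum_le_sum fun i _ => ?_)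
        rw [coeff_monomial]
        split_ifs <;> simp
    _ ≤ _ := by
        rw [sum_comm]
        refine sum_le_sum fun i _ => ?_
        rw [sum_ite_eq]
        split_ifs <;> simp

theorem prod_aff (S : Finset ι) (k : ι → ℕ) (u : ι → ℝ) (h : ∑ a ∈ S, k a ≤ 1) :
    ∏ a ∈ S, u a ^ k a = 1 - ∑ a ∈ S, (k a : ℝ) + ∑ a ∈ S, (k a : ℝ) * u a := by
  induction S using Finset.induction_on with
  | empty => simp
  | insert a S ha ih =>
    rw [sum_insert ha] at h
    rw [prod_insert ha, sum_insert ha, sum_insert ha]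
    by_cases h0 : k a = 0
    · rw [ih (by omega), h0]; simp
    · have h1 : k a = 1 := by omega
      have h2 : ∀ b ∈ S, k b = 0 := sum_eq_zero_iff.1 (by omega)
      rw [prod_eq_one fun b hb => by rw [h2 b hb, pow_zero], sum_eq_zero fun b hb => by
        rw [h2 b hb, Nat.cast_zero], sum_eq_zero fun b hb => by rw [h2 b hb, Nat.cast_zero, zero_mul],
        h1]
      simp

theorem prod_le (k : ι → ℕ) (u : ι → ℝ) (Z : ℝ) (hZ : 1 ≤ Z) (h : ∑ a, k a ≤ 1)
    (hu : ∀ a, k a ≠ 0 → |u a| ≤ Z) : |∏ a, u a ^ k a| ≤ Z := by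
  rw [abs_prod]
  calc _ ≤ ∏ a, Z ^ k a := prod_le_prod (fun _ _ => abs_nonneg _) fun a _ => by
        by_cases h0 : k a = 0
        · simp [h0]
        · rw [abs_pow]; exact pow_le_pow_left₀ (abs_nonneg _) (hu a h0) _
    _ ≤ Z := by
        rw [prod_pow_eq_pow_sum]
        exact (pow_le_pow_right₀ hZ h).trans (pow_one Z).le

theorem dg_eq (col : ι → Finset Γ) (c : Γ) (m : ι →₀ ℕ) :
    dg col c m = ∑ a, if c ∈ col a then m a else 0 := by
  unfold dg
  rw [Finsupp.weight_apply, Finsupp.sum_fintype _ _ (by simp)]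
  exact sum_congr rfl fun a _ => by split_ifs <;> simp

theorem memU {U : Finset ι} {F : MvPolynomial ι ℝ} (h : F.vars ⊆ U) {m : ι →₀ ℕ}
    (hm : m ∈ F.support) {a : ι} (ha : m a ≠ 0) : a ∈ U :=
  h ((mem_vars a).2 ⟨m, hm, Finsupp.mem_support_iff.2 ha⟩)

theorem tl_fr (M : MT ι Γ) {A : Finset Γ} {c : Γ} (hc : c ∈ A) (y : ι → ℤ) (u : ι → ℝ)
    {F : MvPolynomial ι ℝ} (h : M.Tl c F) : (M.fib A y).Tl c (fr (M.mv A) u F) := by
  refine ⟨fun a ha => ?_, fun m' hm' c' => ?_, fun m' hm' => ?_⟩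
  · obtain ⟨m', h1, h2⟩ := (mem_vars a).1 ha
    obtain ⟨m, -, rfl⟩ := supp_fr h1
    rw [Finsupp.support_filter] at h2
    exact (mem_filter.1 h2).2
  · obtain ⟨m, hm, rfl⟩ := supp_fr hm'
    refine le_trans ?_ (h.2.1 m hm c')
    rw [dg_eq, dg_eq]
    refine sum_le_sum fun a _ => ?_
    simp only [MT.fib, mem_inter, Finsupp.filter_apply]
    split_ifs <;> first | omega | tauto
  · obtain ⟨m, hm, rfl⟩ := supp_fr hm'
    rw [← h.2.2 m hm, dg_eq, dg_eq]
    refine sum_congr rfl fun a _ => ?_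
    simp only [MT.fib, mem_inter, Finsupp.filter_apply, hc, and_true]
    by_cases h1 : c ∈ M.col a
    · rw [if_pos h1, if_pos h1]
      split_ifs with h2
      · rfl
      · by_contra h3
        exact h2 (mem_filter.2 ⟨memU h.1 hm (Ne.symm h3), c, mem_inter.2 ⟨h1, hc⟩⟩)
    · rw [if_neg h1, if_neg h1]

theorem kk_mem (M : MT ι Γ) {A : Finset Γ} {F : MvPolynomial ι ℝ} (h : F.vars ⊆ M.U) {m : ι →₀ ℕ}
    (hm : m ∈ F.support) {a : ι} (ha : kk (M.mv A) m a ≠ 0) : a ∈ (M.bs A).U := by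
  unfold kk at ha
  split_ifs at ha with h1
  · exact absurd rfl ha
  · exact mem_sdiff.2 ⟨memU h hm ha, h1⟩

theorem kk_le (M : MT ι Γ) (hM : M.Ok) {A : Finset Γ} {e : Γ} (he : (M.bs A).In {e})
    {F : MvPolynomial ι ℝ} (h : F.vars ⊆ M.U) (ht : Ty M.col univ F) {m : ι →₀ ℕ}
    (hm : m ∈ F.support) : ∑ a, kk (M.mv A) m a ≤ 1 := by
  have h1 := ht m hm e
  rw [if_pos (mem_univ e), dg_eq] at h1
  refine le_trans (sum_le_sum fun a _ => ?_) h1
  by_cases h0 : kk (M.mv A) m a = 0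
  · omega
  · have h2 := kk_mem M h hm h0
    obtain ⟨c, hc⟩ := hM.ne a (mem_sdiff.1 h2).1
    have h3 : c = e := mem_singleton.1 (he a h2 hc)
    rw [if_pos (h3 ▸ hc)]
    unfold kk
    split_ifs <;> omega

theorem l1_fr (M : MT ι Γ) (hM : M.Ok) {A : Finset Γ} {e : Γ} (he : (M.bs A).In {e})
    {F : MvPolynomial ι ℝ} (h : F.vars ⊆ M.U) (ht : Ty M.col univ F) (u : ι → ℝ) (Z : ℝ)
    (hZ : 1 ≤ Z) (hu : ∀ a ∈ (M.bs A).U, |u a| ≤ Z) : l1 (fr (M.mv A) u F) ≤ l1 F * Z := by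
  refine (l1_sum _ _ _).trans ?_
  unfold l1
  rw [sum_mul]
  refine sum_le_sum fun m hm => ?_
  rw [abs_mul]
  exact mul_le_mul_of_nonneg_left (prod_le _ u Z hZ (kk_le M hM he h ht hm)
    fun a ha => hu a (kk_mem M h hm ha)) (abs_nonneg _)

theorem aff (M : MT ι Γ) (hM : M.Ok) {A : Finset Γ} {e : Γ} (he : (M.bs A).In {e})
    {F : MvPolynomial ι ℝ} (h : F.vars ⊆ M.U) (ht : Ty M.col univ F) (w : ι → ℝ) :
    ∃ (α : ℝ) (β : (M.bs A).U → ℝ), ∀ u : ι → ℝ,
      aeval w (fr (M.mv A) u F) = α + ∑ a, β a * u a.1 := by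
  let W : (ι →₀ ℕ) → ℝ := fun m => coeff m F * (m.filter (· ∈ M.mv A)).prod fun i k => w i ^ k
  refine ⟨∑ m ∈ F.support, W m * (1 - ∑ a, (kk (M.mv A) m a : ℝ)),
    fun a => ∑ m ∈ F.support, W m * kk (M.mv A) m a.1, fun u => ?_⟩
  unfold fr
  simp only [sum_mul]
  rw [map_sum, sum_comm, ← sum_add_distrib]
  refine sum_congr rfl fun m hm => ?_
  have e1 : ∑ a, (kk (M.mv A) m a : ℝ) * u a = ∑ a : (M.bs A).U, (kk (M.mv A) m a.1 : ℝ) * u a.1 := by
    rw [sum_coe_sort (M.bs A).U fun a => (kk (M.mv A) m a : ℝ) * u a]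
    refine (sum_subset (subset_univ _) fun a _ ha => ?_).symm
    have : kk (M.mv A) m a = 0 := by
      by_contra h0
      exact ha (kk_mem M h hm h0)
    rw [this, Nat.cast_zero, zero_mul]
  rw [aeval_monomial, prod_aff _ _ u (kk_le M hM he h ht hm), e1]
  simp only [mul_assoc, ← mul_sum, W]
  show coeff m F * _ * _ = _
  ring

theorem fz_C (V : Finset ι) (y : ι → ℤ) {F : MvPolynomial ι ℝ} (h : ∀ a ∈ F.vars, a ∉ V) :
    fz V y F = C (eval (cz y) F) := by
  unfold fz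
  exact hom_congr_vars (f₁ := (aeval fun b => if b ∈ V then X b else C (y b : ℝ) :
      MvPolynomial ι ℝ →ₐ[ℝ] MvPolynomial ι ℝ).toRingHom) (f₂ := C.comp (eval (cz y)))
    (by ext1 x; simp) (fun i hi _ => by simp [h i hi, cz]) rfl

theorem num {N d : ℝ} {C r g n : ℕ} (hN : 2 ≤ N) (hd : 0 ≤ d) (hg : g ≤ r) (hn : (n : ℝ) ≤ N)
    (h : N ^ (C + r + 7) * d ≤ 1) :
    N ^ C * d ≤ 1 ∧ (2 ^ g + 1) * d / (N ^ C)⁻¹ ≤ 1 / 40 ∧ 2 ^ g * d ≤ 1 / 2 ∧ d ≤ 1 / 2 ∧
    Real.exp (-(3 / 4 * π * (N ^ 2) ^ 2)) * 2 ^ n ≤ 1 / 60 := by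
  have h1 : 1 ≤ N := by linarith
  have a : 1 ≤ N ^ C := one_le_pow₀ h1
  have b : (2 : ℝ) ^ g ≤ N ^ r :=
    (pow_le_pow_right₀ one_le_two hg).trans (pow_le_pow_left₀ zero_le_two hN r)
  have b1 : (1 : ℝ) ≤ 2 ^ g := one_le_pow₀ one_le_two
  have c : (128 : ℝ) ≤ N ^ 7 := le_trans (by norm_num) (pow_le_pow_left₀ zero_le_two hN 7)
  have k : 2 ^ g * 128 * (N ^ C * d) ≤ 1 := by
    refine le_trans (mul_le_mul_of_nonneg_right (mul_le_mul b c (by norm_num) (by positivity))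
      (by positivity)) (le_trans (le_of_eq ?_) h)
    ring
  have x0 : 0 ≤ N ^ C * d := by positivity
  have x1 : d ≤ N ^ C * d := le_mul_of_one_le_left hd a
  have x2 : N ^ C * d ≤ 2 ^ g * (N ^ C * d) := le_mul_of_one_le_left x0 b1
  have x3 : 2 ^ g * d ≤ 2 ^ g * (N ^ C * d) := mul_le_mul_of_nonneg_left x1 (by positivity)
  refine ⟨by linarith, ?_, by linarith, by linarith, ?_⟩
  · rw [div_inv_eq_mul]
    linarith
  · have p1 : (2 : ℝ) ^ n ≤ Real.exp N := by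
      refine le_trans (pow_le_pow_left₀ zero_le_two (b := Real.exp 1)
        (by linarith [Real.add_one_le_exp (1 : ℝ)]) n) ?_
      rw [← Real.exp_nat_mul, mul_one]
      exact Real.exp_le_exp.2 hn
    have p2 : 8 * N ≤ (N ^ 2) ^ 2 := by
      have : (8 : ℝ) ≤ N ^ 3 := le_trans (by norm_num) (pow_le_pow_left₀ zero_le_two hN 3)
      nlinarith
    have p3 : 2 * (N ^ 2) ^ 2 ≤ 3 / 4 * π * (N ^ 2) ^ 2 :=
      mul_le_mul_of_nonneg_right (by linarith [Real.pi_gt_three]) (by positivity)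
    have p4 : (60 : ℝ) ≤ Real.exp 30 :=
      le_trans (by norm_num) (Real.quadratic_le_exp_of_nonneg (by norm_num : (0 : ℝ) ≤ 30))
    refine (mul_le_mul_of_nonneg_left p1 (Real.exp_pos _).le).trans ?_
    rw [← Real.exp_add]
    refine (Real.exp_le_exp.2 (by linarith : _ ≤ -(30 : ℝ))).trans ?_
    rw [Real.exp_neg, one_div]
    exact inv_anti₀ (by norm_num) p4

/-- an affine function that vanishes on the good points is zero -/
theorem lat {κ : Type} [Fintype κ] [DecidableEq κ] {L : Matrix κ κ ℝ} (hL : L.det ≠ 0) (x β : κ → ℝ)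
    (α K : ℝ) (h : (κ → ℤ) → ℝ) (h0 : ∀ n, h n = 0 ∨ h n = 1)
    (h4 : |((4 : ℝ) • L).det| * th ((4 : ℝ) • L) 0 ≤ 3 / 2) (h1 : |L.det| * th L 0 ≤ 3 / 2)
    (hx : 1 / 2 ≤ |L.det| * th L x) (hK : Real.exp (-(3 / 4 * π * K)) * 2 ^ Fintype.card κ ≤ 1 / 60)
    (hh : |L.det| * ∑' n, gq L (x + toR n) * h n ≤ 1 / 40)
    (hg : ∀ n, h n = 0 → qf L (x + toR n) < K → α + ∑ a, β a * (L *ᵥ (x + toR n)) a = 0) :
    α = 0 ∧ β = 0 := by
  have hD : 0 < |L.det| := abs_pos.2 hL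
  have sg := summable_gq hL x
  have g0 : ∀ n, 0 ≤ gq L (x + toR n) := fun n => (gq_pos _ _).le
  have s1 : Summable fun n => gq L (x + toR n) * h n :=
    Summable.of_nonneg_of_le (fun n => by rcases h0 n with e | e <;> simp [e, g0])
      (fun n => by rcases h0 n with e | e <;> simp [e, g0]) sg
  have s2 : Summable fun n => if K ≤ qf L (x + toR n) then gq L (x + toR n) else 0 :=
    Summable.of_nonneg_of_le (fun n => by split_ifs <;> simp [g0])
      (fun n => by split_ifs <;> simp [g0]) sg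
  have e : ∀ n : κ → ℤ, ∑ i, (β ᵥ* L) i * (n i : ℝ) + (α + β ⬝ᵥ (L *ᵥ x)) =
      α + ∑ a, β a * (L *ᵥ (x + toR n)) a := fun n => by
    have a : ∑ i, (β ᵥ* L) i * (n i : ℝ) = β ⬝ᵥ (L *ᵥ toR n) := by rw [dotProduct_mulVec]; rfl
    have b : ∑ a, β a * (L *ᵥ (x + toR n)) a = β ⬝ᵥ (L *ᵥ (x + toR n)) := rfl
    rw [a, b, mulVec_add, dotProduct_add]; ring
  have hb : ∑' n : κ → ℤ, (if ∑ i, (β ᵥ* L) i * (n i : ℝ) + (α + β ⬝ᵥ (L *ᵥ x)) = 0 then 0
      else gq L (x + toR n)) ≤ 1 / 10 * th L x := by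
    have a : ∑' n : κ → ℤ, (if ∑ i, (β ᵥ* L) i * (n i : ℝ) + (α + β ⬝ᵥ (L *ᵥ x)) = 0 then 0
        else gq L (x + toR n)) ≤ ∑' n, (gq L (x + toR n) * h n +
          if K ≤ qf L (x + toR n) then gq L (x + toR n) else 0) := by
      refine Summable.tsum_le_tsum (fun n => ?_) (Summable.of_nonneg_of_le
        (fun n => by split_ifs <;> simp [g0]) (fun n => by split_ifs <;> simp [g0]) sg) (s1.add s2)
      have := g0 n
      rcases h0 n with e1 | e1
      · by_cases e2 : K ≤ qf L (x + toR n)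
        · rw [if_pos e2, e1]; split_ifs <;> linarith
        · rw [if_pos ((e n).trans (hg n e1 (not_le.1 e2))), if_neg e2, e1]; simp
      · rw [e1]; split_ifs <;> linarith
    rw [s1.tsum_add s2] at a
    have b := tail_le hL x K
    have c := mul_le_mul hK h1 (mul_nonneg hD.le (th_pos hL 0).le) (by norm_num)
    refine le_of_mul_le_mul_left ?_ hD
    have a' := mul_le_mul_of_nonneg_left a hD.le
    have b' := mul_le_mul_of_nonneg_left b hD.le
    linarith only [a', b', c, hh, hx]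
  have hθ : th ((1 / 4 : ℝ) • (L⁻¹)ᵀ) 0 ≤ 3 / 2 := by
    rw [← th_dual (det_smul_ne (by norm_num) hL), dual_smul (by norm_num) hL] at h4
    simpa using h4
  have hl := aff_zero hL x _ _ hθ hb
  have hβ : β = 0 := eq_zero_of_vecMul_eq_zero hL hl
  refine ⟨?_, hβ⟩
  by_contra hα
  simp only [hβ, zero_vecMul, Pi.zero_apply, zero_mul, sum_const_zero, zero_dotProduct, add_zero,
    zero_add, if_neg hα] at hb
  have : th L x ≤ 1 / 10 * th L x := hb
  linarith [th_pos hL x]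

end Zrs

open Zrs in
theorem zrs (hO : OPS) (hL : LAT) (hS : SUBT) (hF : FRZ) (hT : FIBT) (r j : ℕ) :
    ZRn r j → ZRn r (j + 1) := by
  classical
  rintro ⟨C0, ih⟩
  refine ⟨C0 + r + 7, ?_⟩
  intro ι Γ _ _ _ _ M A c N H Λ d hM hr hι hN hH hΛ hd hth hA hc hcard
  have h1 : 1 ≤ N := by linarith
  have hp : ∀ a, a ≤ C0 + r + 7 → N ^ a * H ≤ Λ := fun a ha =>
    (mul_le_mul_of_nonneg_right (pow_le_pow_right₀ h1 ha) (by linarith)).trans hΛ
  have hN2 : 4 ≤ N ^ 2 := by nlinarith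
  have h4 : 4 ≤ Λ := le_trans (by nlinarith) (hp 2 (by omega))
  obtain ⟨d0, -, -, -, sb, -⟩ := hS ι Γ M 0 Λ d hM (by linarith) hth
  by_cases hex : ∃ e ∈ A, e ≠ c
  swap
  · have hA1 : A ⊆ {c} := fun e he => mem_singleton.2 (by
      by_contra h
      exact hex ⟨e, he, h⟩)
    exact ih ι Γ M A c N H Λ d hM hr hι hN hH (hp _ (by omega))
      (num (n := 0) hN d0 hr (by simp; linarith) hd).1 hth hA hc
      ((card_le_card hA1).trans (by simp))
  obtain ⟨e, he, hec⟩ := hex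
  have hc1 : c ∈ A.erase e := mem_erase.2 ⟨hec.symm, hc⟩
  have hk : (A.erase e).card ≤ j + 1 := by rw [card_erase_of_mem he]; omega
  generalize hA1 : A.erase e = A1 at hc1 hk
  obtain ⟨-, -, -, -, o5, o6, -⟩ := hO ι Γ M hM
  have hin : (M.bs A1).In {e} := fun a ha => (((hF ι Γ M A1 c 0 hM hc1).2.2.2.2.2.2.2.2.2 A hA).2
    a ha).trans fun x hx => by
      rw [← hA1, mem_sdiff, mem_erase] at hx
      rw [mem_singleton]
      tauto
  obtain ⟨L, x, l1', -, l3, l4⟩ := hL ι Γ (M.bs A1) e (o5 A1) hin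
  obtain ⟨-, -, s3, -, -, s6⟩ := hS ι Γ (M.bs A1) 0 Λ d (o5 A1) (by linarith) (sb A1)
  obtain ⟨-, n2, n3, n4, n5⟩ := num (n := Fintype.card (M.bs A1).U) hN d0 hr
    (le_trans (by exact_mod_cast Fintype.card_subtype_le _) hι) hd
  have hNC : 0 < N ^ C0 := by positivity
  have ft := (hT ι Γ M A1 0 Λ d (N ^ C0)⁻¹ hM (by linarith) (inv_pos.2 hNC) hth).trans n2
  have nw : ∀ l : ℝ, 0 < l → l ≤ Λ → |(l • L).det| * th (l • L) 0 ≤ 3 / 2 := fun l a b => by
    have k := s6 e l a b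
    rw [MT.nm, (l4 ℝ _).2 l a] at k
    simp only [smul_eq_mul, mul_one] at k
    rw [th_zero]
    linarith only [k, n4]
  have nx : 1 / 2 ≤ |L.det| * th L x := by
    rw [MT.nm, (l4 ℝ _).1] at s3
    simp only [smul_eq_mul, mul_one] at s3
    have : th L x = ∑' n, gq L (x + toR n) := rfl
    rw [this]
    linarith only [s3, n3]
  rw [(l4 ℝ _).1] at ft
  intro I b hI tI tb hb hIb
  have ev : ∀ (n : (M.bs A1).U → ℤ) (a : (M.bs A1).U),
      eval (cz (ext0 (M.bs A1).U n)) (M.sc a) = (L *ᵥ (x + toR n)) a := fun n a => by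
    have k : M.sc a = _ := l3 a
    rw [k, mulVec_add, Pi.add_apply, add_comm (_ : ℝ), map_add, eval_C, map_sum]
    congr 1
    refine sum_congr rfl fun i _ => ?_
    simp [cz, ext0, toR]
  have b0 : b = 0 := by
    refine MvPolynomial.funext fun w => ?_
    obtain ⟨α, β, hab⟩ := aff M hM hin tb.1 tb.2.1 w
    obtain ⟨a1, a2⟩ := lat l1' x β α ((N ^ 2) ^ 2) (fun n => if (M.fib A1 (ext0 (M.bs A1).U n)).TH 0 Λ
        (N ^ C0)⁻¹ then (0 : ℝ) else 1) (fun n => by split_ifs <;> simp)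
      (nw 4 (by norm_num) h4) (by simpa using nw 1 one_pos (by linarith)) nx n5 ft fun n g1 g2 => by
        generalize hy : ext0 (M.bs A1).U n = y at g1
        have g3 : (M.fib A1 y).TH 0 Λ (N ^ C0)⁻¹ := by
          by_contra h
          rw [if_neg h] at g1
          exact one_ne_zero g1
        obtain ⟨f1, -, -, f4, -, f6, f7, -, -, f10⟩ := hF ι Γ M A1 c y hM hc1
        have hu : ∀ a ∈ (M.bs A1).U, |eval (cz y) (M.sc a)| ≤ N ^ 2 := fun a ha => by
          rw [← hy, ev n ⟨a, ha⟩]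
          exact abs_le_of_sq_le_sq ((single_le_sum (f := fun i => (L *ᵥ (x + toR n)) i ^ 2)
            (fun _ _ => sq_nonneg _) (mem_univ _)).trans g2.le) (by positivity)
        have q := ih ι Γ (M.fib A1 y) (A ∩ A1) c N (H * N ^ 2) Λ (N ^ C0)⁻¹ (o6 A1 y).1 hr hι hN
          (by nlinarith) (le_trans (le_of_eq (by ring)) (hp (C0 + 2) (by omega)))
          (mul_inv_cancel₀ hNC.ne').le g3 (f10 A hA).1 (mem_inter.2 ⟨hc, hc1⟩)
          ((card_le_card inter_subset_right).trans hk) (fz (M.mv A1) y I)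
          (fr (M.mv A1) (fun a => eval (cz y) (M.sc a)) b) (f1 I hI) (f4 I tI) (tl_fr M hc1 y _ tb)
          ((l1_fr M hM hin tb.1 tb.2.1 _ _ (by linarith) hu).trans
            (mul_le_mul_of_nonneg_right hb (by positivity))) (by
            rw [hIb, MT.ph, MT.ph, aeval_fr, fz, ← AlgHom.comp_apply, comp_aeval]
            refine hom_congr_vars (f₁ := AlgHom.toRingHom _) (f₂ := AlgHom.toRingHom _)
              (by ext1 x; simp) (fun i hi _ => ?_) rfl
            simp only [AlgHom.toRingHom_eq_coe, RingHom.coe_coe, aeval_X]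
            split_ifs with h
            · exact (f6 i h).symm
            · have hi' : i ∈ (M.bs A1).U := mem_sdiff.2 ⟨tb.1 hi, h⟩
              rw [(f7 i hi').1]
              exact fz_C _ y fun a ha => (mem_sdiff.1 ((f7 i hi').2 ha)).2)
        have k := hab fun a => eval (cz y) (M.sc a)
        rw [q.2, map_zero] at k
        rw [k]
        simp only [← hy, ev]
    have k := hab w
    rw [aeval_fr, a1, a2] at k
    simp only [Algebra.algebraMap_self, RingHom.id_apply, ite_self, Pi.zero_apply, zero_mul,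
      sum_const_zero, add_zero] at k
    rw [map_zero]
    exact k
  exact ⟨by rw [hIb, b0, map_zero], b0⟩

theorem zr (h : ∀ r j, ZRn r j) : ZR := by
  intro r
  obtain ⟨C0, h⟩ := h r r
  refine ⟨C0, ?_⟩
  intro ι Γ _ _ _ _ M c N H Λ d I b hM hr hι hN hH hΛ hd hth hI v1 v2 t1 t2 i1 i2 hb e
  exact h ι Γ M univ c N H Λ d hM hr hι hN hH hΛ hd hth (fun _ _ => subset_univ _) (mem_univ c)
    (by rw [card_univ]; omega) I b hI ⟨v1, t1, i1⟩ ⟨v2, t2, i2⟩ hb e

end Vale.Agent.P057T.Mt
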