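import Vale.Agent.P057T.Mt.All
import Vale.Agent.P057T.Mt.Lat
import Vale.Agent.P057T.Mt.Subt
import Vale.Agent.P057T.Mt.Enm
import Vale.Agent.P057T.Mt.Frz
import Vale.Agent.P057T.Mt.Zr0
import Vale.Agent.P057T.Mt.Zrs
import Vale.Agent.P057T.Mt.Sq0
import Vale.Agent.P057T.Mt.Sel
import Vale.Agent.P057T.Mt.Jok
import Vale.Agent.P057T.Mt.Ja
import Vale.Agent.P057T.Mt.Jz
import Vale.Agent.P057T.Mt.Alt
import Vale.Agent.P057T.Mt.Invm
import Vale.Agent.P057T.Mt.StpH6
import Vale.Agent.P057T.Mt.SbR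
import Vale.Agent.P057T.Mt.Lva
import Vale.Agent.P057T.Mt.Jp
import Vale.Agent.P057T.Mt.Qm
import Vale.Agent.P057T.Mt.Dec

/-! Uniqueness and strong equidistribution, closed. -/

namespace Vale.Agent.P057T.Mt.All

open Vale.Agent.P057T.Mt

theorem latc : LAT := lat tokc opsc
theorem subtc : SUBT := subt tokc opsc embc thmc
theorem enmc : ENM := enm tokc Eq.summ
theorem frzc : FRZ := frz tokc opsc

theorem zrn (r j : ℕ) : ZRn r j := by
  induction j with
  | zero => exact zr0 latc subtc r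
  | succ j ih => exact zrs opsc latc subtc frzc fibtc r j ih

theorem zrc : ZR := zr zrn
theorem invmc : INVM := invm tokc frzc
theorem jac : JA := ja tokc opsc frzc jok0

theorem seq_of (hP : JP) (hQ : QM) (hD : DEC) : SEQ := StpH6.seq fun r j => by
  induction j with
  | zero => exact sq0 latc subtc frzc r
  | succ j ih =>
    exact StpH6.stp opsc subtc frzc zrc (jz opsc enmc thmc fibtc zrc jok0 hP jac r) alt0 addm hQ
      (lva opsc latc frzc invmc hD sbR) ih (sel opsc fumc subtc enmc frzc fibtc r j ih)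

theorem seqc : SEQ := seq_of (jp tokc opsc) (qm latc) (dec tokc opsc frzc)

end Vale.Agent.P057T.Mt.All
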