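import Vale.Agent.P057T.Mt.Seq

/-! Row STP: the step of strong equidistribution, and SEQ. -/

set_option linter.all false

open MvPolynomial Finset

namespace Vale.Agent.P057T.Mt

open Vale.Agent.P057T.Eq Vale.Agent.P057T.Cp

namespace H36

variable {ι Γ : Type} [Fintype ι] [DecidableEq ι] [Fintype Γ] [DecidableEq Γ]

lemma ib_mono {M : MT ι Γ} {c : Γ} {F : MvPolynomial ι ℝ} {H H' : ℝ} (h : M.IB c F H)
    (hH : H ≤ H') : M.IB c F H' := by
  obtain ⟨I, b, h1, h2, h3, h4, h5, h6, h7, h8, h9⟩ := h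
  exact ⟨I, b, h1, h2, h3, h4, h5, h6, h7, h8.trans hH, h9⟩

lemma tl_C {M : MT ι Γ} {c : Γ} {F : MvPolynomial ι ℝ} (t : ℝ) (h : M.Tl c F) :
    M.Tl c (C t * F) := by
  have hs : (C t * F).support ⊆ F.support := by
    rw [← smul_eq_C_mul]
    exact support_smul
  refine ⟨(vars_mul _ _).trans ?_, fun m hm => h.2.1 m (hs hm), fun m hm => h.2.2 m (hs hm)⟩
  rw [vars_C, empty_union]
  exact h.1

lemma ex_of_pos (M : MT ι Γ) {S : (ι → ℤ) → Prop} (h : 0 < M.En fun z => ind (S z)) :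
    ∃ z, S z := by
  by_contra hn
  have e : (fun z => ind (S z)) = fun _ => (0 : ℝ) := funext fun z => by
    unfold ind
    rw [if_neg fun hz => hn ⟨z, hz⟩]
  rw [e] at h
  simp [MT.En, Ex] at h

lemma mov (h0 : ALT0) (hA : ADDM) (M : MT ι Γ) (B : Finset Γ) (c e : Γ) (l H : ℝ)
    (F : MvPolynomial ι ℝ) (hM : M.Ok) (hIn : M.In (insert e B)) (heB : e ∉ B) (hFt : M.Tl c F)
    (hl : 0 < l) : ∃ I b : (ι → ℤ) → MvPolynomial ι ℝ,
      (∀ y, (M.fib B y).IB c (fz (M.mv B) y F) H → IsZ (I y) ∧ (M.fib B y).Tl c (I y) ∧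
        (M.fib B y).Tl c (b y) ∧ l1 (b y) ≤ H ∧
          fz (M.mv B) y F = I y + (M.fib B y).ph c (b y)) ∧
      ∀ x y : Bool → ι → ℤ,
        (∀ p q, (M.fib B (x p + y q)).IB c (fz (M.mv B) (x p + y q) F) H) → M.ZQ B c e l H x y →
        b (x false + y true) - M.ko e (b (x false + y true)) =
          b (x false + y false) - M.ko e (b (x false + y false)) ∧
          Li M.col e (b (x false + y false) - M.ko e (b (x false + y false))) := by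
  have hch : ∀ y, ∃ I b : MvPolynomial ι ℝ,
      (M.fib B y).IB c (fz (M.mv B) y F) H → IsZ I ∧ (M.fib B y).Tl c I ∧
        (M.fib B y).Tl c b ∧ l1 b ≤ H ∧ fz (M.mv B) y F = I + (M.fib B y).ph c b := by
    intro y
    by_cases h : (M.fib B y).IB c (fz (M.mv B) y F) H
    · obtain ⟨I, b, h1, h2, h3, h4, h5, h6, h7, h8, h9⟩ := h
      exact ⟨I, b, fun _ => ⟨h1, ⟨h2, h4, h6⟩, ⟨h3, h5, h7⟩, h8, h9⟩⟩
    · exact ⟨0, 0, fun h' => absurd h' h⟩
  choose I b hIb using hch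
  refine ⟨I, b, hIb, fun x y hg hz => ?_⟩
  have e1 : (fun p q : Bool => I (x p + y q) + (M.fib B (x p + y q)).ph c (b (x p + y q))) =
      fun p q => fz (M.mv B) (x p + y q) F := by
    funext p q
    obtain ⟨-, -, -, -, i5⟩ := hIb (x p + y q) (hg p q)
    exact i5.symm
  have e2 : M.alt e 1
      (fun p q : Bool => I (x p + y q) + (M.fib B (x p + y q)).ph c (b (x p + y q))) = 0 := by
    rw [e1]
    exact h0 ι Γ M B e F x y hM hIn heB hFt.1 hFt.2.1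
  have h1 : M.alt e l⁻¹ (fun p q => b (x p + y q)) = 0 :=
    hz (fun p q => I (x p + y q)) (fun p q => b (x p + y q)) (fun p q => by
      obtain ⟨i1, i2, i3, i4, -⟩ := hIb (x p + y q) (hg p q)
      exact ⟨i1, i2, i3, i4⟩) e2
  exact hA ι Γ M e l⁻¹ (fun p q => b (x p + y q)) (inv_ne_zero hl.ne') h1

theorem stp (hO : OPS) (hS : SUBT) (hF : FRZ) (hZ : ZR) (r j : ℕ) (hJ : JZ r) (h0 : ALT0)
    (hA : ADDM) (hQ : QM) (hL : LVA) (hq : SQn r j) (hs : SEL r j) : SQn r (j + 1) := by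
  obtain ⟨Cs, hq⟩ := hq
  obtain ⟨C1, hs⟩ := hs
  obtain ⟨Cz, hJ⟩ := hJ
  obtain ⟨Cq, hQ⟩ := hQ
  obtain ⟨Cl, hL⟩ := hL
  obtain ⟨Cr, hZ⟩ := hZ r
  obtain ⟨u, hu⟩ : ∃ u, u = (C1 + 1) * Cq := ⟨_, rfl⟩
  obtain ⟨v, hv⟩ : ∃ v, v = (C1 + 1) * (Cq + 1) * Cl := ⟨_, rfl⟩
  refine ⟨Cs + C1 + Cz + Cr + v + 2 * u + 1, ?_⟩
  intro ι Γ _ _ _ _ M A c N R Λ d Q hM hΓ hι hN hR hΛ hd hT hIn hc hcard hQv hQt hb
  obtain ⟨K, hK⟩ : ∃ K, K = Cs + C1 + Cz + Cr + v + 2 * u + 1 := ⟨_, rfl⟩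
  rw [← hK] at hΛ hd ⊢
  have hN1 : (1 : ℝ) ≤ N := by linarith
  have hR1 : (1 : ℝ) ≤ R := by linarith
  have hX2 : 2 ≤ N * R := by nlinarith
  have hX1 : 1 ≤ N * R := by linarith
  have hNX : N ≤ N * R := le_mul_of_one_le_right (by linarith) hR1
  have hRX : R ≤ N * R := le_mul_of_one_le_left (by linarith) hN1
  have pX : ∀ k, k ≤ K → (N * R) ^ k ≤ (N * R) ^ K := fun k hk => pow_le_pow_right₀ hX1 hk
  have pR : ∀ k, k ≤ K → R ^ k ≤ R ^ K := fun k hk => pow_le_pow_right₀ hR1 hk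
  have oX : ∀ k : ℕ, 1 ≤ (N * R) ^ k := fun k => one_le_pow₀ hX1
  have hΛ1 : 1 ≤ Λ := (oX K).trans hΛ
  obtain ⟨d0, -, -, -, hTb, -⟩ := hS ι Γ M 3 Λ d hM hΛ1 hT
  have lΛ : ∀ k, k ≤ K → (N * R) ^ k ≤ Λ := fun k hk => (pX k hk).trans hΛ
  have ld : ∀ k, k ≤ K → (N * R) ^ k * d ≤ 1 := fun k hk =>
    (mul_le_mul_of_nonneg_right (pX k hk) d0).trans hd
  by_cases hsm : A.card ≤ j + 1
  · obtain ⟨n, n1, n2, n3⟩ := hq ι Γ M A c N R Λ d Q hM hΓ hι hN hR (lΛ Cs (by omega))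
      (ld Cs (by omega)) hT hIn hc hsm hQv hQt hb
    exact ⟨n, n1, n2.trans (pR Cs (by omega)), ib_mono n3 (pX Cs (by omega))⟩
  obtain ⟨e, he, hec⟩ := exists_mem_ne (by omega : 1 < A.card) c
  obtain ⟨B, hB⟩ : ∃ B, B = A.erase e := ⟨_, rfl⟩
  have hiB : insert e B = A := by rw [hB, insert_erase he]
  have heB : e ∉ B := by rw [hB]; exact notMem_erase e A
  have hcB : c ∈ B := by rw [hB]; exact mem_erase.2 ⟨hec.symm, hc⟩
  have hcard' : B.card ≤ j + 1 := by rw [hB, card_erase_of_mem he]; omega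
  have hIn' : M.In (insert e B) := by rwa [hiB]
  obtain ⟨n, n1, n2, hG⟩ := hs ι Γ M B c N R Λ d Q hM hΓ hι hN hR (lΛ C1 (by omega))
    (ld C1 (by omega)) hT hcB hcard' hQv hQt hb
  obtain ⟨-, -, -, -, f5, -, -, -, -, f10⟩ := hF ι Γ M B c 0 hM hcB
  have hFt : M.Tl c (C (n : ℝ) * kp M.col {c} Q) := tl_C _ (f5 Q hQv hQt)
  generalize hFd : C (n : ℝ) * kp M.col {c} Q = F at hG hFt
  obtain ⟨-, -, -, -, o5, -⟩ := hO ι Γ M hM
  have hI0 : (M.bs B).In {e} := fun a ha => ((f10 _ hIn').2 a ha).trans fun x hx => by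
    rw [mem_sdiff, mem_insert] at hx
    exact mem_singleton.2 (hx.1.resolve_right hx.2)
  obtain ⟨-, -, -, -, -, hnw⟩ := hS ι Γ (M.bs B) 3 Λ d (o5 B) hΛ1 (hTb B)
  have NR : ∀ k : ℕ, 1 ≤ k → N * R ^ k ≤ (N * R) ^ k := fun k hk => by
    rw [mul_pow]
    exact mul_le_mul_of_nonneg_right (le_self_pow₀ hN1 (by omega)) (by positivity)
  have R2 : ∀ k : ℕ, 1 ≤ k → 2 ≤ R ^ k := fun k hk => hR.trans (le_self_pow₀ hR1 (by omega))
  have eq1 : (N * R ^ (C1 + 1)) ^ Cq ≤ (N * R) ^ u := by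
    rw [hu, pow_mul]
    exact pow_le_pow_left₀ (by positivity) (NR _ (by omega)) _
  have eq2 : (R ^ (C1 + 1)) ^ Cq ≤ (N * R) ^ u := by
    rw [hu, pow_mul]
    exact pow_le_pow_left₀ (by positivity) (pow_le_pow_left₀ (by positivity) hRX _) _
  have eqd : ∀ k, k + u ≤ K → N ^ k * d ≤ ((R ^ (C1 + 1)) ^ Cq)⁻¹ := by
    intro k hk
    have h1 := ld (k + u) hk
    have h2 : (0 : ℝ) < (R ^ (C1 + 1)) ^ Cq := by positivity
    rw [← one_div, le_div_iff₀ h2]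
    refine le_trans ?_ h1
    rw [pow_add (N * R), mul_right_comm]
    refine mul_le_mul_of_nonneg_right ?_ d0
    exact mul_le_mul (pow_le_pow_left₀ (by positivity) hNX _) eq2 h2.le (by positivity)
  have hbad := hJ ι Γ M B c e N ((N * R) ^ C1) ((N * R) ^ u) Λ d hM hΓ hι hN (oX _) (oX _)
    (le_trans (by
      rw [pow_add, pow_add]
      gcongr) (lΛ (Cz + C1 + u) (by omega))) hT hIn' heB hcB
  obtain ⟨a0, a1, b0, S, -, hSd, hSp⟩ := hQ ι Γ (M.bs B) e N (R ^ (C1 + 1)) ((N * R) ^ u)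
    (fun y => (M.fib B y).IB c (fz (M.mv B) y F) ((N * R) ^ C1))
    (fun x y => ¬ M.ZQ B c e ((N * R) ^ u) ((N * R) ^ C1) x y) (o5 B) hI0 hι hN (R2 _ (by omega)) eq1
    ((hnw e _ (by positivity) (lΛ u (by omega))).trans (by
      have := eqd 0 (by omega)
      rw [pow_zero, one_mul] at this
      linarith))
    (le_trans (inv_anti₀ (by positivity) (pow_le_pow_right₀ hR1 (by omega))) hG)
    (hbad.trans (eqd Cz (by omega)))
  obtain ⟨I, b, hIb, key0⟩ := mov h0 hA M B c e ((N * R) ^ u) ((N * R) ^ C1) F hM hIn' heB hFt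
    (by positivity)
  have key : ∀ b1, S b1 → b (a0 + b1) - M.ko e (b (a0 + b1)) = b (a0 + b0) - M.ko e (b (a0 + b0)) ∧
      Li M.col e (b (a0 + b0) - M.ko e (b (a0 + b0))) := by
    intro b1 hb1
    obtain ⟨-, g00, g01, g10, g11, hz, -⟩ := hSp b1 hb1
    refine key0 (fun p => cond p a1 a0) (fun q => cond q b1 b0) (fun p q => ?_) (not_not.1 hz)
    cases p <;> cases q
    exacts [g00, g01, g10, g11]
  obtain ⟨b1, hb1⟩ := ex_of_pos _ (lt_of_lt_of_le (by positivity) hSd)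
  have eq3 : (N * R ^ ((C1 + 1) * (Cq + 1))) ^ Cl ≤ (N * R) ^ v := by
    rw [hv, pow_mul (N * R)]
    exact pow_le_pow_left₀ (by positivity) (NR _ (Nat.succ_le_of_lt (by positivity))) _
  have eq4 : (R ^ ((C1 + 1) * (Cq + 1))) ^ Cl = R ^ v := by rw [hv, pow_mul R _ Cl]
  have hd2 : d ≤ 1 / 2 := by
    have := ld 1 (by omega)
    rw [pow_one] at this
    nlinarith
  have hU : (M.bs {e}).Uq c ((R ^ ((C1 + 1) * (Cq + 1))) ^ Cl * (N * R) ^ C1) := by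
    obtain ⟨-, -, -, s4, -, -⟩ := hS ι Γ (M.bs {e}) 3 Λ d (o5 _) hΛ1 (hTb _)
    intro I' b' i1 i2 i3 i4 i5
    refine hZ ι Γ (M.bs {e}) c N _ Λ d I' b' (o5 _) hΓ hι hN ?_ ?_ ?_
      (s4 0 Λ d (by omega) (by linarith) le_rfl le_rfl) i1 i2.1 i3.1 i2.2.1 i3.2.1 i2.2.2 i3.2.2
      i4 i5
    · rw [eq4]
      exact one_le_mul_of_one_le_of_one_le (one_le_pow₀ hR1) (oX _)
    · refine le_trans ?_ (lΛ (Cr + (v + C1)) (by omega))
      rw [eq4, pow_add, pow_add]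
      gcongr
    · exact (mul_le_mul_of_nonneg_right (pow_le_pow_left₀ (by positivity) hNX _) d0).trans
        (ld Cr (by omega))
  obtain ⟨m, m1, m2, m3⟩ := hL ι Γ M B c e N (R ^ ((C1 + 1) * (Cq + 1))) ((N * R) ^ C1)
    ((N * R) ^ u) ((N * R) ^ u) F _ a0 S hM hι hN (R2 _ (Nat.succ_le_of_lt (by positivity)))
    (oX _) (oX _) (oX _) hIn' heB hcB hFt (key b1 hb1).2
    ((hnw e _ (by positivity) (le_trans (by
      rw [pow_add]
      exact mul_le_mul_of_nonneg_left eq3 (by positivity)) (lΛ (u + v) (by omega)))).trans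
      (by linarith)) hU
    (le_trans (inv_anti₀ (by positivity) (by
      rw [← pow_mul]
      exact pow_le_pow_right₀ hR1 (Nat.mul_le_mul_left _ (Nat.le_succ _)))) hSd)
    (fun y hy => by
      obtain ⟨-, -, g01, -, -, -, hz⟩ := hSp y hy
      obtain ⟨i1, i2, i3, i4, i5⟩ := hIb _ g01
      exact ⟨fun w hw => (hz w hw).trans eq1, _, _, i1, i2, i3, i4, i5, (key y hy).1⟩)
  refine ⟨m * n, Nat.mul_pos m1 n1, ?_, ?_⟩
  · rw [eq4] at m2
    refine le_trans ?_ (pR (v + C1) (by omega))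
    rw [pow_add]
    push_cast
    exact mul_le_mul m2 n2 (by positivity) (by positivity)
  · have e1 : C ((m * n : ℕ) : ℝ) * kp M.col {c} Q = C (m : ℝ) * F := by
      rw [← hFd, Nat.cast_mul, C_mul, mul_assoc]
    rw [e1]
    refine ib_mono m3 (le_trans ?_ (pX (v + C1 + u + u) (by omega)))
    rw [pow_add, pow_add, pow_add]
    gcongr

theorem seq (h : ∀ r j, SQn r j) : SEQ := by
  intro r
  obtain ⟨C, h⟩ := h r r
  refine ⟨3, C, ?_⟩
  intro ι Γ _ _ _ _ M c N R Λ d Q hM hΓ hι hN hR hΛ hd hT hQv hQt hb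
  exact h ι Γ M univ c N R Λ d Q hM hΓ hι hN hR hΛ hd hT (fun a _ => subset_univ _) (mem_univ c)
    (by rw [card_univ]; omega) hQv hQt hb

/-- the whole induction -/
theorem seq_of (hO : OPS) (hS : SUBT) (hF : FRZ) (hZ : ZR) (hJ : ∀ r, JZ r) (h0 : ALT0)
    (hA : ADDM) (hQ : QM) (hL : LVA) (hb : ∀ r, SQn r 0) (hs : ∀ r j, SQn r j → SEL r j) : SEQ :=
  seq fun r j => by
    induction j with
    | zero => exact hb r
    | succ j ih => exact stp hO hS hF hZ r j (hJ r) h0 hA hQ hL ih (hs r j ih)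

end H36

end Vale.Agent.P057T.Mt
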